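import Vale.Agent.P074.Stability
import Mathlib.MeasureTheory.Measure.Lebesgue.EqHaar
import Mathlib.Analysis.Convex.Basic

/-!
Gradients of convex functions are controlled by the cube root of their mean square difference.
-/

open MeasureTheory Finset Metric Filter Topology
open scoped RealInnerProductSpace

namespace Vale.Agent.P074

variable {d : ℕ} {K : Set (Space d)} {R : ℝ} {T S : Space d → Space d} {φ₁ φ₂ : Space d → ℝ}

theorem coord_sq_le {i : Fin d} {t : ℝ} (ht : 0 < t) (hT : ∀ z, ‖T z‖ ≤ R) (hS : ∀ z, ‖S z‖ ≤ R) {x : Space d}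
    (h₁ : ∀ w, φ₁ x + ⟪w - x, T x⟫ ≤ φ₁ w) (h₂ : ∀ w, φ₂ x + ⟪w - x, S x⟫ ≤ φ₂ w)
    (h₁mid : 0 ≤ secDiff φ₁ (t • EuclideanSpace.single i (1 : ℝ)) x) (c : ℝ) :
    (S x - T x) i ^ 2 ≤ (3 * (φ₂ (x + t • EuclideanSpace.single i 1)
          - φ₁ (x + t • EuclideanSpace.single i 1) - c) ^ 2
        + 3 * (φ₂ (x - t • EuclideanSpace.single i 1)
          - φ₁ (x - t • EuclideanSpace.single i 1) - c) ^ 2
        + 12 * (φ₂ x - φ₁ x - c) ^ 2) / t ^ 2
      + 4 * R * secDiff φ₁ (t • EuclideanSpace.single i 1) x / t := by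
  set v : Space d := t • EuclideanSpace.single i 1 with hv
  set a := φ₂ (x + v) - φ₁ (x + v) - c
  set b := φ₂ (x - v) - φ₁ (x - v) - c
  set u := φ₂ x - φ₁ x - c
  set s := secDiff φ₁ v x with hs
  set D := (S x - T x) i with hD
  have e : ∀ y : Space d, ⟪v, y⟫ = t * y i := fun y => by
    simp [hv, inner_smul_left, EuclideanSpace.inner_single_left]
  have p1 := h₁ (x + v)
  have m1 := h₁ (x - v)
  have p2 := h₂ (x + v)
  have m2 := h₂ (x - v)
  rw [add_sub_cancel_left, e] at p1 p2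
  rw [sub_sub_cancel_left, inner_neg_left, e] at m1 m2
  have hsd : s = φ₁ (x + v) + φ₁ (x - v) - 2 * φ₁ x := rfl
  have hDe : D = S x i - T x i := by simp [hD]
  have hD2 : |D| ≤ 2 * R := by
    rw [hD, ← Real.norm_eq_abs]
    exact (PiLp.norm_apply_le _ i).trans ((norm_sub_le _ _).trans (by linarith [hT x, hS x]))
  have h : t * |D| ≤ |a| + |b| + 2 * |u| + s := by
    rw [← abs_of_pos ht, ← abs_mul, abs_le, hDe]
    constructor <;>
      linarith [le_abs_self a, le_abs_self b, neg_abs_le a, neg_abs_le b, le_abs_self u,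
        neg_abs_le u, abs_nonneg u, abs_nonneg a, abs_nonneg b]
  set A := |a| + |b| + 2 * |u| with hA
  have hA2 : A ^ 2 ≤ 3 * a ^ 2 + 3 * b ^ 2 + 12 * u ^ 2 := by
    rw [← sq_abs a, ← sq_abs b, ← sq_abs u]
    nlinarith [sq_nonneg (|a| - |b|), sq_nonneg (|a| - 2 * |u|), sq_nonneg (|b| - 2 * |u|)]
  have h' := mul_le_mul_of_nonneg_left h (mul_nonneg ht.le (abs_nonneg D))
  rw [div_add_div _ _ (by positivity) ht.ne', le_div_iff₀ (by positivity)]
  have h2 : (t * |D|) ^ 2 ≤ A ^ 2 + 4 * R * (t * s) := by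
    have h3 : 2 * ((t * |D|) * A) ≤ (t * |D|) ^ 2 + A ^ 2 := by
      nlinarith [sq_nonneg (t * |D| - A)]
    have h4 : t * |D| * s ≤ 2 * R * (t * s) := by
      have := mul_le_mul_of_nonneg_left hD2 (mul_nonneg ht.le h₁mid)
      linarith
    nlinarith
  rw [mul_pow, sq_abs] at h2
  nlinarith [mul_le_mul_of_nonneg_left (h2.trans (add_le_add hA2 le_rfl)) ht.le]

/-- The cube root estimate with a free parameter. -/
theorem integral_sq_le_of_potentials [NeZero d] (hK : IsCompact K) (hKc : Convex ℝ K)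
    {o : Space d} {r₀ : ℝ} (hr₀ : 0 < r₀) (hball : closedBall o r₀ ⊆ K) {b : ℝ}
    (hKb : ∀ x ∈ K, ‖x‖ ≤ b) (hTm : Measurable T) (hSm : Measurable S) (hT : ∀ z, ‖T z‖ ≤ R)
    (hS : ∀ z, ‖S z‖ ≤ R) (h₁ : IsPotential K T R φ₁) (h₂ : IsPotential K S R φ₂) (c : ℝ)
    {t : ℝ} (ht : 0 < t) (ht1 : t ≤ 1) (htr : t ≤ r₀) :
    ∫ x in K, ‖S x - T x‖ ^ 2 ≤ 18 * d * (∫ x in K, (φ₂ x - φ₁ x - c) ^ 2) / t ^ 2
      + (4 * R ^ 2 * d * (volume (closedBall (0 : Space d) (b + 2))).toReal
          + 4 * R ^ 2 * d * (volume K).toReal / r₀) * t := by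
  set lam := t / r₀ with hlam
  have hl0 : 0 ≤ lam := by positivity
  have hl1 : lam ≤ 1 := (div_le_one hr₀).2 htr
  set K₁ := AffineMap.homothety o (1 - lam) '' K with hK₁
  have ho : o ∈ K := hball (mem_closedBall_self hr₀.le)
  have hK₁c : IsCompact K₁ := hK.image (AffineMap.homothety_continuous o _)
  have hin : ∀ x ∈ K₁, ∀ v : Space d, ‖v‖ ≤ t → x + v ∈ K := by
    rintro x ⟨k, hk, rfl⟩ v hv
    have hl : lam ≠ 0 := (div_pos ht hr₀).ne'
    have ho' : o + lam⁻¹ • v ∈ K := by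
      refine hball ?_
      rw [mem_closedBall, dist_self_add_left, norm_smul, norm_inv, Real.norm_of_nonneg hl0, hlam,
        inv_div, div_mul_eq_mul_div, div_le_iff₀ ht]
      exact mul_le_mul_of_nonneg_left hv hr₀.le
    have := hKc hk ho' (a := 1 - lam) (b := lam) (by linarith) hl0 (by ring)
    convert this using 1
    rw [smul_add, smul_smul, mul_inv_cancel₀ hl, one_smul, AffineMap.homothety_apply, vsub_eq_sub,
      vadd_eq_add]
    module
  have hsub : K₁ ⊆ K := fun x hx => by simpa using hin x hx 0 (by simpa using ht.le)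
  have hvol : (volume : Measure (Space d)).real (K \ K₁)
      ≤ d * lam * (volume K).toReal := by
    rw [measureReal_sdiff hsub hK₁c.measurableSet hK.measure_lt_top.ne, measureReal_def, measureReal_def, hK₁,
      Measure.addHaar_image_homothety, ENNReal.toReal_mul, ENNReal.toReal_ofReal (abs_nonneg _),
      finrank_euclideanSpace_fin, abs_of_nonneg (pow_nonneg (by linarith) _)]
    have := one_add_mul_le_pow (a := -lam) (by linarith) d
    rw [← sub_eq_add_neg] at this
    nlinarith [ENNReal.toReal_nonneg (a := volume K)]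
  have hφ₁ := h₁.continuous
  have hφ₂ := h₂.continuous
  set u : Space d → ℝ := fun x => φ₂ x - φ₁ x - c with hu
  have huc : Continuous u := (hφ₂.sub hφ₁).sub continuous_const
  set F : Space d → ℝ := fun x => ‖S x - T x‖ ^ 2 with hF
  have hFb : ∀ x, F x ≤ 4 * R ^ 2 := fun x => by
    rw [show 4 * R ^ 2 = (2 * R) ^ 2 by ring]
    exact pow_le_pow_left₀ (norm_nonneg _) ((norm_sub_le _ _).trans (by linarith [hT x, hS x])) 2
  have hFi : IntegrableOn F K := IntegrableOn.of_bound hK.measure_lt_top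
    ((hSm.sub hTm).norm.pow_const 2).aestronglyMeasurable (4 * R ^ 2)
    (Eventually.of_forall fun x => by
      rw [Real.norm_eq_abs, abs_of_nonneg (sq_nonneg _)]; exact hFb x)
  set e : Fin d → Space d := fun i => t • EuclideanSpace.single i 1 with he
  have hen : ∀ i, ‖e i‖ = t := fun i => by simp [he, norm_smul, abs_of_pos ht]
  have hshift : ∀ v : Space d, ‖v‖ ≤ t → ∫ x in K₁, u (x + v) ^ 2 ≤ ∫ x in K, u x ^ 2 := by
    intro v hv
    have hpre : (fun x => x + v) ⁻¹' K ⊇ K₁ := fun x hx => hin x hx v hv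
    have hKi : IntegrableOn (fun x => u (x + v) ^ 2) ((fun x => x + v) ⁻¹' K) :=
      ((huc.comp (continuous_add_const v)).pow 2).continuousOn.integrableOn_compact
        ((Homeomorph.addRight v).isCompact_preimage.2 hK)
    refine (setIntegral_mono_set hKi (Eventually.of_forall fun x => sq_nonneg _)
      hpre.eventuallyLE).trans (le_of_eq ?_)
    exact (measurePreserving_add_right volume v).setIntegral_preimage_emb
      (MeasurableEquiv.addRight v).measurableEmbedding (fun y => u y ^ 2) K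
  have hsd : ∀ i, ContinuousOn (fun x => secDiff φ₁ (e i) x) K := fun i => by
    unfold secDiff; fun_prop
  set G : Space d → ℝ := fun x => (∑ i, ((3 * u (x + e i) ^ 2 + 3 * u (x + -e i) ^ 2
      + 12 * u x ^ 2) / t ^ 2 + 4 * R * secDiff φ₁ (e i) x / t)) with hG
  have i1 : ∀ v, IntegrableOn (fun x => u (x + v) ^ 2) K₁ := fun v =>
    ((huc.comp (continuous_add_const v)).pow 2).continuousOn.integrableOn_compact hK₁c
  have i0 : IntegrableOn (fun x => u x ^ 2) K₁ :=
    (huc.pow 2).continuousOn.integrableOn_compact hK₁c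
  have i2 : ∀ i, IntegrableOn (fun x => secDiff φ₁ (e i) x) K₁ := fun i =>
    ((hsd i).mono hsub).integrableOn_compact hK₁c
  have ia : ∀ i, IntegrableOn (fun x => 3 * u (x + e i) ^ 2 + 3 * u (x + -e i) ^ 2) K₁ := fun i =>
    ((i1 _).const_mul 3).add ((i1 _).const_mul 3)
  have ib : ∀ i, IntegrableOn (fun x => 3 * u (x + e i) ^ 2 + 3 * u (x + -e i) ^ 2
      + 12 * u x ^ 2) K₁ := fun i => (ia i).add (i0.const_mul 12)
  have ic : ∀ i, IntegrableOn (fun x => (3 * u (x + e i) ^ 2 + 3 * u (x + -e i) ^ 2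
      + 12 * u x ^ 2) / t ^ 2 + 4 * R * secDiff φ₁ (e i) x / t) K₁ := fun i =>
    ((ib i).div_const _).add (((i2 i).const_mul _).div_const _)
  have hmain : ∫ x in K₁, F x ≤ ∫ x in K₁, G x := by
    refine setIntegral_mono_on_ae (hFi.mono_set hsub) (integrable_finsetSum _ fun i _ => ic i)
      hK₁c.measurableSet ?_
    have h1 := (ae_restrict_iff' hK.measurableSet).1 h₁.subgrad
    have h2 := (ae_restrict_iff' hK.measurableSet).1 h₂.subgrad
    filter_upwards [h1, h2] with x hx1 hx2 hx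
    simp only [hF, hG, hu, he, ← sub_eq_add_neg, EuclideanSpace.real_norm_sq_eq]
    exact sum_le_sum fun i _ => coord_sq_le ht hT hS (hx1 (hsub hx)) (hx2 (hsub hx))
      (secDiff_nonneg h₁ _ _) c
  have hGi : ∫ x in K₁, G x ≤ ∑ _i : Fin d, (18 * (∫ x in K, u x ^ 2) / t ^ 2
      + 4 * R * (R * (volume (closedBall (0 : Space d) (b + 2))).toReal * t ^ 2) / t) := by
    rw [hG, integral_finsetSum _ fun i _ => ic i]
    refine sum_le_sum fun i _ => ?_
    rw [integral_add ((ib i).div_const _) (((i2 i).const_mul _).div_const _), integral_div,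
      integral_div, integral_add (ia i) (i0.const_mul 12),
      integral_add ((i1 _).const_mul 3) ((i1 _).const_mul 3), integral_const_mul, integral_const_mul,
      integral_const_mul, integral_const_mul]
    refine add_le_add (div_le_div_of_nonneg_right ?_ (sq_nonneg t))
      (div_le_div_of_nonneg_right (mul_le_mul_of_nonneg_left ?_ (by linarith [h₁.nonneg_R])) ht.le)
    · have h5 : ∫ x in K₁, u x ^ 2 ≤ ∫ x in K, u x ^ 2 :=
        setIntegral_mono_set ((huc.pow 2).continuousOn.integrableOn_compact hK)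
          (Eventually.of_forall fun x => sq_nonneg _) hsub.eventuallyLE
      linarith [hshift (e i) (hen i).le, hshift (-e i) (by rw [norm_neg, hen i])]
    · refine (setIntegral_mono_set ((hsd i).integrableOn_compact hK)
        (Eventually.of_forall fun x => secDiff_nonneg h₁ _ _) hsub.eventuallyLE).trans ?_
      have := integral_secDiff_le h₁ hK hKb (v := e i) (by rw [hen]; exact ht1)
      rwa [hen] at this
  have hrest : ∫ x in K \ K₁, F x ≤ 4 * R ^ 2 * (d * lam * (volume K).toReal) := by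
    refine (setIntegral_mono_on (hFi.mono_set Set.sdiff_subset)
      (integrableOn_const (lt_of_le_of_lt (measure_mono Set.sdiff_subset) hK.measure_lt_top).ne)
      (hK.measurableSet.diff hK₁c.measurableSet) fun x _ => hFb x).trans ?_
    rw [setIntegral_const, smul_eq_mul, mul_comm]
    exact mul_le_mul_of_nonneg_left hvol (by positivity)
  have hsplit : ∫ x in K, F x = (∫ x in K₁, F x) + ∫ x in K \ K₁, F x := by
    rw [← setIntegral_union Set.disjoint_sdiff_right (hK.measurableSet.diff hK₁c.measurableSet)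
      (hFi.mono_set hsub) (hFi.mono_set Set.sdiff_subset), Set.union_sdiff_cancel hsub]
  rw [hsplit]
  refine (add_le_add (hmain.trans hGi) hrest).trans (le_of_eq ?_)
  rw [sum_const, card_univ, Fintype.card_fin, nsmul_eq_mul, hlam]
  field_simp
  ring

/-- The cube root estimate. -/
theorem integral_sq_le_cbrt [NeZero d] (hK : IsCompact K) (hKc : Convex ℝ K)
    (hne : (interior K).Nonempty) (R : ℝ) :
    ∃ C : ℝ, 0 ≤ C ∧ ∀ (T S : Space d → Space d) (φ₁ φ₂ : Space d → ℝ) (c U : ℝ),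
      Measurable T → Measurable S → (∀ z, ‖T z‖ ≤ R) → (∀ z, ‖S z‖ ≤ R) →
      IsPotential K T R φ₁ → IsPotential K S R φ₂ → 0 < U →
      ∫ x in K, (φ₂ x - φ₁ x - c) ^ 2 ≤ U →
      ∫ x in K, ‖S x - T x‖ ^ 2 ≤ C * U ^ (1 / 3 : ℝ) := by
  obtain ⟨o, ho⟩ := hne
  obtain ⟨r₀, hr₀, hball⟩ := Metric.nhds_basis_closedBall.mem_iff.1 (mem_interior_iff_mem_nhds.1 ho)
  obtain ⟨b, hKb⟩ := hK.isBounded.exists_norm_le
  set t₀ := min 1 r₀ with ht₀
  have ht₀p : 0 < t₀ := lt_min one_pos hr₀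
  set C₁ := 18 * (d : ℝ) + (4 * R ^ 2 * d * (volume (closedBall (0 : Space d) (b + 2))).toReal
    + 4 * R ^ 2 * d * (volume K).toReal / r₀) with hC₁
  set C₂ := (4 * R ^ 2 * (volume K).toReal) / t₀ with hC₂
  refine ⟨C₁ + C₂, by rw [hC₁, hC₂]; positivity,
    fun T S φ₁ φ₂ c U hTm hSm hT hS h₁ h₂ hU hle => ?_⟩
  set t := U ^ (1 / 3 : ℝ) with ht
  have ht0 : 0 < t := Real.rpow_pos_of_pos hU _
  have hC₁0 : 0 ≤ C₁ := by rw [hC₁]; positivity
  have hC₂0 : 0 ≤ C₂ := by rw [hC₂]; positivity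
  rcases le_or_gt t t₀ with hsmall | hbig
  · refine (integral_sq_le_of_potentials hK hKc hr₀ hball hKb hTm hSm hT hS h₁ h₂ c ht0
      (hsmall.trans (min_le_left _ _)) (hsmall.trans (min_le_right _ _))).trans ?_
    have h3 : U = t ^ 3 := by
      rw [ht, ← Real.rpow_natCast, ← Real.rpow_mul hU.le]; norm_num
    have h4 : 18 * d * (∫ x in K, (φ₂ x - φ₁ x - c) ^ 2) / t ^ 2 ≤ 18 * d * t := by
      rw [div_le_iff₀ (by positivity)]
      calc 18 * d * (∫ x in K, (φ₂ x - φ₁ x - c) ^ 2) ≤ 18 * d * U :=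
            mul_le_mul_of_nonneg_left hle (by positivity)
        _ = 18 * d * t * t ^ 2 := by rw [h3]; ring
    have h5 : C₁ * t ≤ (C₁ + C₂) * t := mul_le_mul_of_nonneg_right (by linarith) ht0.le
    rw [hC₁] at h5
    linarith
  · have h6 : ∫ x in K, ‖S x - T x‖ ^ 2 ≤ 4 * R ^ 2 * (volume K).toReal := by
      refine (Real.le_norm_self _).trans ((norm_setIntegral_le_of_norm_le_const hK.measure_lt_top
        (C := 4 * R ^ 2) fun x _ => ?_).trans (le_of_eq rfl))
      rw [Real.norm_eq_abs, abs_of_nonneg (sq_nonneg _), show 4 * R ^ 2 = (2 * R) ^ 2 by ring]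
      exact pow_le_pow_left₀ (norm_nonneg _) ((norm_sub_le _ _).trans (by linarith [hT x, hS x])) 2
    refine h6.trans ?_
    have h7 : C₂ * t₀ ≤ (C₁ + C₂) * t :=
      mul_le_mul (by linarith) hbig.le ht₀p.le (by linarith)
    rwa [hC₂, div_mul_cancel₀ _ ht₀p.ne'] at h7

end Vale.Agent.P074
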