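import Vale.Agent.P074.Path
import Vale.Agent.P074.Interp
import Mathlib.Analysis.Complex.Exponential
import Mathlib.MeasureTheory.Measure.WithDensity
import Mathlib.MeasureTheory.Measure.Prod
import Mathlib.Topology.MetricSpace.Bounded
import Mathlib.Order.Partition.Basic

/-!
Entropic approximation of optimal maps.
-/

open MeasureTheory Finset Metric Filter Topology
open scoped ENNReal NNReal RealInnerProductSpace

namespace Vale.Agent.P074

variable {d : ℕ}

/-- The gradient of a convex function is an optimal map onto its image measure. -/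
theorem isOptimalMap_of_subgrad {K : Set (Space d)} (hK : IsCompact K)
    (hne : (interior K).Nonempty) {T : Space d → Space d} (hT : Measurable T) {R : ℝ}
    (hR : ∀ x, ‖T x‖ ≤ R) {φ : Space d → ℝ} (hφ : Continuous φ)
    (hsub : ∀ x w, φ x + ⟪w - x, T x⟫ ≤ φ w) :
    IsOptimalMap (uniform K) ((uniform K).map T) T := by
  have hprob := isProbabilityMeasure_uniform hK hne
  obtain ⟨b, hb0, hKb⟩ := hK.isBounded.exists_pos_norm_le
  set ψ := conj b φ with hψdef
  have hψ : Continuous ψ := continuous_conj hb0.le hφ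
  refine ⟨hT, rfl, fun T' hT' hmap => ?_⟩
  set g : Space d → ℝ := fun y => ‖y‖ ^ 2 - 2 * ψ y with hg
  have hgc : Continuous g := by fun_prop
  obtain ⟨B, hB⟩ := (isCompact_closedBall (0 : Space d) R).exists_bound_of_continuousOn
    hgc.continuousOn
  set G : Space d → ℝ≥0∞ := fun y => ENNReal.ofReal (g y + B) with hGdef
  have hG : Measurable G := ENNReal.measurable_ofReal.comp (hgc.measurable.add_const B)
  have hg0 : ∀ y ∈ closedBall (0 : Space d) R, 0 ≤ g y + B ∧ g y + B ≤ 2 * B := fun y hy => by
    have := abs_le.1 (Real.norm_eq_abs _ ▸ hB y hy)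
    constructor <;> linarith
  have hTR : ∀ x, T x ∈ closedBall (0 : Space d) R := fun x => mem_closedBall_zero_iff.2 (hR x)
  have hT'R : ∀ᵐ x ∂uniform K, T' x ∈ closedBall (0 : Space d) R := by
    have h1 : (uniform K).map T (closedBall (0 : Space d) R)ᶜ = 0 := by
      rw [Measure.map_apply hT measurableSet_closedBall.compl]
      refine measure_mono_null (fun x hx => ?_) measure_empty
      exact absurd (hTR x) hx
    rw [← hmap, Measure.map_apply hT' measurableSet_closedBall.compl] at h1
    exact h1
  have key : ∀ᵐ x ∂uniform K, ‖x - T x‖ₑ ^ 2 + G (T' x) ≤ ‖x - T' x‖ₑ ^ 2 + G (T x) := by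
    filter_upwards [(uniform_absolutelyContinuous K).ae_le (ae_restrict_mem hK.measurableSet), hT'R]
      with x hxK h2
    have h3 := le_conj hφ (T' x) (hKb x hxK)
    have h4 : ψ (T x) = ⟪x, T x⟫ - φ x := conj_eq hφ (hKb x hxK) (hsub x)
    rw [← hψdef] at h3
    have e : ∀ z : Space d, ‖z‖ₑ ^ 2 = ENNReal.ofReal (‖z‖ ^ 2) := fun z => by
      rw [← ofReal_norm_eq_enorm, ENNReal.ofReal_pow (norm_nonneg _)]
    rw [e, e, hGdef]
    simp only
    rw [← ENNReal.ofReal_add (sq_nonneg _) (hg0 _ h2).1,
      ← ENNReal.ofReal_add (sq_nonneg _) (hg0 _ (hTR x)).1]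
    refine ENNReal.ofReal_le_ofReal ?_
    simp only [hg, norm_sub_sq_real]
    linarith
  have hsame : ∫⁻ x, G (T' x) ∂uniform K = ∫⁻ x, G (T x) ∂uniform K := by
    rw [← lintegral_map hG hT', ← lintegral_map hG hT, hmap]
  have hfin : ∫⁻ x, G (T x) ∂uniform K ≠ ⊤ := by
    refine ne_top_of_le_ne_top (b := ENNReal.ofReal (2 * B)) ENNReal.ofReal_ne_top ?_
    refine (lintegral_mono fun x => ENNReal.ofReal_le_ofReal (hg0 _ (hTR x)).2).trans ?_
    rw [lintegral_const, measure_univ, mul_one]
  have h := lintegral_mono_ae key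
  rw [lintegral_add_right (g := fun x => G (T' x)) _ (hG.comp hT'),
    lintegral_add_right (g := fun x => G (T x)) _ (hG.comp hT), hsame] at h
  exact (ENNReal.add_le_add_iff_right hfin).1 h

variable {ι : Type*} [Fintype ι]

/-- The entropic map. -/
noncomputable def softMap (ε : ℝ) (y : ι → Space d) (b : ι → ℝ) (x : Space d) : Space d :=
  ∑ i, wgt (fun i => ε⁻¹ • y i) b x i • y i

/-- The entropic potential. -/
noncomputable def softPot (ε : ℝ) (y : ι → Space d) (b : ι → ℝ) (x : Space d) : ℝ :=
  ε * pot (fun i => ε⁻¹ • y i) b x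

variable [Nonempty ι] {ε R : ℝ} {y : ι → Space d} {b : ι → ℝ}

theorem norm_softMap_le (hy : ∀ i, ‖y i‖ ≤ R) (x : Space d) : ‖softMap ε y b x‖ ≤ R := by
  refine (norm_sum_le _ _).trans ?_
  calc ∑ i, ‖wgt (fun i => ε⁻¹ • y i) b x i • y i‖
      ≤ ∑ i, wgt (fun i => ε⁻¹ • y i) b x i * R := sum_le_sum fun i _ => by
        rw [norm_smul, wgt, Real.norm_of_nonneg (smax_pos _ i).le]
        exact mul_le_mul_of_nonneg_left (hy i) (smax_pos _ i).le
    _ = R := by rw [← sum_mul]; simp only [wgt, sum_smax, one_mul]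

theorem measurable_softMap : Measurable (softMap ε y b) :=
  (by unfold softMap; fun_prop : Continuous (softMap ε y b)).measurable

theorem inner_softMap (x w : Space d) :
    ⟪w, softMap ε y b x⟫ = smean (score (fun i => ε⁻¹ • y i) b x) fun i => ⟪w, y i⟫ := by
  simp [softMap, smean, wgt, inner_sum, inner_smul_right]

theorem softPot_subgrad (hε : 0 < ε) (x w : Space d) :
    softPot ε y b x + ⟪w - x, softMap ε y b x⟫ ≤ softPot ε y b w := by
  have h := lsum_add_ge (score (fun i => ε⁻¹ • y i) b x) fun i => ε⁻¹ * ⟪w - x, y i⟫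
  have e : score (fun i => ε⁻¹ • y i) b w
      = fun i => score (fun i => ε⁻¹ • y i) b x i + ε⁻¹ * ⟪w - x, y i⟫ := funext fun i => by
    simp only [score, inner_smul_right, inner_sub_left]; ring
  rw [← e] at h
  have e2 : smean (score (fun i => ε⁻¹ • y i) b x) (fun i => ε⁻¹ * ⟪w - x, y i⟫)
      = ε⁻¹ * ⟪w - x, softMap ε y b x⟫ := by
    rw [inner_softMap]; simp only [smean, mul_sum]; exact sum_congr rfl fun i _ => by ring
  rw [e2] at h
  have := mul_le_mul_of_nonneg_left h hε.le
  rw [mul_add, ← mul_assoc, mul_inv_cancel₀ hε.ne', one_mul] at this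
  exact this

theorem isPotential_softPot (hε : 0 < ε) (hy : ∀ i, ‖y i‖ ≤ R) (K : Set (Space d)) :
    IsPotential K (softMap ε y b) R (softPot ε y b) := by
  refine ⟨fun a c => ?_, fun a v => ?_, Eventually.of_forall (softPot_subgrad hε)⟩
  · have h := softPot_subgrad (y := y) (b := b) hε a c
    have h2 : -(R * ‖a - c‖) ≤ ⟪c - a, softMap ε y b a⟫ := by
      have h3 := (abs_le.1 (abs_real_inner_le_norm (c - a) (softMap ε y b a))).1
      rw [norm_sub_rev] at h3
      have := mul_le_mul_of_nonneg_left (norm_softMap_le (ε := ε) (b := b) hy a) (norm_nonneg (a - c))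
      linarith
    linarith
  · have h1 := softPot_subgrad (y := y) (b := b) hε a (a + v)
    have h2 := softPot_subgrad (y := y) (b := b) hε a (a - v)
    rw [add_sub_cancel_left] at h1
    rw [sub_sub_cancel_left, inner_neg_left] at h2
    linarith

theorem lsum_add_ge_var (a : ι → ℝ) {ξ : ι → ℝ} {s : ℝ} (hs : s ≤ 1 / 2) (hξ : ∀ i, |ξ i| ≤ s) :
    lsum a + smean a ξ + svar a ξ / 8 ≤ lsum (fun i => a i + ξ i) := by
  set m := smean a ξ
  have hu : ∀ i, |ξ i - m| ≤ 1 := fun i => by
    linarith [abs_sub (ξ i) m, hξ i, abs_smean_le a hξ]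
  set w := svar a ξ / 4 with hw
  have hw0 : 0 ≤ w := div_nonneg (svar_nonneg _ _) (by norm_num)
  have hw1 : w ≤ 1 := by
    have : svar a ξ ≤ ∑ i, smax a i * 1 := sum_le_sum fun i _ =>
      mul_le_mul_of_nonneg_left (by rw [← sq_abs]; exact pow_le_one₀ (abs_nonneg _) (hu i))
        (smax_pos a i).le
    rw [← sum_mul, sum_smax] at this
    linarith
  have hexp : ∀ u : ℝ, |u| ≤ 1 → 1 + u + u ^ 2 / 4 ≤ Real.exp u := fun u hu => by
    have h := pow_le_pow_left₀ (by linarith [(abs_le.1 hu).1]) (Real.add_one_le_exp (u / 2)) 2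
    rw [← Real.exp_nat_mul] at h
    push_cast at h
    rw [show 2 * (u / 2) = u by ring] at h
    linarith
  have hsum : 1 + w ≤ ∑ i, smax a i * Real.exp (ξ i - m) := by
    refine le_trans (le_of_eq ?_) (sum_le_sum fun i _ =>
      mul_le_mul_of_nonneg_left (hexp _ (hu i)) (smax_pos a i).le)
    simp only [mul_add, sum_add_distrib, mul_one, sum_smax, ← mul_div_assoc, ← sum_div]
    have : ∑ i, smax a i * (ξ i - m) = 0 := by
      simp only [mul_sub, sum_sub_distrib, ← sum_mul, sum_smax, one_mul]; exact sub_self _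
    rw [this, hw, svar]; simp only [m, add_zero]
  have hS := sumExp_pos a
  have e : ∑ i, Real.exp (a i + ξ i)
      = (∑ i, Real.exp (a i)) * Real.exp m * ∑ i, smax a i * Real.exp (ξ i - m) := by
    rw [mul_sum]
    refine sum_congr rfl fun i _ => ?_
    rw [Real.exp_add, Real.exp_sub, smax]
    field_simp
  have hlog : w / 2 ≤ Real.log (1 + w) := by
    refine le_trans ?_ (Real.one_sub_inv_le_log_of_pos (by linarith))
    have : 1 - (1 + w)⁻¹ = w / (1 + w) := by field_simp; ring
    rw [this]
    exact div_le_div_of_nonneg_left hw0 (by linarith) (by linarith)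
  have hl := hlog.trans (Real.log_le_log (by linarith) hsum)
  rw [lsum, lsum, e, Real.log_mul (by positivity) (by linarith), Real.log_mul hS.ne'
    (Real.exp_pos _).ne', Real.log_exp]
  linarith

/-- The entropic map is close to the sites on average. -/
theorem spread_le [NeZero d] {K : Set (Space d)} (hK : IsCompact K) {r : ℝ}
    (hKr : ∀ x ∈ K, ‖x‖ ≤ r) (hε : 0 < ε) (hε1 : ε ≤ 1) (hy : ∀ i, ‖y i‖ ≤ R) :
    ∫ x in K, ∑ i, wgt (fun i => ε⁻¹ • y i) b x i * ‖softMap ε y b x - y i‖ ^ 2
      ≤ 4 * d * (R * (volume (closedBall (0 : Space d) (r + 2))).toReal) * ε := by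
  set z := fun i => ε⁻¹ • y i with hz
  have hR : 0 ≤ R := (norm_nonneg _).trans (hy (Classical.arbitrary ι))
  set σ := 1 / (2 * R + 1) / 2 with hσ
  have hσ0 : 0 < σ := by positivity
  have hσ1 : σ ≤ 1 := by
    rw [hσ, div_div, div_le_one (by positivity)]; linarith
  have hσR : σ * R ≤ 1 / 2 := by
    rw [hσ, div_div, div_mul_eq_mul_div, one_mul, div_le_iff₀ (by positivity)]; linarith
  have hsv : ∀ j : Fin d, ContinuousOn (fun x => svar (score z b x) fun i => y i j) K := fun j => by
    show ContinuousOn (fun x => ∑ i, wgt z b x i * (y i j - ∑ l, wgt z b x l * y l j) ^ 2) K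
    exact (by fun_prop : Continuous _).continuousOn
  have hP := isPotential_softPot (b := b) hε hy K
  have hmain : ∀ j : Fin d, ∫ x in K, svar (score z b x) (fun i => y i j)
      ≤ 4 * (R * (volume (closedBall (0 : Space d) (r + 2))).toReal) * ε := by
    intro j
    set v : Space d := (σ * ε) • EuclideanSpace.single j 1 with hv
    have hvn : ‖v‖ = σ * ε := by simp [hv, norm_smul, abs_of_pos hσ0, abs_of_pos hε]
    have hpt : ∀ x, ε * σ ^ 2 / 4 * svar (score z b x) (fun i => y i j)
        ≤ secDiff (softPot ε y b) v x := by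
      intro x
      set ξ : ι → ℝ := fun i => σ * y i j with hξ
      have hξb : ∀ i, |ξ i| ≤ σ * R := fun i => by
        rw [hξ, abs_mul, abs_of_pos hσ0, ← Real.norm_eq_abs]
        exact mul_le_mul_of_nonneg_left ((PiLp.norm_apply_le _ j).trans (hy i)) hσ0.le
      have e : ∀ s : ℝ, pot z b (x + s • v) = lsum fun i => score z b x i + s * ξ i := fun s => by
        simp only [pot]
        congr 1; funext i
        simp only [score, hz, hv, hξ, inner_add_left, inner_smul_left, inner_smul_right,
          conj_trivial, EuclideanSpace.inner_single_left, map_one, one_mul]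
        field_simp
        ring
      have h1 := lsum_add_ge_var (score z b x) hσR hξb
      have h2 := lsum_add_ge_var (score z b x) (ξ := fun i => -1 * ξ i) hσR
        (fun i => by simpa using hξb i)
      have ev : svar (score z b x) ξ = σ ^ 2 * svar (score z b x) (fun i => y i j) := by
        simp only [svar, smean, hξ, mul_left_comm _ σ, ← mul_sum, ← mul_sub, mul_pow]
        rw [mul_sum]; exact sum_congr rfl fun i _ => by ring
      have ev2 : svar (score z b x) (fun i => -1 * ξ i) = svar (score z b x) ξ := by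
        simp only [svar, smean, neg_mul, one_mul, mul_neg, sum_neg_distrib]
        exact sum_congr rfl fun i _ => by ring
      have em : smean (score z b x) (fun i => -1 * ξ i) = -smean (score z b x) ξ := by
        simp [smean, sum_neg_distrib]
      have p1 : pot z b (x + v) = lsum fun i => score z b x i + ξ i := by simpa using e 1
      have p2 : pot z b (x - v) = lsum fun i => score z b x i + -1 * ξ i := by
        simpa [sub_eq_add_neg] using e (-1)
      rw [ev2, em] at h2
      simp only [secDiff, softPot]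
      rw [← hz, p1, p2, show pot z b x = lsum (score z b x) from rfl]
      have := mul_le_mul_of_nonneg_left (add_le_add h1 h2) hε.le
      rw [ev] at this
      linarith
    have h := integral_secDiff_le hP hK hKr (v := v) (by rw [hvn]; exact mul_le_one₀ hσ1 hε.le hε1)
    have hsdc : ContinuousOn (fun x => secDiff (softPot ε y b) v x) K := by
      have := hP.continuous
      unfold secDiff; fun_prop
    have h' := (setIntegral_mono_on (((hsv j).integrableOn_compact hK).const_mul _)
      (hsdc.integrableOn_compact hK) hK.measurableSet fun x _ => hpt x).trans h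
    rw [integral_const_mul, hvn] at h'
    refine le_of_mul_le_mul_left (h'.trans (le_of_eq ?_)) (show 0 < ε * σ ^ 2 / 4 by positivity)
    ring
  calc ∫ x in K, ∑ i, wgt z b x i * ‖softMap ε y b x - y i‖ ^ 2
      = ∫ x in K, ∑ j, svar (score z b x) (fun i => y i j) := by
        refine integral_congr_ae (Eventually.of_forall fun x => ?_)
        show ∑ i, wgt z b x i * ‖softMap ε y b x - y i‖ ^ 2 = ∑ j, svar (score z b x) (fun i => y i j)
        simp only [EuclideanSpace.real_norm_sq_eq, mul_sum, svar]
        rw [Finset.sum_comm]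
        refine sum_congr rfl fun j _ => sum_congr rfl fun i _ => ?_
        simp [softMap, smean, wgt, hz]
        exact Or.inl (by ring)
    _ = ∑ j, ∫ x in K, svar (score z b x) (fun i => y i j) :=
        integral_finsetSum _ fun j _ => (hsv j).integrableOn_compact hK
    _ ≤ ∑ _j : Fin d, 4 * (R * (volume (closedBall (0 : Space d) (r + 2))).toReal) * ε :=
        sum_le_sum fun j _ => hmain j
    _ = _ := by simp; ring

/-- A finite partition of a coupling into pieces of small diameter. -/
theorem exists_partition (π : Measure (Space d × Space d)) [IsProbabilityMeasure π] {R η : ℝ}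
    (hη : 0 < η) (hsupp : ∀ᵐ p ∂π, ‖p.1‖ ≤ R ∧ ‖p.2‖ ≤ R) :
    ∃ (n : ℕ) (A : Fin n → Set (Space d × Space d)) (c : Fin n → Space d × Space d),
      (∀ i, MeasurableSet (A i)) ∧ (∀ i, π (A i) ≠ 0) ∧
      Measure.sum (fun i => π.restrict (A i)) = π ∧
      (∀ i, ‖(c i).1‖ ≤ R ∧ ‖(c i).2‖ ≤ R) ∧
      ∀ i, ∀ p ∈ A i, ‖p.1 - (c i).1‖ ≤ η ∧ ‖p.2 - (c i).2‖ ≤ η := by
  classical
  set B : Set (Space d × Space d) := closedBall 0 R ×ˢ closedBall 0 R with hBdef
  have hB : IsCompact B := (isCompact_closedBall _ _).prod (isCompact_closedBall _ _)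
  obtain ⟨t, htB, htfin, htcov⟩ := finite_cover_balls_of_compact hB hη
  obtain ⟨n, f, hf⟩ : ∃ (n : ℕ) (f : Fin n → Space d × Space d), Set.range f = t :=
    ⟨_, fun i => (htfin.toFinset.equivFin.symm i : Space d × Space d), by
      ext p
      constructor
      · rintro ⟨i, rfl⟩; exact htfin.mem_toFinset.1 (htfin.toFinset.equivFin.symm i).2
      · intro hp
        exact ⟨htfin.toFinset.equivFin ⟨p, htfin.mem_toFinset.2 hp⟩, by simp⟩⟩
  set A₀ : Fin n → Set (Space d × Space d) := disjointed fun i => ball (f i) η ∩ B with hA₀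
  have hA₀m : ∀ i, MeasurableSet (A₀ i) := fun i =>
    disjointedRec (fun _ j ht => ht.diff (measurableSet_ball.inter hB.measurableSet))
      (measurableSet_ball.inter hB.measurableSet)
  have hU : ⋃ i, A₀ i = B := by
    rw [hA₀, iUnion_disjointed]
    refine Set.Subset.antisymm (Set.iUnion_subset fun i => Set.inter_subset_right) fun p hp => ?_
    obtain ⟨q, hq, hpq⟩ := Set.mem_iUnion₂.1 (htcov hp)
    obtain ⟨i, rfl⟩ := hf.symm ▸ hq
    exact Set.mem_iUnion.2 ⟨i, hpq, hp⟩
  have hsum : Measure.sum (fun i => π.restrict (A₀ i)) = π := by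
    rw [← Measure.restrict_iUnion (disjoint_disjointed _) hA₀m, hU]
    refine Measure.restrict_eq_self_of_ae_mem ?_
    filter_upwards [hsupp] with p hp
    exact ⟨mem_closedBall_zero_iff.2 hp.1, mem_closedBall_zero_iff.2 hp.2⟩
  set s := (Finset.univ.filter fun i => π (A₀ i) ≠ 0) with hs
  set e := s.equivFin.symm
  refine ⟨s.card, fun j => A₀ (e j), fun j => f (e j), fun j => hA₀m _,
    fun j => (Finset.mem_filter.1 (e j).2).2, ?_, fun j => ?_, fun j p hp => ?_⟩
  · ext E hE
    conv_rhs => rw [← hsum]
    rw [Measure.sum_apply _ hE, Measure.sum_apply _ hE, tsum_fintype, tsum_fintype,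
      Equiv.sum_comp e (fun i : s => π.restrict (A₀ i) E), Finset.sum_coe_sort s
        (fun i => π.restrict (A₀ i) E)]
    refine Finset.sum_subset (Finset.subset_univ _) fun i _ hi => ?_
    rw [hs, Finset.mem_filter, not_and, not_not] at hi
    rw [Measure.restrict_eq_zero.2 (hi (Finset.mem_univ i))]
    rfl
  · have := htB (hf ▸ ⟨(e j : Fin n), rfl⟩ : f (e j) ∈ t)
    exact ⟨mem_closedBall_zero_iff.1 this.1, mem_closedBall_zero_iff.1 this.2⟩
  · have h := (disjointed_subset (fun i => ball (f i) η ∩ B) _ hp).1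
    rw [mem_ball, dist_eq_norm, Prod.norm_def, max_lt_iff] at h
    exact ⟨h.1.le, h.2.le⟩

/-- The image of the entropic map is close to the quantised measure. -/
theorem W1_softMap_le [NeZero d] {K : Set (Space d)} (hK : IsCompact K)
    (hne : (interior K).Nonempty) {r : ℝ} (hKr : ∀ x ∈ K, ‖x‖ ≤ r) {η : ℝ} (hη : 0 < η)
    (hη1 : η ≤ 1) (π : Measure (Space d × Space d)) [IsProbabilityMeasure π]
    {sel : Space d × Space d → Space d} (hsel : Measurable sel)
    {A : ι → Set (Space d × Space d)} (hA : ∀ i, MeasurableSet (A i)) (hA0 : ∀ i, π (A i) ≠ 0)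
    (hsum : Measure.sum (fun i => π.restrict (A i)) = π) (hy : ∀ i, ‖y i‖ ≤ R)
    (hclose : ∀ i, ∀ p ∈ A i, ‖sel p - y i‖ ≤ η)
    (hmass : ∀ i, cellMass K (fun i => (η ^ 2)⁻¹ • y i) b i
      = (volume K).toReal * (π (A i)).toReal) :
    W1 ((uniform K).map (softMap (η ^ 2) y b)) (π.map sel)
      ≤ ENNReal.ofReal ((3 / 2 + 2 * d * (R * (volume (closedBall (0 : Space d) (r + 2))).toReal)
          / (volume K).toReal) * η) := by
  have hprob := isProbabilityMeasure_uniform hK hne
  set z := fun i => (η ^ 2)⁻¹ • y i with hz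
  set V := (volume K).toReal with hV
  have hV0 : 0 < V := ENNReal.toReal_pos (volume_pos_of_interior hne) hK.measure_lt_top.ne
  set T := softMap (η ^ 2) y b with hT
  have hTm : Measurable T := measurable_softMap
  have hTc : Continuous T := by rw [hT]; unfold softMap; fun_prop
  have hwm : ∀ i, Measurable fun x => ENNReal.ofReal (wgt z b x i) := fun i =>
    ENNReal.measurable_ofReal.comp (continuous_wgt i).measurable
  set α : ι → Measure (Space d) := fun i =>
    ((uniform K).withDensity fun x => ENNReal.ofReal (wgt z b x i)).map T with hα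
  have int : ∀ {F : Space d → ℝ}, Continuous F → Integrable F (uniform K) := fun hF => by
    refine Integrable.smul_measure (hF.continuousOn.integrableOn_compact hK) ?_
    exact ENNReal.inv_ne_top.2 (volume_pos_of_interior hne)
  have hαuniv : ∀ i, α i Set.univ = π (A i) := fun i => by
    rw [hα, Measure.map_apply hTm MeasurableSet.univ, Set.preimage_univ,
      withDensity_apply _ MeasurableSet.univ, Measure.restrict_univ,
      ← ofReal_integral_eq_lintegral_ofReal (int (continuous_wgt i))
        (Eventually.of_forall fun x => (smax_pos _ i).le), integral_uniform]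
    rw [show ∫ x in K, wgt z b x i = cellMass K z b i from rfl, hmass i, ← mul_assoc,
      inv_mul_cancel₀ hV0.ne', one_mul, ENNReal.ofReal_toReal (measure_ne_top π _)]
  have : ∀ i, IsFiniteMeasure (α i) := fun i => ⟨by rw [hαuniv]; exact measure_lt_top π _⟩
  set β : ι → Measure (Space d) := fun i => (π.restrict (A i)).map sel with hβ
  have hβuniv : ∀ i, β i Set.univ = π (A i) := fun i => by
    rw [hβ, Measure.map_apply hsel MeasurableSet.univ, Set.preimage_univ, Measure.restrict_apply_univ]
  have hfst : (Measure.sum fun i => (π (A i))⁻¹ • (α i).prod (β i)).fst = (uniform K).map T := by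
    rw [Measure.fst, Measure.map_sum measurable_fst.aemeasurable]
    have h1 : ∀ i, ((π (A i))⁻¹ • (α i).prod (β i)).map Prod.fst = α i := fun i => by
      rw [Measure.map_smul, Measure.map_fst_prod, hβuniv, smul_smul,
        ENNReal.inv_mul_cancel (hA0 i) (measure_ne_top π _), one_smul]
    simp only [h1]
    simp only [hα]
    rw [← Measure.map_sum hTm.aemeasurable, ← withDensity_tsum hwm]
    congr 1
    have h2 : (∑' i, fun x => ENNReal.ofReal (wgt z b x i)) = fun _ => (1 : ℝ≥0∞) := by
      rw [tsum_fintype]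
      funext x
      rw [Finset.sum_apply, ← ENNReal.ofReal_sum_of_nonneg (f := fun i => wgt z b x i)
        fun i _ => (smax_pos _ i).le]
      simp [wgt, sum_smax]
    rw [h2]; exact withDensity_one
  have hsnd : (Measure.sum fun i => (π (A i))⁻¹ • (α i).prod (β i)).snd = π.map sel := by
    rw [Measure.snd, Measure.map_sum measurable_snd.aemeasurable]
    have h1 : ∀ i, ((π (A i))⁻¹ • (α i).prod (β i)).map Prod.snd = β i := fun i => by
      rw [Measure.map_smul, Measure.map_snd_prod, hαuniv, smul_smul,
        ENNReal.inv_mul_cancel (hA0 i) (measure_ne_top π _), one_smul]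
    simp only [h1]
    simp only [hβ]
    rw [← Measure.map_sum hsel.aemeasurable, hsum]
  refine iInf₂_le_of_le _ ⟨hfst, hsnd⟩ ?_
  rw [lintegral_sum_measure, tsum_fintype]
  set g : ι → Space d → ℝ := fun i x => wgt z b x i * (‖T x - y i‖ + η) with hg
  have hgc : ∀ i, Continuous (g i) := fun i => by rw [hg]; fun_prop
  have hg0 : ∀ i x, 0 ≤ g i x := fun i x =>
    mul_nonneg (smax_pos _ i).le (add_nonneg (norm_nonneg _) hη.le)
  have hterm : ∀ i, ∫⁻ p, ‖p.1 - p.2‖ₑ ∂((π (A i))⁻¹ • (α i).prod (β i))
      ≤ ∫⁻ x, ENNReal.ofReal (g i x) ∂uniform K := by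
    intro i
    rw [lintegral_smul_measure, smul_eq_mul,
      lintegral_prod (fun p : Space d × Space d => ‖p.1 - p.2‖ₑ)
        (measurable_fst.sub measurable_snd).enorm.aemeasurable]
    have hb : ∀ u : Space d, ∫⁻ w, ‖u - w‖ₑ ∂(β i) ≤ ENNReal.ofReal (‖u - y i‖ + η) * π (A i) := by
      intro u
      rw [← hβuniv i, ← lintegral_const]
      refine lintegral_mono_ae ?_
      have hm : MeasurableSet {w : Space d | ‖w - y i‖ ≤ η} :=
        measurableSet_le (measurable_id.sub_const _).norm measurable_const
      rw [hβ]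
      refine (ae_map_iff hsel.aemeasurable ?_).2 ?_
      · exact measurableSet_le (measurable_id.const_sub u).enorm measurable_const
      filter_upwards [ae_restrict_mem (hA i)] with p hp
      rw [← ofReal_norm]
      refine ENNReal.ofReal_le_ofReal ?_
      have := norm_sub_le (u - y i) (sel p - y i)
      rw [sub_sub_sub_cancel_right] at this
      linarith [hclose i p hp]
    refine (mul_le_mul' le_rfl (lintegral_mono hb)).trans ?_
    have hGm : Measurable fun u : Space d => ENNReal.ofReal (‖u - y i‖ + η) :=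
      ENNReal.measurable_ofReal.comp (by fun_prop : Measurable fun u : Space d => ‖u - y i‖ + η)
    rw [lintegral_mul_const' _ _ (measure_ne_top π _), mul_left_comm,
      ENNReal.inv_mul_cancel (hA0 i) (measure_ne_top π _), mul_one, hα]
    simp only
    rw [lintegral_map hGm hTm, lintegral_withDensity_eq_lintegral_mul _ (hwm i) (g := fun x =>
      ENNReal.ofReal (‖T x - y i‖ + η)) (hGm.comp hTm)]
    refine le_of_eq (lintegral_congr fun x => ?_)
    simp only [Pi.mul_apply, hg]
    rw [← ENNReal.ofReal_mul (p := wgt z b x i) (smax_pos _ i).le]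
  refine (Finset.sum_le_sum fun i _ => hterm i).trans ?_
  rw [← lintegral_finsetSum (f := fun i x => ENNReal.ofReal (g i x)) _
    fun i _ => ENNReal.measurable_ofReal.comp (hgc i).measurable]
  simp only [← ENNReal.ofReal_sum_of_nonneg fun i _ => hg0 i _]
  rw [← ofReal_integral_eq_lintegral_ofReal (int (continuous_finsetSum _ fun i _ => hgc i))
    (Eventually.of_forall fun x => sum_nonneg fun i _ => hg0 i x), integral_uniform]
  refine ENNReal.ofReal_le_ofReal ?_
  set C := 4 * d * (R * (volume (closedBall (0 : Space d) (r + 2))).toReal) with hC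
  have hpt : ∀ x, ∑ i, g i x ≤ 3 / 2 * η
      + (∑ i, wgt z b x i * ‖T x - y i‖ ^ 2) / (2 * η) := by
    intro x
    have hle : ∀ i, g i x ≤ wgt z b x i * (3 / 2 * η) + wgt z b x i * ‖T x - y i‖ ^ 2 / (2 * η) :=
      fun i => by
        rw [mul_div_assoc, ← mul_add]
        refine mul_le_mul_of_nonneg_left ?_ (smax_pos _ i).le
        rw [← sub_nonneg]
        have : 3 / 2 * η + ‖T x - y i‖ ^ 2 / (2 * η) - (‖T x - y i‖ + η)
            = (‖T x - y i‖ - η) ^ 2 / (2 * η) := by field_simp; ring
        rw [this]; positivity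
    refine (sum_le_sum fun i _ => hle i).trans (le_of_eq ?_)
    rw [sum_add_distrib, ← sum_mul, ← sum_div]
    simp [wgt, sum_smax]
  have hc : Continuous fun x => ∑ i, wgt z b x i * ‖T x - y i‖ ^ 2 := by fun_prop
  have h1 := setIntegral_mono_on ((continuous_finsetSum _ fun i _ => hgc i).continuousOn.integrableOn_compact hK)
    ((((continuous_const (y := 3 / 2 * η)).add (hc.div_const (2 * η)))).continuousOn.integrableOn_compact (μ := volume) hK)
    hK.measurableSet fun x _ => hpt x
  simp only [Pi.add_apply] at h1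
  have j : IntegrableOn (fun _ : Space d => 3 / 2 * η) K := integrableOn_const hK.measure_lt_top.ne
  rw [integral_add j
    ((hc.div_const (2 * η)).continuousOn.integrableOn_compact hK), setIntegral_const, smul_eq_mul,
    integral_div] at h1
  have h2 := spread_le (b := b) hK hKr (ε := η ^ 2) (by positivity) (pow_le_one₀ hη.le hη1) hy
  rw [← hz, ← hT, ← hC] at h2
  have h3 : (∫ x in K, ∑ i, wgt z b x i * ‖T x - y i‖ ^ 2) / (2 * η) ≤ C / 2 * η := by
    rw [div_le_iff₀ (by positivity)]; linarith
  calc V⁻¹ * ∫ x in K, ∑ i, g i x ≤ V⁻¹ * (V * (3 / 2 * η) + C / 2 * η) := by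
        refine mul_le_mul_of_nonneg_left (h1.trans ?_) (by positivity)
        exact add_le_add le_rfl h3
    _ = _ := by rw [hC]; field_simp; ring

end Vale.Agent.P074
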