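import Mathlib.MeasureTheory.Function.LpSeminorm.Basic
import Mathlib.MeasureTheory.Measure.Haar.InnerProductSpace
import Mathlib.Analysis.InnerProductSpace.PiL2
import Mathlib.Analysis.SpecialFunctions.Pow.NNReal
import Mathlib.Analysis.Convex.Basic
import Mathlib.MeasureTheory.Measure.Typeclasses.Probability

/-!
Definitions for the stability exponent of quadratic optimal transport maps.
-/

open MeasureTheory
open scoped ENNReal NNReal

namespace Vale.Agent.P074

/-- Euclidean space of dimension `d`. -/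
abbrev Space (d : ℕ) : Type := EuclideanSpace ℝ (Fin d)

variable {d : ℕ}

/-- The uniform probability measure on `K`. -/
noncomputable def uniform (K : Set (Space d)) : Measure (Space d) :=
  (volume K)⁻¹ • volume.restrict K

/-- `T` minimises the quadratic cost among Borel maps pushing `ρ` to `μ`. -/
def IsOptimalMap (ρ μ : Measure (Space d)) (T : Space d → Space d) : Prop :=
  Measurable T ∧ ρ.map T = μ ∧
    ∀ T' : Space d → Space d, Measurable T' → ρ.map T' = μ →
      ∫⁻ x, ‖x - T x‖ₑ ^ 2 ∂ρ ≤ ∫⁻ x, ‖x - T' x‖ₑ ^ 2 ∂ρ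

/-- The quadratic Wasserstein distance: infimum over couplings. -/
noncomputable def W2 (μ ν : Measure (Space d)) : ℝ≥0∞ :=
  (⨅ (π : Measure (Space d × Space d)) (_ : π.fst = μ ∧ π.snd = ν),
    ∫⁻ p, ‖p.1 - p.2‖ₑ ^ 2 ∂π) ^ (1 / 2 : ℝ)

/-- The exponent `α` is admissible in dimension `d`. -/
def Admissible (d : ℕ) (α : ℝ) : Prop :=
  ∀ K : Set (Space d), IsCompact K → Convex ℝ K → (interior K).Nonempty →
    ∀ Y : Set (Space d), IsCompact Y → ∃ C : ℝ≥0,
      ∀ μ ν : Measure (Space d), IsProbabilityMeasure μ → IsProbabilityMeasure ν →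
        μ Yᶜ = 0 → ν Yᶜ = 0 → ∀ T S : Space d → Space d,
          IsOptimalMap (uniform K) μ T → IsOptimalMap (uniform K) ν S →
            eLpNorm (fun x => T x - S x) 2 (uniform K) ≤ C * W2 μ ν ^ α

end Vale.Agent.P074
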