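import Vale.Agent.P074.PrekopaLeindler
import Vale.Agent.P074.Defs
import Mathlib.Analysis.Convex.Deriv
import Mathlib.Analysis.Calculus.Deriv.MeanValue
import Mathlib.Analysis.Calculus.Deriv.Pow
import Mathlib.Analysis.Calculus.Deriv.Comp
import Mathlib.Analysis.SpecialFunctions.ExpDeriv
import Mathlib.MeasureTheory.Integral.Bochner.Set

/-!
The Brascamp–Lieb variance inequality on a compact convex set.
-/

open MeasureTheory Set Filter Topology Metric
open scoped ENNReal RealInnerProductSpace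

namespace Vale.Agent.P074

variable {d : ℕ}

theorem hasDerivAt_line {F : Space d → ℝ} {F1 : Space d → ℝ} {K : Set (Space d)} {w : Space d}
    (hF : ∀ z ∈ K, HasDerivAt (fun s : ℝ => F (z + s • w)) (F1 z) 0) {z : Space d} {τ : ℝ}
    (hz : z + τ • w ∈ K) : HasDerivAt (fun s : ℝ => F (z + s • w)) (F1 (z + τ • w)) τ := by
  have h := hF _ hz
  rw [← sub_self τ] at h
  have h2 := h.comp_sub_const τ τ
  refine h2.congr_of_eventuallyEq (Eventually.of_forall fun s => ?_)
  show F (z + s • w) = F (z + τ • w + (s - τ) • w)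
  rw [add_assoc, ← add_smul, add_sub_cancel]

theorem mem_segment_line {K : Set (Space d)} (hKc : Convex ℝ K) {z w : Space d} (h1 : z + w ∈ K)
    (h2 : z - w ∈ K) {τ : ℝ} (hτ : τ ∈ Icc (-1 : ℝ) 1) : z + τ • w ∈ K := by
  have := hKc h1 h2 (a := (1 + τ) / 2) (b := (1 - τ) / 2) (by linarith [hτ.1]) (by linarith [hτ.2])
    (by ring)
  convert this using 1
  module

/-- A lower bound on the second derivative gives a lower bound on the midpoint gap. -/
theorem midpoint_gap {k k1 k2 : ℝ → ℝ} {c : ℝ}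
    (h1 : ∀ τ ∈ Icc (-1 : ℝ) 1, HasDerivAt k (k1 τ) τ)
    (h2 : ∀ τ ∈ Icc (-1 : ℝ) 1, HasDerivAt k1 (k2 τ) τ)
    (h3 : ∀ τ ∈ Icc (-1 : ℝ) 1, c ≤ k2 τ) : 2 * k 0 + c ≤ k 1 + k (-1) := by
  have hq : ∀ τ : ℝ, HasDerivAt (fun τ : ℝ => c * τ ^ 2 / 2) (c * τ) τ := fun τ => by
    simpa using (((hasDerivAt_pow 2 τ).const_mul c).div_const 2).congr_deriv (by push_cast; ring)
  have hl : ∀ τ : ℝ, HasDerivAt (fun τ : ℝ => c * τ) c τ := fun τ => by
    simpa using (hasDerivAt_id τ).const_mul c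
  have hconv : ConvexOn ℝ (Icc (-1) 1) (fun τ => k τ - c * τ ^ 2 / 2) := by
    refine convexOn_of_hasDerivWithinAt2_nonneg (convex_Icc _ _)
      (f' := fun τ => k1 τ - c * τ) (f'' := fun τ => k2 τ - c)
      (fun τ hτ => ((h1 τ hτ).sub (hq τ)).continuousAt.continuousWithinAt) (fun τ hτ => ?_)
      (fun τ hτ => ?_) (fun τ hτ => sub_nonneg.2 (h3 τ (interior_subset hτ)))
    · exact ((h1 τ (interior_subset hτ)).sub (hq τ)).hasDerivWithinAt
    · exact ((h2 τ (interior_subset hτ)).sub (hl τ)).hasDerivWithinAt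
  have hc2 := hconv.2
  have h := hc2 (show (1 : ℝ) ∈ Icc (-1) 1 by norm_num) (show (-1 : ℝ) ∈ Icc (-1) 1 by norm_num)
    (a := 1 / 2) (b := 1 / 2) (by norm_num) (by norm_num) (by norm_num)
  norm_num at h
  linarith

theorem exp_lower {x : ℝ} (hx : |x| ≤ 1) : 1 + x + x ^ 2 / 2 - |x| ^ 3 ≤ Real.exp x := by
  have h := Real.exp_bound hx (n := 3) (by norm_num)
  norm_num [Finset.sum_range_succ] at h
  have h' := (abs_le.1 h).1
  nlinarith [pow_nonneg (abs_nonneg x) 3]

theorem exp_upper {x : ℝ} (hx : |x| ≤ 1) : Real.exp x ≤ 1 + x + x ^ 2 := by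
  have h := (abs_le.1 (Real.abs_exp_sub_one_sub_id_le hx)).2
  linarith

variable {K : Set (Space d)}

theorem measurable_indicator_ofReal (hK : MeasurableSet K) {F : Space d → ℝ}
    (hF : ContinuousOn F K) : Measurable (K.indicator fun x => ENNReal.ofReal (F x)) := by
  classical
  rw [← piecewise_eq_indicator]
  exact (ENNReal.continuous_ofReal.comp_continuousOn hF).measurable_piecewise continuousOn_const hK

theorem lintegral_indicator_ofReal (hK : IsCompact K) {F : Space d → ℝ}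
    (hF : ContinuousOn F K) (h0 : ∀ x, 0 ≤ F x) :
    ∫⁻ x, K.indicator (fun x => ENNReal.ofReal (F x)) x = ENNReal.ofReal (∫ x in K, F x) := by
  rw [lintegral_indicator hK.measurableSet,
    ofReal_integral_eq_lintegral_ofReal (hF.integrableOn_compact hK) (Eventually.of_forall h0)]

theorem algebra_step {A B C D E F s P Q H : ℝ} (hs : 0 < s)
    (hP : A - s * B + s ^ 2 * C / 2 - s ^ 3 * E ≤ P) (hQ : A + s * B + s ^ 2 * C / 2 - s ^ 3 * E ≤ Q)
    (hP0 : 0 ≤ A - s * B + s ^ 2 * C / 2 - s ^ 3 * E)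
    (hQ0 : 0 ≤ A + s * B + s ^ 2 * C / 2 - s ^ 3 * E) (hH0 : 0 ≤ H)
    (hH : H ≤ A + s ^ 2 * D / 2 + s ^ 4 * F) (hPQ : P * Q ≤ H ^ 2) :
    A * C - B ^ 2 ≤ A * D + (2 * A * E * s + 2 * A * F * s ^ 2 + (D / 2 + s ^ 2 * F) ^ 2 * s ^ 2
      - (C / 2 - s * E) ^ 2 * s ^ 2) := by
  have h1 := (mul_le_mul hP hQ hQ0 (hP0.trans hP)).trans hPQ
  have h2 : H ^ 2 ≤ (A + s ^ 2 * D / 2 + s ^ 4 * F) ^ 2 := pow_le_pow_left₀ hH0 hH 2
  refine le_of_mul_le_mul_left ?_ (pow_pos hs 2)
  nlinarith [h1.trans h2]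

/-- The Brascamp–Lieb inequality. -/
theorem brascamp_lieb (hK : IsCompact K) (hKc : Convex ℝ K) (hKv : 0 < volume K)
    {V g G : Space d → ℝ} {V1 : Space d → Space d → ℝ} {A : Space d → Space d →L[ℝ] Space d}
    {Dg : Space d → Space d} (hVc : ContinuousOn V K) (hgc : ContinuousOn g K)
    (hGc : ContinuousOn G K) (hAc : ContinuousOn A K) (hDc : ContinuousOn Dg K)
    (hV : ∀ w, ∀ z ∈ K, HasDerivAt (fun s : ℝ => V (z + s • w)) (V1 z w) 0)
    (hV1 : ∀ w, ∀ z ∈ K, HasDerivAt (fun s : ℝ => V1 (z + s • w) w) ⟪w, A z w⟫ 0)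
    (hg : ∀ w, ∀ z ∈ K, HasDerivAt (fun s : ℝ => g (z + s • w)) ⟪Dg z, w⟫ 0)
    {m : ℝ} (hm : 0 < m) (hpos : ∀ z ∈ K, ∀ w, m * ‖w‖ ^ 2 ≤ ⟪w, A z w⟫)
    (hG : ∀ z ∈ K, ∀ w, 0 ≤ G z + 2 * ⟪Dg z, w⟫ + ⟪w, A z w⟫) :
    (∫ x in K, Real.exp (-V x)) * (∫ x in K, Real.exp (-V x) * g x ^ 2)
        - (∫ x in K, Real.exp (-V x) * g x) ^ 2
      ≤ (∫ x in K, Real.exp (-V x)) * ∫ x in K, Real.exp (-V x) * G x := by
  set e : Space d → ℝ := fun x => Real.exp (-V x) with he
  have hec : ContinuousOn e K := Real.continuous_exp.comp_continuousOn hVc.neg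
  have he0 : ∀ x, 0 < e x := fun x => Real.exp_pos _
  have hint : ∀ {F : Space d → ℝ}, ContinuousOn F K → IntegrableOn F K := fun hF =>
    hF.integrableOn_compact hK
  have hA0 : 0 < ∫ x in K, e x := by
    obtain ⟨x₀, -, hx₀⟩ := hK.exists_isMinOn (nonempty_of_measure_ne_zero hKv.ne') hec
    have := setIntegral_mono_on (f := fun _ => e x₀) (integrableOn_const hK.measure_lt_top.ne)
      (hint hec) hK.measurableSet fun x hx => hx₀ hx
    rw [setIntegral_const, smul_eq_mul] at this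
    exact lt_of_lt_of_le (mul_pos (ENNReal.toReal_pos hKv.ne' hK.measure_lt_top.ne) (he0 x₀)) this
  have hG0 : ∀ z ∈ K, 0 ≤ G z := fun z hz => by simpa using hG z hz 0
  obtain ⟨L, hL⟩ := hK.exists_bound_of_continuousOn hDc
  obtain ⟨Mg, hMg⟩ := hK.exists_bound_of_continuousOn hgc
  obtain ⟨MG, hMG⟩ := hK.exists_bound_of_continuousOn hGc
  set Λ := 2 * max L 0 / m with hΛ
  have hΛ0 : 0 ≤ Λ := by positivity
  -- the pointwise inequality
  have hpt : ∀ δ > 0, ∀ᶠ s in 𝓝[>] (0 : ℝ), ∀ z w : Space d, z + w ∈ K → z - w ∈ K →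
      2 * V z - s ^ 2 * (G z + δ * (Λ ^ 2 + 2 * Λ))
        ≤ V (z + w) + V (z - w) + s * (g (z + w) - g (z - w)) := by
    intro δ hδ
    obtain ⟨ρ₁, hρ₁, hA'⟩ := Metric.uniformContinuousOn_iff.1
      (hK.uniformContinuousOn_of_continuous hAc) δ hδ
    obtain ⟨ρ₂, hρ₂, hD'⟩ := Metric.uniformContinuousOn_iff.1
      (hK.uniformContinuousOn_of_continuous hDc) δ hδ
    have hsm : ∀ᶠ s in 𝓝[>] (0 : ℝ), Λ * s < min ρ₁ ρ₂ := by
      refine ((continuous_const.mul continuous_id).tendsto' 0 0 (by simp)).mono_left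
        nhdsWithin_le_nhds |>.eventually (eventually_lt_nhds (lt_min hρ₁ hρ₂))
    filter_upwards [hsm, self_mem_nhdsWithin] with s hs (hs0 : 0 < s) z w h1 h2
    have hseg : ∀ τ ∈ Icc (-1 : ℝ) 1, z + τ • w ∈ K := fun τ hτ => mem_segment_line hKc h1 h2 hτ
    have hz : z ∈ K := by simpa using hseg 0 (by norm_num)
    have hk1 : ∀ τ ∈ Icc (-1 : ℝ) 1, HasDerivAt (fun s : ℝ => V (z + s • w)) (V1 (z + τ • w) w) τ :=
      fun τ hτ => hasDerivAt_line (F1 := fun x => V1 x w) (hV w) (hseg τ hτ)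
    have hk2 : ∀ τ ∈ Icc (-1 : ℝ) 1, HasDerivAt (fun s : ℝ => V1 (z + s • w) w)
        ⟪w, A (z + τ • w) w⟫ τ :=
      fun τ hτ => hasDerivAt_line (F := fun x => V1 x w) (F1 := fun x => ⟪w, A x w⟫) (hV1 w) (hseg τ hτ)
    have hgap : ∀ c, (∀ τ ∈ Icc (-1 : ℝ) 1, c ≤ ⟪w, A (z + τ • w) w⟫) →
        2 * V z + c ≤ V (z + w) + V (z - w) := fun c hc => by
      simpa [sub_eq_add_neg] using midpoint_gap hk1 hk2 hc
    have hgs : ∃ σ ∈ Icc (-1 : ℝ) 1, g (z + w) - g (z - w) = 2 * ⟪Dg (z + σ • w), w⟫ := by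
      obtain ⟨σ, hσ, hσ'⟩ := exists_hasDerivAt_eq_slope (fun s : ℝ => g (z + s • w))
        (fun τ => ⟪Dg (z + τ • w), w⟫) (show (-1 : ℝ) < 1 by norm_num)
        (fun τ hτ => (hasDerivAt_line (F1 := fun x => ⟪Dg x, w⟫) (hg w) (hseg τ hτ)).continuousAt.continuousWithinAt)
        (fun τ hτ => hasDerivAt_line (F1 := fun x => ⟪Dg x, w⟫) (hg w) (hseg τ (Ioo_subset_Icc_self hτ)))
      refine ⟨σ, Ioo_subset_Icc_self hσ, ?_⟩
      simp [sub_eq_add_neg] at hσ' ⊢
      linarith
    obtain ⟨σ, hσ, hgσ⟩ := hgs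
    have hDL : |⟪Dg (z + σ • w), w⟫| ≤ max L 0 * ‖w‖ :=
      (abs_real_inner_le_norm _ _).trans
        (mul_le_mul_of_nonneg_right ((hL _ (hseg σ hσ)).trans (le_max_left _ _)) (norm_nonneg _))
    rcases le_or_gt (Λ * s) ‖w‖ with hbig | hsmall
    · have h3 := hgap (m * ‖w‖ ^ 2) fun τ hτ => hpos _ (hseg τ hτ) w
      have h4 : 2 * max L 0 * s ≤ m * ‖w‖ := by
        rw [hΛ, div_mul_eq_mul_div, div_le_iff₀ hm] at hbig; linarith
      have h5 := mul_le_mul_of_nonneg_right h4 (norm_nonneg w)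
      have h6 : -(2 * max L 0 * s * ‖w‖) ≤ s * (g (z + w) - g (z - w)) := by
        rw [hgσ]
        nlinarith [mul_le_mul_of_nonneg_left (abs_le.1 hDL).1 hs0.le]
      have h7 : 0 ≤ s ^ 2 * (G z + δ * (Λ ^ 2 + 2 * Λ)) :=
        mul_nonneg (sq_nonneg _) (add_nonneg (hG0 z hz) (by positivity))
      nlinarith
    · have hd : ∀ τ ∈ Icc (-1 : ℝ) 1, dist z (z + τ • w) < min ρ₁ ρ₂ := fun τ hτ => by
        rw [dist_self_add_right, norm_smul, Real.norm_eq_abs]
        exact lt_of_le_of_lt (mul_le_of_le_one_left (norm_nonneg _) (abs_le.2 ⟨hτ.1, hτ.2⟩))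
          (hsmall.trans hs)
      have h3 := hgap (⟪w, A z w⟫ - δ * ‖w‖ ^ 2) fun τ hτ => by
        have hAA := (hA' _ hz _ (hseg τ hτ) ((hd τ hτ).trans_le (min_le_left _ _))).le
        rw [dist_eq_norm] at hAA
        have : ⟪w, (A z - A (z + τ • w)) w⟫ ≤ δ * ‖w‖ ^ 2 := by
          refine (real_inner_le_norm _ _).trans ?_
          nlinarith [ContinuousLinearMap.le_of_opNorm_le _ hAA w, norm_nonneg w,
            norm_nonneg ((A z - A (z + τ • w)) w)]
        rw [sub_apply, inner_sub_right] at this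
        linarith
      have hDD : ⟪Dg z, w⟫ - δ * ‖w‖ ≤ ⟪Dg (z + σ • w), w⟫ := by
        have hDD := (hD' _ hz _ (hseg σ hσ) ((hd σ hσ).trans_le (min_le_right _ _))).le
        rw [dist_eq_norm] at hDD
        have := (real_inner_le_norm (Dg z - Dg (z + σ • w)) w).trans
          (mul_le_mul_of_nonneg_right hDD (norm_nonneg _))
        rw [inner_sub_left] at this
        linarith
      have h4 := hG z hz (s⁻¹ • w)
      rw [inner_smul_right, map_smul, inner_smul_left, inner_smul_right] at h4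
      simp only [conj_trivial] at h4
      have h5 : 0 ≤ s ^ 2 * G z + 2 * s * ⟪Dg z, w⟫ + ⟪w, A z w⟫ := by
        have := mul_nonneg (sq_nonneg s) h4
        refine this.trans (le_of_eq ?_)
        field_simp
      rw [hgσ]
      nlinarith [mul_le_mul_of_nonneg_left hDD hs0.le, mul_le_mul_of_nonneg_left hsmall.le hδ.le,
        mul_le_mul_of_nonneg_left (mul_self_le_mul_self (norm_nonneg w) hsmall.le) hδ.le,
        mul_nonneg (mul_nonneg hs0.le hδ.le) (sub_nonneg.2 hsmall.le)]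
  -- the consequence of the Prékopa–Leindler inequality
  have hmain : ∀ δ > 0, (∫ x in K, e x) * (∫ x in K, e x * g x ^ 2) - (∫ x in K, e x * g x) ^ 2
      ≤ (∫ x in K, e x) * ∫ x in K, e x * (G x + δ) := by
    intro δ hδ
    set δ₀ := δ / (Λ ^ 2 + 2 * Λ + 1) with hδ₀
    have hδ₀' : δ₀ * (Λ ^ 2 + 2 * Λ) ≤ δ := by
      rw [hδ₀, div_mul_eq_mul_div, div_le_iff₀ (by positivity)]
      nlinarith
    set A₀ := ∫ x in K, e x
    set B₀ := ∫ x in K, e x * g x
    set C₀ := ∫ x in K, e x * g x ^ 2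
    set D₀ := ∫ x in K, e x * (G x + δ)
    set E₀ := |Mg| ^ 3 * A₀
    set F₀ := (|MG| + δ) ^ 2 * A₀
    have ev1 : ∀ᶠ s in 𝓝[>] (0 : ℝ), s * (|Mg| + 1) < 1 ∧ s ^ 2 * (|MG| + δ) < 1 ∧
        0 < A₀ - s * B₀ + s ^ 2 * C₀ / 2 - s ^ 3 * E₀ ∧
        0 < A₀ + s * B₀ + s ^ 2 * C₀ / 2 - s ^ 3 * E₀ := by
      refine nhdsWithin_le_nhds ?_
      have t : ∀ {F : ℝ → ℝ}, Continuous F → ∀ {a : ℝ}, a < F 0 → ∀ᶠ s in 𝓝 0, a < F s :=
        fun hF a ha => (hF.tendsto 0).eventually (eventually_gt_nhds ha)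
      have u : ∀ {F : ℝ → ℝ}, Continuous F → ∀ {a : ℝ}, F 0 < a → ∀ᶠ s in 𝓝 0, F s < a :=
        fun hF a ha => (hF.tendsto 0).eventually (eventually_lt_nhds ha)
      exact (u (by fun_prop) (by simp)).and ((u (by fun_prop) (by simp)).and
        ((t (by fun_prop) (by simpa using hA0)).and (t (by fun_prop) (by simpa using hA0))))
    have hev : ∀ᶠ s in 𝓝[>] (0 : ℝ), A₀ * C₀ - B₀ ^ 2 ≤ A₀ * D₀ + (2 * A₀ * E₀ * s
        + 2 * A₀ * F₀ * s ^ 2 + (D₀ / 2 + s ^ 2 * F₀) ^ 2 * s ^ 2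
        - (C₀ / 2 - s * E₀) ^ 2 * s ^ 2) := by
      filter_upwards [ev1, hpt δ₀ (div_pos hδ (by positivity)), self_mem_nhdsWithin] with s
        ⟨hs1, hs2, hP0, hQ0⟩ hs3 (hs0 : 0 < s)
      set p : Space d → ℝ := fun x => e x * Real.exp (-(s * g x))
      set q : Space d → ℝ := fun x => e x * Real.exp (s * g x)
      set h : Space d → ℝ := fun x => e x * Real.exp (s ^ 2 * (G x + δ) / 2)
      have hpc : ContinuousOn p K :=
        hec.mul (Real.continuous_exp.comp_continuousOn (continuousOn_const.mul hgc).neg)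
      have hqc : ContinuousOn q K :=
        hec.mul (Real.continuous_exp.comp_continuousOn (continuousOn_const.mul hgc))
      have hhc : ContinuousOn h K := hec.mul (Real.continuous_exp.comp_continuousOn
        ((continuousOn_const.mul (hGc.add continuousOn_const)).div_const 2))
      have hPQ := prekopa_leindler (measurable_indicator_ofReal hK.measurableSet hpc)
        (measurable_indicator_ofReal hK.measurableSet hqc)
        (measurable_indicator_ofReal hK.measurableSet hhc) fun x y => by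
        by_cases hx : x ∈ K
        swap
        · simp [indicator_of_notMem hx]
        by_cases hy : y ∈ K
        swap
        · simp [indicator_of_notMem hy]
        have hmid : (1 / 2 : ℝ) • (x + y) ∈ K := by
          rw [smul_add]; exact hKc hx hy (by norm_num) (by norm_num) (by norm_num)
        rw [indicator_of_mem hx, indicator_of_mem hy, indicator_of_mem hmid,
          ← ENNReal.ofReal_mul (mul_nonneg (he0 x).le (Real.exp_pos _).le),
          ← ENNReal.ofReal_pow (mul_nonneg (he0 _).le (Real.exp_pos _).le)]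
        refine ENNReal.ofReal_le_ofReal ?_
        simp only [p, q, h, he, ← Real.exp_add, ← Real.exp_nat_mul]
        refine Real.exp_le_exp.2 ?_
        have hx' : (1 / 2 : ℝ) • (x + y) + (1 / 2 : ℝ) • (x - y) = x := by module
        have hy' : (1 / 2 : ℝ) • (x + y) - (1 / 2 : ℝ) • (x - y) = y := by module
        have := hs3 ((1 / 2 : ℝ) • (x + y)) ((1 / 2 : ℝ) • (x - y)) (by rwa [hx']) (by rwa [hy'])
        rw [hx', hy'] at this
        push_cast
        nlinarith [mul_le_mul_of_nonneg_left hδ₀' (sq_nonneg s)]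
      rw [lintegral_indicator_ofReal hK hpc fun x => mul_nonneg (he0 x).le (Real.exp_pos _).le,
        lintegral_indicator_ofReal hK hqc fun x => mul_nonneg (he0 x).le (Real.exp_pos _).le,
        lintegral_indicator_ofReal hK hhc fun x => mul_nonneg (he0 x).le (Real.exp_pos _).le] at hPQ
      have hnn : ∀ F : Space d → ℝ, 0 ≤ ∫ x in K, e x * Real.exp (F x) := fun F =>
        integral_nonneg fun x => mul_nonneg (he0 x).le (Real.exp_pos _).le
      rw [← ENNReal.ofReal_mul (hnn _), ← ENNReal.ofReal_pow (hnn _),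
        ENNReal.ofReal_le_ofReal_iff (sq_nonneg _)] at hPQ
      have hsg : ∀ x ∈ K, |s * g x| ≤ 1 ∧ |s * g x| ^ 3 ≤ s ^ 3 * |Mg| ^ 3 := fun x hx => by
        have h1 : |g x| ≤ |Mg| := (Real.norm_eq_abs _ ▸ hMg x hx).trans (le_abs_self _)
        rw [abs_mul, abs_of_pos hs0, mul_pow]
        exact ⟨by nlinarith, mul_le_mul_of_nonneg_left (pow_le_pow_left₀ (abs_nonneg _) h1 3)
          (by positivity)⟩
      have hlow : ∀ σ : ℝ, σ = s ∨ σ = -s →
          A₀ + σ * B₀ + s ^ 2 * C₀ / 2 - s ^ 3 * E₀ ≤ ∫ x in K, e x * Real.exp (σ * g x) := by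
        intro σ hσ
        have hσ2 : σ ^ 2 = s ^ 2 ∧ ∀ x, |σ * g x| = |s * g x| := by
          rcases hσ with rfl | rfl
          · simp
          · simp [abs_mul]
        have i1 : IntegrableOn (fun x => σ * (e x * g x)) K := (hint (hec.mul hgc)).const_mul σ
        have i2 : IntegrableOn (fun x => s ^ 2 / 2 * (e x * g x ^ 2)) K :=
          (hint (hec.mul (hgc.pow 2))).const_mul _
        have i3 : IntegrableOn (fun x => s ^ 3 * |Mg| ^ 3 * e x) K := (hint hec).const_mul _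
        have i12 : IntegrableOn (fun x => e x + σ * (e x * g x)) K := (hint hec).add i1
        have i123 : IntegrableOn (fun x => e x + σ * (e x * g x) + s ^ 2 / 2 * (e x * g x ^ 2)) K :=
          i12.add i2
        refine le_trans (le_of_eq ?_) (setIntegral_mono_on (i123.sub i3)
          (hint (hec.mul (Real.continuous_exp.comp_continuousOn (continuousOn_const.mul hgc))))
          hK.measurableSet fun x hx => ?_)
        · rw [integral_sub' i123 i3, integral_add i12 i2, integral_add (hint hec) i1,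
            integral_const_mul, integral_const_mul, integral_const_mul]
          ring
        · have h1 := exp_lower (x := σ * g x) (by rw [hσ2.2]; exact (hsg x hx).1)
          rw [hσ2.2, mul_pow, hσ2.1] at h1
          have h2 := mul_le_mul_of_nonneg_left h1 (he0 x).le
          have h3 := mul_le_mul_of_nonneg_left (hsg x hx).2 (he0 x).le
          simp only [Pi.sub_apply, Function.comp_apply]
          linarith
      have hup : ∫ x in K, h x ≤ A₀ + s ^ 2 * D₀ / 2 + s ^ 4 * F₀ := by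
        have i1 : IntegrableOn (fun x => s ^ 2 / 2 * (e x * (G x + δ))) K :=
          (hint (hec.mul (hGc.add continuousOn_const))).const_mul _
        have i2 : IntegrableOn (fun x => s ^ 4 * (|MG| + δ) ^ 2 * e x) K := (hint hec).const_mul _
        have i01 : IntegrableOn (fun x => e x + s ^ 2 / 2 * (e x * (G x + δ))) K := (hint hec).add i1
        refine le_trans (setIntegral_mono_on (hint hhc) (i01.add i2) hK.measurableSet
          fun x hx => ?_) (le_of_eq ?_)
        · have h1 : |G x + δ| ≤ |MG| + δ := by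
            refine (abs_add_le _ _).trans ?_
            rw [abs_of_pos hδ]
            linarith [(Real.norm_eq_abs _ ▸ hMG x hx).trans (le_abs_self MG)]
          have h2 : |s ^ 2 * (G x + δ) / 2| ≤ 1 := by
            rw [abs_div, abs_mul, abs_of_nonneg (sq_nonneg s), abs_two]
            nlinarith [mul_le_mul_of_nonneg_left h1 (sq_nonneg s)]
          have h3 := mul_le_mul_of_nonneg_left (exp_upper h2) (he0 x).le
          have h4 : (G x + δ) ^ 2 ≤ (|MG| + δ) ^ 2 := by
            rw [← sq_abs]; exact pow_le_pow_left₀ (abs_nonneg _) h1 2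
          simp only [h, Pi.add_apply]
          nlinarith [mul_le_mul_of_nonneg_left h4 (mul_nonneg (pow_nonneg hs0.le 4) (he0 x).le),
            mul_nonneg (mul_nonneg (pow_nonneg hs0.le 4) (he0 x).le) (sq_nonneg (|MG| + δ))]
        · rw [integral_add' i01 i2, integral_add (hint hec) i1, integral_const_mul,
            integral_const_mul]
          ring
      refine algebra_step hs0 ?_ ?_ hP0.le hQ0.le (hnn _) hup hPQ
      · simpa [p, neg_mul, sub_eq_add_neg] using hlow (-s) (Or.inr rfl)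
      · simpa [q] using hlow s (Or.inl rfl)
    have hlim : Tendsto (fun s => A₀ * D₀ + (2 * A₀ * E₀ * s
        + 2 * A₀ * F₀ * s ^ 2 + (D₀ / 2 + s ^ 2 * F₀) ^ 2 * s ^ 2
        - (C₀ / 2 - s * E₀) ^ 2 * s ^ 2)) (𝓝[>] 0) (𝓝 (A₀ * D₀)) :=
      (Continuous.tendsto' (by fun_prop) 0 _ (by simp)).mono_left nhdsWithin_le_nhds
    exact ge_of_tendsto hlim hev
  have hD : ∀ δ : ℝ, ∫ x in K, e x * (G x + δ) = (∫ x in K, e x * G x) + δ * ∫ x in K, e x := by
    intro δ
    rw [← integral_const_mul, ← integral_add (hint (F := fun x => e x * G x) (hec.mul hGc))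
      ((hint hec).const_mul δ)]
    exact integral_congr_ae (Eventually.of_forall fun x => by ring)
  refine le_of_forall_pos_le_add fun η hη => ?_
  have := hmain (η / (∫ x in K, e x) ^ 2) (by positivity)
  rw [hD, mul_add] at this
  refine this.trans (le_of_eq ?_)
  field_simp
  ring

end Vale.Agent.P074
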