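import Vale.Agent.P074.Defs
import Mathlib.MeasureTheory.Integral.Bochner.Set
import Mathlib.MeasureTheory.Constructions.BorelSpace.Basic
import Mathlib.Analysis.InnerProductSpace.Projection.FiniteDimensional

/-!
A solvability criterion for finite linear systems, and a Galerkin solution with its bound.
-/

open MeasureTheory Finset
open scoped RealInnerProductSpace

namespace Vale.Agent.P074

variable {d : ℕ}

/-- A linear system whose quadratic form only vanishes where the data does is solvable. -/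
theorem exists_solution {n : Type*} [Fintype n] (A : n → n → ℝ) (r : n → ℝ)
    (h : ∀ c : n → ℝ, ∑ i, c i * ∑ j, A i j * c j = 0 → ∑ i, r i * c i = 0) :
    ∃ c : n → ℝ, ∀ i, ∑ j, A i j * c j = r i := by
  classical
  let L : EuclideanSpace ℝ n →ₗ[ℝ] EuclideanSpace ℝ n :=
    (WithLp.linearEquiv 2 ℝ (n → ℝ)).symm.toLinearMap ∘ₗ (Matrix.mulVecLin (Matrix.of A)) ∘ₗ
      (WithLp.linearEquiv 2 ℝ (n → ℝ)).toLinearMap
  have hL : ∀ c i, L c i = ∑ j, A i j * c j := fun c i => by
    simp [L, Matrix.mulVec, dotProduct]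
  obtain ⟨y, hy, e, he, hye⟩ :=
    (LinearMap.range L).exists_add_mem_mem_orthogonal (WithLp.toLp 2 r)
  obtain ⟨c, rfl⟩ := hy
  have h0 : ⟪L e, e⟫ = 0 := (Submodule.mem_orthogonal _ _).1 he _ ⟨e, rfl⟩
  have h1 : ∑ i, r i * e i = 0 := by
    refine h e ?_
    rw [PiLp.inner_apply] at h0
    simpa [hL, mul_comm] using h0
  have h2 : ⟪WithLp.toLp 2 r, e⟫ = 0 := by
    rw [PiLp.inner_apply]
    simpa [mul_comm] using h1
  rw [hye, inner_add_left, (Submodule.mem_orthogonal _ _).1 he _ ⟨c, rfl⟩, zero_add,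
    inner_self_eq_zero] at h2
  refine ⟨c, fun i => ?_⟩
  rw [← hL]
  rw [h2, add_zero] at hye
  rw [← hye]

theorem setIntegral_sum_mul {n : Type*} [Fintype n] {K : Set (Space d)} (hK : IsCompact K)
    (c : n → ℝ) {F : n → Space d → ℝ} (hF : ∀ i, ContinuousOn (F i) K) :
    ∫ x in K, ∑ i, c i * F i x = ∑ i, c i * ∫ x in K, F i x := by
  rw [integral_finsetSum _ fun i _ => ((hF i).integrableOn_compact hK).const_mul (c i)]
  simp only [integral_const_mul]

/-- Twice the absolute value of a weighted pairing is at most the sum of the squares. -/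
theorem setIntegral_two_mul_le {K : Set (Space d)} (hK : IsCompact K) {e F G : Space d → ℝ}
    (he : ContinuousOn e K) (he0 : ∀ x ∈ K, 0 ≤ e x) (hF : ContinuousOn F K)
    (hG : ContinuousOn G K) :
    |2 * ∫ x in K, e x * (F x * G x)|
      ≤ (∫ x in K, e x * F x ^ 2) + ∫ x in K, e x * G x ^ 2 := by
  rw [← integral_const_mul, ← integral_add (f := fun x => e x * F x ^ 2)
    ((he.fun_mul (hF.fun_pow 2)).integrableOn_compact hK) ((he.fun_mul (hG.fun_pow 2)).integrableOn_compact hK),
    ← Real.norm_eq_abs]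
  refine (norm_integral_le_integral_norm _).trans (setIntegral_mono_on
    ((((he.fun_mul (hF.fun_mul hG)).integrableOn_compact hK).const_mul 2).norm)
    (((he.fun_mul (hF.fun_pow 2)).fun_add (he.fun_mul (hG.fun_pow 2))).integrableOn_compact hK) hK.measurableSet
    fun x hx => ?_)
  rw [Real.norm_eq_abs, abs_mul, abs_mul, abs_mul, abs_two, abs_of_nonneg (he0 x hx)]
  have hsq := mul_nonneg (he0 x hx) (sq_nonneg (|F x| - |G x|))
  rw [← sq_abs (F x), ← sq_abs (G x)]
  linarith

/-- A Galerkin solution and its energy bound. -/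
theorem galerkin {n : Type*} [Fintype n] {K : Set (Space d)} (hK : IsCompact K)
    {e r : Space d → ℝ} {a : Space d → Space d} {h : n → Space d → ℝ}
    {u q : n → Space d → Space d} (he : ContinuousOn e K) (he0 : ∀ x ∈ K, 0 ≤ e x)
    (hr : ContinuousOn r K) (ha : ContinuousOn a K) (hh : ∀ i, ContinuousOn (h i) K)
    (hu : ∀ i, ContinuousOn (u i) K) (hq : ∀ i, ContinuousOn (q i) K)
    (hvar : ∀ c : n → ℝ, ∫ x in K, e x * (∑ i, c i * h i x) ^ 2
      ≤ ∫ x in K, e x * ⟪∑ i, c i • u i x, ∑ i, c i • q i x⟫)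
    {θ : ℝ} (hθ1 : θ < 1)
    (hθ : ∀ c : n → ℝ, ∀ x ∈ K,
      ⟪a x, ∑ i, c i • q i x⟫ ^ 2 ≤ θ * ⟪∑ i, c i • u i x, ∑ i, c i • q i x⟫) :
    ∃ c : n → ℝ, (∫ x in K, e x * ⟪∑ i, c i • u i x, ∑ i, c i • q i x⟫
        ≤ ∫ x in K, e x * (r x + ⟪a x, ∑ i, c i • q i x⟫) ^ 2) ∧
      ∀ i, ∫ x in K, e x * ⟪u i x, ∑ j, c j • q j x⟫
        = -∫ x in K, e x * (h i x * (r x + ⟪a x, ∑ j, c j • q j x⟫)) := by
  set qc : (n → ℝ) → Space d → Space d := fun c x => ∑ i, c i • q i x with hqc
  set hc : (n → ℝ) → Space d → ℝ := fun c x => ∑ i, c i * h i x with hhc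
  set uc : (n → ℝ) → Space d → Space d := fun c x => ∑ i, c i • u i x with huc
  set A : n → n → ℝ := fun i j => ∫ x in K, e x * (⟪u i x, q j x⟫ + h i x * ⟪a x, q j x⟫) with hA
  have cq : ∀ c, ContinuousOn (qc c) K := fun c =>
    continuousOn_finsetSum _ fun i _ => (hq i).const_smul (c i)
  have cu : ∀ c, ContinuousOn (uc c) K := fun c =>
    continuousOn_finsetSum _ fun i _ => (hu i).const_smul (c i)
  have chc : ∀ c, ContinuousOn (hc c) K := fun c =>
    continuousOn_finsetSum _ fun i _ => continuousOn_const.fun_mul (hh i)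
  have int : ∀ {F : Space d → ℝ}, ContinuousOn F K → IntegrableOn F K := fun hF =>
    hF.integrableOn_compact hK
  have hrow : ∀ c i, ∑ j, A i j * c j
      = (∫ x in K, e x * ⟪u i x, qc c x⟫) + ∫ x in K, e x * (h i x * ⟪a x, qc c x⟫) := by
    intro c i
    rw [← integral_add (int (he.fun_mul ((hu i).inner (cq c))))
      (int (he.fun_mul ((hh i).fun_mul (ha.inner (cq c)))))]
    simp only [hA, mul_comm _ (c _)]
    rw [← setIntegral_sum_mul hK (n := n) c fun j =>
      he.fun_mul (((hu i).inner (hq j)).fun_add ((hh i).fun_mul (ha.inner (hq j))))]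
    refine setIntegral_congr_fun hK.measurableSet fun x _ => ?_
    simp only [hqc, inner_sum, inner_smul_right, mul_sum, ← sum_add_distrib]
    exact sum_congr rfl fun j _ => by ring
  have hquad : ∀ c, ∑ i, c i * ∑ j, A i j * c j
      = (∫ x in K, e x * ⟪uc c x, qc c x⟫) + ∫ x in K, e x * (hc c x * ⟪a x, qc c x⟫) := by
    intro c
    simp only [hrow, mul_add, sum_add_distrib]
    rw [← setIntegral_sum_mul hK c fun i => he.fun_mul ((hu i).inner (cq c)),
      ← setIntegral_sum_mul hK c fun i => he.fun_mul ((hh i).fun_mul (ha.inner (cq c)))]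
    congr 1 <;> refine setIntegral_congr_fun hK.measurableSet fun x _ => ?_
    · simp only [huc, sum_inner, inner_smul_left, conj_trivial, mul_sum]
      exact sum_congr rfl fun j _ => by ring
    · simp only [hhc, sum_mul, mul_sum]
      exact sum_congr rfl fun j _ => by ring
  obtain ⟨c, hc'⟩ := exists_solution A (fun i => -∫ x in K, e x * (h i x * r x)) fun c h0 => by
    rw [hquad] at h0
    have h1 := (abs_le.1 (setIntegral_two_mul_le hK he he0 (chc c) (ha.inner (cq c)))).1
    have h2 : ∫ x in K, e x * ⟪a x, qc c x⟫ ^ 2 ≤ θ * ∫ x in K, e x * ⟪uc c x, qc c x⟫ := by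
      rw [← integral_const_mul]
      refine setIntegral_mono_on (int (he.fun_mul ((ha.inner (cq c)).fun_pow 2)))
        ((int (he.fun_mul ((cu c).inner (cq c)))).const_mul θ) hK.measurableSet fun x hx => ?_
      rw [mul_left_comm]
      exact mul_le_mul_of_nonneg_left (hθ c x hx) (he0 x hx)
    have h3 := hvar c
    have h4 : 0 ≤ ∫ x in K, e x * hc c x ^ 2 := setIntegral_nonneg hK.measurableSet fun x hx =>
      mul_nonneg (he0 x hx) (sq_nonneg _)
    have h5 : ∫ x in K, e x * hc c x ^ 2 = 0 := by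
      nlinarith
    have h6 : ∑ i, (-∫ x in K, e x * (h i x * r x)) * c i
        = -∫ x in K, e x * (hc c x * r x) := by
      simp only [neg_mul, sum_neg_distrib]
      simp only [mul_comm _ (c _)]
      rw [← setIntegral_sum_mul hK c fun i => he.fun_mul ((hh i).fun_mul hr)]
      congr 1
      refine setIntegral_congr_fun hK.measurableSet fun x _ => ?_
      simp only [hhc, sum_mul, mul_sum]
      exact sum_congr rfl fun j _ => by ring
    rw [h6, neg_eq_zero]
    by_contra h7
    set X := ∫ x in K, e x * (hc c x * r x) with hX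
    set Y := ∫ x in K, e x * r x ^ 2 with hY
    set t := (Y + 1) / |X| with ht
    have h8 := setIntegral_two_mul_le hK he he0 (F := fun x => t * hc c x) (G := r)
      (continuousOn_const.fun_mul (chc c)) hr
    simp only [mul_pow, mul_left_comm (e _) (t ^ 2) _, mul_assoc t, mul_left_comm (e _) t,
      integral_const_mul] at h8
    rw [h5, mul_zero, zero_add, ← hX, abs_mul, abs_mul, abs_two, ht, abs_div, abs_abs,
      div_mul_cancel₀ _ (abs_ne_zero.2 h7), ← hY] at h8
    have hY0 : 0 ≤ Y := setIntegral_nonneg hK.measurableSet fun x hx =>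
      mul_nonneg (he0 x hx) (sq_nonneg _)
    rw [abs_of_nonneg (by linarith)] at h8
    linarith
  have hsol : ∀ i, ∫ x in K, e x * ⟪u i x, qc c x⟫
      = -∫ x in K, e x * (h i x * (r x + ⟪a x, qc c x⟫)) := by
    intro i
    have h1 := hc' i
    rw [hrow] at h1
    simp only [mul_add]
    rw [integral_add (int (he.fun_mul ((hh i).fun_mul hr))) (int (he.fun_mul ((hh i).fun_mul (ha.inner (cq c)))))]
    linarith
  refine ⟨c, ?_, hsol⟩
  have hE : ∫ x in K, e x * ⟪uc c x, qc c x⟫
      = -∫ x in K, e x * (hc c x * (r x + ⟪a x, qc c x⟫)) := by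
    have := congrArg (fun F : n → ℝ => ∑ i, c i * F i) (funext hsol)
    simp only [mul_neg, sum_neg_distrib] at this
    rw [← setIntegral_sum_mul hK c fun i => he.fun_mul ((hu i).inner (cq c)),
      ← setIntegral_sum_mul hK c fun i => he.fun_mul ((hh i).fun_mul (hr.fun_add (ha.inner (cq c))))] at this
    convert this using 1
    · refine setIntegral_congr_fun hK.measurableSet fun x _ => ?_
      simp only [huc, sum_inner, inner_smul_left, conj_trivial, mul_sum]
      exact sum_congr rfl fun j _ => by ring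
    · congr 1
      refine setIntegral_congr_fun hK.measurableSet fun x _ => ?_
      simp only [hhc, sum_mul, mul_sum]
      exact sum_congr rfl fun j _ => by ring
  have h1 := (abs_le.1 (setIntegral_two_mul_le hK he he0 (chc c) (hr.fun_add (ha.inner (cq c))))).1
  have h3 := hvar c
  linarith

end Vale.Agent.P074
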