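import Vale.Agent.P074.Soft
import Vale.Agent.P074.Galerkin
import Vale.Agent.P074.BrascampLieb
import Mathlib.Analysis.Normed.Ring.Units
import Mathlib.LinearAlgebra.Dimension.Finite
import Mathlib.Analysis.InnerProductSpace.Calculus

/-!
The estimate for one cell of the entropic problem.
-/

open MeasureTheory Finset Set
open scoped RealInnerProductSpace

namespace Vale.Agent.P074

variable {d : ℕ} {ι : Type*} [Fintype ι]

/-- The scores at `x`. -/
noncomputable def score (z : ι → Space d) (b : ι → ℝ) (x : Space d) (i : ι) : ℝ := ⟪x, z i⟫ - b i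

/-- The weights at `x`. -/
noncomputable def wgt (z : ι → Space d) (b : ι → ℝ) (x : Space d) (i : ι) : ℝ :=
  smax (score z b x) i

/-- The barycentre of the sites for the weights at `x`. -/
noncomputable def bary (z : ι → Space d) (b : ι → ℝ) (x : Space d) : Space d :=
  ∑ i, wgt z b x i • z i

/-- The rank one operator of a vector. -/
noncomputable def rk (a : Space d) : Space d →L[ℝ] Space d := (innerSL ℝ a).smulRight a

/-- The auxiliary concave weight. -/
noncomputable def chi (r : ℝ) (x : Space d) : ℝ := r ^ 2 - ‖x‖ ^ 2 / 2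

/-- The Hessian of the potential of one cell. -/
noncomputable def hess (z : ι → Space d) (b : ι → ℝ) (r : ℝ) (x : Space d) :
    Space d →L[ℝ] Space d :=
  (∑ i, wgt z b x i • rk (z i - bary z b x))
    + (chi r x)⁻¹ • ContinuousLinearMap.id ℝ (Space d) + ((chi r x) ^ 2)⁻¹ • rk x

theorem inner_rk (a w y : Space d) : ⟪w, rk a y⟫ = ⟪a, y⟫ * ⟪w, a⟫ := by
  simp [rk, inner_smul_right]

theorem continuous_rk : Continuous (rk (d := d)) :=
  ((ContinuousLinearMap.smulRightL ℝ (Space d) (Space d)).continuous₂).comp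
    ((innerSL ℝ (E := Space d)).continuous.prodMk continuous_id)

variable [Nonempty ι] {z : ι → Space d} {b : ι → ℝ}

@[fun_prop]
theorem continuous_wgt (i : ι) : Continuous fun x => wgt z b x i := by
  unfold wgt smax score
  exact Continuous.div (by fun_prop) (by fun_prop) fun x => (sumExp_pos _).ne'

@[fun_prop]
theorem continuous_bary : Continuous (bary z b) := by
  unfold bary; fun_prop

theorem inner_bary (x w : Space d) :
    ⟪w, bary z b x⟫ = smean (score z b x) fun i => ⟪w, z i⟫ := by
  simp [bary, smean, wgt, inner_sum, inner_smul_right]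

theorem inner_hess (r : ℝ) (x w y : Space d) :
    ⟪w, hess z b r x y⟫ = (∑ i, wgt z b x i * (⟪z i - bary z b x, y⟫ * ⟪w, z i - bary z b x⟫))
      + (chi r x)⁻¹ * ⟪w, y⟫ + ((chi r x) ^ 2)⁻¹ * (⟪x, y⟫ * ⟪w, x⟫) := by
  simp only [hess, add_apply, smul_apply, _root_.sum_apply, ContinuousLinearMap.id_apply,
    inner_add_right, inner_smul_right, inner_sum, inner_rk]

theorem inner_hess_self (r : ℝ) (x w : Space d) :
    ⟪w, hess z b r x w⟫ = svar (score z b x) (fun i => ⟪w, z i⟫)
      + (chi r x)⁻¹ * ‖w‖ ^ 2 + ((chi r x) ^ 2)⁻¹ * ⟪x, w⟫ ^ 2 := by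
  rw [inner_hess, real_inner_self_eq_norm_sq, real_inner_comm w x, svar]
  congr 2
  · refine sum_congr rfl fun i _ => ?_
    rw [real_inner_comm _ w, inner_sub_left, real_inner_comm w (bary z b x), inner_bary,
      real_inner_comm (z i) w, wgt]
    ring
  · ring

variable {K : Set (Space d)} {r : ℝ}

theorem chi_ge {x : Space d} (hx : ‖x‖ ≤ r) : r ^ 2 / 2 ≤ chi r x := by
  have := pow_le_pow_left₀ (norm_nonneg x) hx 2
  unfold chi; linarith

theorem chi_le (x : Space d) : chi r x ≤ r ^ 2 := by
  unfold chi; linarith [sq_nonneg ‖x‖]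

theorem chi_pos (hr : 0 < r) {x : Space d} (hx : ‖x‖ ≤ r) : 0 < chi r x :=
  lt_of_lt_of_le (by positivity) (chi_ge hx)

theorem hess_lower (hr : 0 < r) {x : Space d} (hx : ‖x‖ ≤ r) (w : Space d) :
    (r ^ 2)⁻¹ * ‖w‖ ^ 2 ≤ ⟪w, hess z b r x w⟫ := by
  rw [inner_hess_self]
  have h1 := svar_nonneg (score z b x) fun i => ⟪w, z i⟫
  have h2 : 0 ≤ ((chi r x) ^ 2)⁻¹ * ⟪x, w⟫ ^ 2 := by positivity
  have h3 := mul_le_mul_of_nonneg_right (inv_anti₀ (chi_pos hr hx) (chi_le (r := r) x))
    (sq_nonneg ‖w‖)
  linarith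

theorem hess_isUnit (hr : 0 < r) {x : Space d} (hx : ‖x‖ ≤ r) : IsUnit (hess z b r x) := by
  have hinj : Function.Injective (hess z b r x) := by
    refine (injective_iff_map_eq_zero _).2 fun w hw => ?_
    have := hess_lower (z := z) (b := b) hr hx w
    rw [hw, inner_zero_right] at this
    have h0 : (0 : ℝ) < (r ^ 2)⁻¹ := by positivity
    exact norm_eq_zero.1 (le_antisymm (le_of_not_gt fun hn => absurd this
      (not_le.2 (mul_pos h0 (pow_pos hn 2)))) (norm_nonneg w))
  exact ContinuousLinearMap.isUnit_iff_bijective.2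
    ⟨hinj, LinearMap.injective_iff_surjective (f := (hess z b r x).toLinearMap).1 hinj⟩

theorem continuousOn_hess (hr : 0 < r) (hK : ∀ x ∈ K, ‖x‖ ≤ r) :
    ContinuousOn (hess z b r) K := by
  have hc : ContinuousOn (chi r) K := (by unfold chi; fun_prop : Continuous (chi r)).continuousOn
  have h1 : ContinuousOn (fun x => (chi r x)⁻¹) K := hc.inv₀ fun x hx => (chi_pos hr (hK x hx)).ne'
  have h2 : ContinuousOn (fun x => ((chi r x) ^ 2)⁻¹) K :=
    (hc.pow 2).inv₀ fun x hx => pow_ne_zero _ (chi_pos hr (hK x hx)).ne'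
  exact ((continuous_finsetSum _ fun i _ => (continuous_wgt i).smul
    (continuous_rk.comp (continuous_const.sub continuous_bary))).continuousOn.fun_add
      (h1.smul continuousOn_const)).fun_add (h2.smul continuous_rk.continuousOn)

theorem continuousOn_inverse_hess (hr : 0 < r) (hK : ∀ x ∈ K, ‖x‖ ≤ r) :
    ContinuousOn (fun x => Ring.inverse (hess z b r x)) K := fun x hx => by
  obtain ⟨u, hu⟩ := hess_isUnit (z := z) (b := b) hr (hK x hx)
  exact ((hu ▸ NormedRing.inverse_continuousAt u : ContinuousAt Ring.inverse (hess z b r x))).comp_continuousWithinAt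
    (continuousOn_hess hr hK x hx)

theorem hess_inverse_apply (hr : 0 < r) {x : Space d} (hx : ‖x‖ ≤ r) (u : Space d) :
    hess z b r x (Ring.inverse (hess z b r x) u) = u := by
  rw [← ContinuousLinearMap.mul_apply, Ring.mul_inverse_cancel _ (hess_isUnit hr hx)]
  rfl

theorem hasDerivAt_score (x w : Space d) (i : ι) :
    HasDerivAt (fun t : ℝ => score z b (x + t • w) i) ⟪w, z i⟫ 0 := by
  simp only [score, inner_add_left, inner_smul_left, conj_trivial]
  simpa using (((hasDerivAt_id (0 : ℝ)).mul_const ⟪w, z i⟫).const_add ⟪x, z i⟫).sub_const (b i)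

theorem hasDerivAt_chi (x w : Space d) :
    HasDerivAt (fun t : ℝ => chi r (x + t • w)) (-⟪x, w⟫) 0 := by
  have hl : HasDerivAt (fun t : ℝ => x + t • w) w 0 := by
    simpa using ((hasDerivAt_id (0 : ℝ)).smul_const w).const_add x
  simpa [chi] using (hl.norm_sq.div_const 2).const_sub (r ^ 2)

theorem hasDerivAt_inner_line (x w v : Space d) :
    HasDerivAt (fun t : ℝ => ⟪x + t • w, v⟫) ⟪w, v⟫ 0 := by
  simp only [inner_add_left, inner_smul_left, conj_trivial]
  simpa using ((hasDerivAt_id (0 : ℝ)).mul_const ⟪w, v⟫).const_add ⟪x, v⟫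

/-- The covariance of `P` with the sites, as a vector. -/
noncomputable def covVec (z : ι → Space d) (b : ι → ℝ) (P : ι → ℝ) (x : Space d) : Space d :=
  ∑ i, (wgt z b x i * (P i - smean (score z b x) P)) • z i

theorem inner_covVec (P : ι → ℝ) (x w : Space d) :
    ⟪covVec z b P x, w⟫
      = ∑ i, wgt z b x i * (P i - smean (score z b x) P) * ⟪w, z i⟫ := by
  simp only [covVec, sum_inner, inner_smul_left, conj_trivial]
  exact sum_congr rfl fun i _ => by rw [real_inner_comm]

theorem hasDerivAt_zeta (P : ι → ℝ) (k : ι) (x w : Space d) :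
    HasDerivAt (fun t : ℝ => P k - smean (score z b (x + t • w)) P) ⟪-covVec z b P x, w⟫ 0 := by
  have h := (hasDerivAt_smean (a := fun t => score z b (x + t • w)) (s := (0 : ℝ))
    (hasDerivAt_score x w) P).const_sub (P k)
  simp only [zero_smul, add_zero] at h
  refine h.congr_deriv ?_
  rw [inner_neg_left, inner_covVec]
  congr 1
  simp only [wgt]
  rw [sum_smax_sub_mul _ (fun i => ⟪w, z i⟫) P, sum_smax_sub_mul _ P (fun i => ⟪w, z i⟫)]
  exact sum_congr rfl fun i _ => by ring

/-- The estimate for one cell. -/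
theorem cell_bound (hK : IsCompact K) (hKc : Convex ℝ K) (hKv : 0 < volume K) (hr : 0 < r)
    (hKr : ∀ x ∈ K, ‖x‖ ≤ r) (P : ι → ℝ) (k : ι) (v : Space d) {f : Space d → ℝ}
    (hf : ContinuousOn f K)
    (hmean : ∫ x in K, wgt z b x k * (f x - (P k - smean (score z b x) P)) = 0) :
    ∃ q : Space d → Space d, ContinuousOn q K ∧
      (∫ x in K, wgt z b x k * (chi r x * svar (score z b x) (fun i => ⟪q x, z i⟫) + ‖q x‖ ^ 2)
        ≤ ∫ x in K, wgt z b x k * (chi r x * (f x - (P k - smean (score z b x) P)) ^ 2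
            - 2 * (f x - (P k - smean (score z b x) P)) * ⟪x, q x⟫)) ∧
      (∫ x in K, wgt z b x k * (chi r x * ⟪-covVec z b P x, q x⟫)
        = ∫ x in K, wgt z b x k * ((P k - smean (score z b x) P) * ⟪x, q x⟫
            - chi r x * (P k - smean (score z b x) P) * (f x - (P k - smean (score z b x) P)))) ∧
      ∫ x in K, wgt z b x k * ⟪v, q x⟫
        = -∫ x in K, wgt z b x k * (⟪x, v⟫ * (f x - (P k - smean (score z b x) P))) := by
  set ζ : Space d → ℝ := fun x => P k - smean (score z b x) P with hζ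
  set p : Space d → ℝ := fun x => wgt z b x k with hp
  set ρ : Space d → ℝ := fun x => f x - ζ x with hρ
  have hp0 : ∀ x, 0 < p x := fun x => smax_pos _ _
  have hc0 : ∀ x ∈ K, 0 < chi r x := fun x hx => chi_pos hr (hKr x hx)
  have hcc : ContinuousOn (chi r : Space d → ℝ) K :=
    (by unfold chi; fun_prop : Continuous (chi r : Space d → ℝ)).continuousOn
  have hci : ContinuousOn (fun x : Space d => (chi r x)⁻¹) K := hcc.inv₀ fun x hx => (hc0 x hx).ne'
  have hζc : ContinuousOn ζ K := by
    refine Continuous.continuousOn ?_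
    show Continuous fun x => P k - ∑ i, wgt z b x i * P i
    fun_prop
  have hpc : ContinuousOn p K := (continuous_wgt k).continuousOn
  have hρc : ContinuousOn ρ K := hf.sub hζc
  set η : Space d → ℝ := fun x => p x * chi r x with hη
  have hηc : ContinuousOn η K := hpc.fun_mul hcc
  have hη0 : ∀ x ∈ K, 0 < η x := fun x hx => mul_pos (hp0 x) (hc0 x hx)
  have hH : 0 < ∫ x in K, η x := by
    obtain ⟨x₀, hx₀K, hx₀⟩ := hK.exists_isMinOn (nonempty_of_measure_ne_zero hKv.ne') hηc
    have := setIntegral_mono_on (f := fun _ => η x₀) (integrableOn_const hK.measure_lt_top.ne)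
      (hηc.integrableOn_compact (μ := volume) hK) hK.measurableSet fun x hx => hx₀ hx
    rw [setIntegral_const, smul_eq_mul] at this
    exact lt_of_lt_of_le
      (mul_pos (ENNReal.toReal_pos hKv.ne' hK.measure_lt_top.ne) (hη0 x₀ hx₀K)) this
  set g : Fin 3 → Space d → ℝ := fun i x =>
    ![(chi r x)⁻¹, ⟪x, v⟫ * (chi r x)⁻¹, ζ x] i with hg
  set u : Fin 3 → Space d → Space d := fun i x =>
    ![((chi r x) ^ 2)⁻¹ • x, (chi r x)⁻¹ • v + (⟪x, v⟫ * ((chi r x) ^ 2)⁻¹) • x,
      -covVec z b P x] i with hu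
  set q : Fin 3 → Space d → Space d := fun i x => Ring.inverse (hess z b r x) (u i x) with hq
  have hci2 : ContinuousOn (fun x : Space d => ((chi r x) ^ 2)⁻¹) K :=
    (hcc.pow 2).inv₀ fun x hx => pow_ne_zero _ (hc0 x hx).ne'
  have hgc : ∀ i, ContinuousOn (g i) K := by
    intro i; fin_cases i
    · exact hci
    · exact (continuous_id.inner continuous_const).continuousOn.fun_mul hci
    · exact hζc
  have huc : ∀ i, ContinuousOn (u i) K := by
    intro i; fin_cases i
    · exact hci2.smul continuousOn_id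
    · exact (hci.smul continuousOn_const).fun_add
        (((continuous_id.inner continuous_const).continuousOn.fun_mul hci2).smul continuousOn_id)
    · refine Continuous.continuousOn ?_
      show Continuous fun x =>
        -∑ i, (wgt z b x i * (P i - ∑ j, wgt z b x j * P j)) • z i
      fun_prop
  have hqc : ∀ i, ContinuousOn (q i) K := fun i =>
    (continuousOn_inverse_hess hr hKr).clm_apply (huc i)
  have hgd : ∀ i, ∀ w, ∀ x ∈ K, HasDerivAt (fun t : ℝ => g i (x + t • w)) ⟪u i x, w⟫ 0 := by
    intro i w x hx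
    have hd := hasDerivAt_chi (r := r) x w
    have hne : chi r (x + (0 : ℝ) • w) ≠ 0 := by simpa using (hc0 x hx).ne'
    fin_cases i
    · refine (hd.inv hne).congr_deriv ?_
      simp [hu, inner_smul_left, div_eq_inv_mul]
    · refine ((hasDerivAt_inner_line x w v).mul (hd.inv hne)).congr_deriv ?_
      simp [hu, inner_add_left, inner_smul_left, real_inner_comm v w]
      ring
    · exact hasDerivAt_zeta P k x w
  set M : Fin 3 → ℝ := fun i => (∫ x in K, η x * g i x) / ∫ x in K, η x with hM
  set h : Fin 3 → Space d → ℝ := fun i x => g i x - M i with hh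
  have hhc : ∀ i, ContinuousOn (h i) K := fun i => (hgc i).sub continuousOn_const
  have hvar : ∀ c : Fin 3 → ℝ, ∫ x in K, η x * (∑ i, c i * h i x) ^ 2
      ≤ ∫ x in K, η x * ⟪∑ i, c i • u i x, ∑ i, c i • q i x⟫ := by
    intro c
    set gc : Space d → ℝ := fun x => ∑ i, c i * g i x with hgcdef
    have hgcc : ContinuousOn gc K :=
      continuousOn_finsetSum _ fun i _ => continuousOn_const.fun_mul (hgc i)
    set uc : Space d → Space d := fun x => ∑ i, c i • u i x with hucdef
    set qc : Space d → Space d := fun x => ∑ i, c i • q i x with hqcdef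
    have hucc : ContinuousOn uc K := continuousOn_finsetSum _ fun i _ => (huc i).const_smul (c i)
    have hqcc : ContinuousOn qc K := continuousOn_finsetSum _ fun i _ => (hqc i).const_smul (c i)
    have hAq : ∀ x ∈ K, hess z b r x (qc x) = uc x := fun x hx => by
      simp only [hqcdef, hucdef, map_sum, map_smul, hq, hess_inverse_apply hr (hKr x hx)]
    have hVc : ContinuousOn (fun x => lsum (score z b x) - score z b x k - Real.log (chi r x)) K := by
      refine ContinuousOn.fun_sub (Continuous.continuousOn ?_) (hcc.log fun x hx => (hc0 x hx).ne')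
      unfold lsum score
      exact (Continuous.log (by fun_prop) fun x => (sumExp_pos _).ne').sub (by fun_prop)
    have hbl := brascamp_lieb hK hKc hKv hVc hgcc (hucc.inner hqcc)
      (continuousOn_hess (z := z) (b := b) hr hKr) hucc
      (V1 := fun x w => smean (score z b x) (fun i => ⟪w, z i⟫) - ⟪w, z k⟫ + ⟪x, w⟫ / chi r x)
      (fun w x hx => ?_) (fun w x hx => ?_) (fun w x hx => ?_)
      (m := (r ^ 2)⁻¹) (by positivity) (fun x hx w => hess_lower hr (hKr x hx) w)
      (fun x hx w => ?_)
    · have hexp : ∀ x ∈ K, Real.exp (-(lsum (score z b x) - score z b x k - Real.log (chi r x)))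
          = η x := fun x hx => by
        simp only [hη, hp, wgt, smax_eq_exp]
        rw [show -(lsum (score z b x) - score z b x k - Real.log (chi r x))
          = (score z b x k - lsum (score z b x)) + Real.log (chi r x) by ring, Real.exp_add,
          Real.exp_log (hc0 x hx)]
      have hm := hK.measurableSet
      have hexp' : ∀ F : Space d → ℝ, ∫ x in K, Real.exp (-(lsum (score z b x) - score z b x k
          - Real.log (chi r x))) * F x = ∫ x in K, η x * F x := fun F =>
        setIntegral_congr_fun hm fun x hx => by simp only [hexp x hx]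
      rw [setIntegral_congr_fun hm hexp, hexp', hexp', hexp'] at hbl
      have i2 := (hηc.fun_mul (hgcc.fun_pow 2)).integrableOn_compact (μ := volume) hK
      have i1 := (hηc.fun_mul hgcc).integrableOn_compact (μ := volume) hK
      have i0 := hηc.integrableOn_compact (μ := volume) hK
      have hsum : ∑ i, c i * M i = (∫ x in K, η x * gc x) / ∫ x in K, η x := by
        simp only [hM, ← mul_div_assoc, ← sum_div]
        congr 1
        rw [← setIntegral_sum_mul hK c fun i => hηc.fun_mul (hgc i)]
        refine setIntegral_congr_fun hm fun x _ => ?_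
        simp only [hgcdef, mul_sum]
        exact sum_congr rfl fun i _ => by ring
      set H := ∫ x in K, η x
      set B := ∫ x in K, η x * gc x
      have e : ∫ x in K, η x * (∑ i, c i * h i x) ^ 2
          = (∫ x in K, η x * gc x ^ 2) - B ^ 2 / H := by
        have e1 : ∀ x, η x * (∑ i, c i * h i x) ^ 2
            = η x * gc x ^ 2 - (2 * (B / H)) * (η x * gc x) + (B / H) ^ 2 * η x := fun x => by
          simp only [hh, mul_sub, sum_sub_distrib, hsum, hgcdef]; ring
        simp only [e1]
        have j : IntegrableOn (fun x => η x * gc x ^ 2 - 2 * (B / H) * (η x * gc x)) K :=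
          i2.sub (i1.const_mul _)
        rw [integral_add j (i0.const_mul _), integral_sub i2 (i1.const_mul _),
          integral_const_mul, integral_const_mul]
        field_simp
        ring
      rw [e]
      refine le_of_mul_le_mul_left ?_ hH
      rw [mul_sub, mul_div_cancel₀ _ hH.ne']
      exact hbl
    · have h1 := hasDerivAt_lsum (a := fun t : ℝ => score z b (x + t • w)) (s := (0 : ℝ))
        (hasDerivAt_score x w)
      have h2 := (hasDerivAt_chi (r := r) x w).log (by simpa using (hc0 x hx).ne')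
      refine ((h1.sub (hasDerivAt_score x w k)).sub h2).congr_deriv ?_
      simp [sub_eq_add_neg, neg_div]
    · have h1 := hasDerivAt_smean (a := fun t : ℝ => score z b (x + t • w)) (s := (0 : ℝ))
        (hasDerivAt_score x w) fun i => ⟪w, z i⟫
      have h2 := (hasDerivAt_inner_line x w w).div (hasDerivAt_chi (r := r) x w)
        (by simpa using (hc0 x hx).ne')
      refine ((h1.sub_const ⟪w, z k⟫).add h2).congr_deriv ?_
      simp only [zero_smul, add_zero]
      rw [inner_hess_self, sum_cov_self, real_inner_self_eq_norm_sq]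
      have := (hc0 x hx).ne'
      field_simp
      ring
    · simp only [hgcdef, hucdef, sum_inner, inner_smul_left, conj_trivial]
      exact HasDerivAt.fun_sum fun i _ => (hgd i w x hx).const_mul (c i)
    · have h0 : 0 ≤ ⟪w + qc x, hess z b r x (w + qc x)⟫ :=
        le_trans (by positivity) (hess_lower hr (hKr x hx) _)
      rw [map_add, hAq x hx, inner_add_left, inner_add_right, inner_add_right] at h0
      have hsym : ⟪qc x, hess z b r x w⟫ = ⟪uc x, w⟫ := by
        rw [← hAq x hx, real_inner_comm w, inner_hess, inner_hess]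
        simp only [real_inner_comm (z _ - bary z b x), real_inner_comm x, real_inner_comm (qc x) w]
        congr 2
        · exact sum_congr rfl fun i _ => by ring
        · ring
      rw [hsym, real_inner_comm (uc x) w, real_inner_comm (uc x) (qc x)] at h0
      linarith
  have hav : ∀ x ∈ K, ∀ y : Space d, ⟪-(chi r x)⁻¹ • x, y⟫ = -((chi r x)⁻¹ * ⟪x, y⟫) :=
    fun x _ y => by rw [inner_smul_left, conj_trivial, neg_mul]
  obtain ⟨c, hE, hsol⟩ := galerkin hK (e := η) (r := ρ) (a := fun x => -(chi r x)⁻¹ • x) hηc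
    (fun x hx => (hη0 x hx).le) hρc (hci.neg.smul continuousOn_id) hhc huc hqc hvar
    (θ := 2 / 3) (by norm_num) fun c x hx => by
      have hAq : hess z b r x (∑ i, c i • q i x) = ∑ i, c i • u i x := by
        simp only [map_sum, map_smul, hq, hess_inverse_apply hr (hKr x hx)]
      rw [← hAq, real_inner_comm (∑ i, c i • q i x) (hess z b r x _), inner_hess_self,
        hav x hx, neg_sq, mul_pow]
      set w := ∑ i, c i • q i x
      have h1 := svar_nonneg (score z b x) fun i => ⟪w, z i⟫
      have h2 : ⟪x, w⟫ ^ 2 ≤ r ^ 2 * ‖w‖ ^ 2 := by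
        rw [← sq_abs, ← mul_pow]
        exact pow_le_pow_left₀ (abs_nonneg _) ((abs_real_inner_le_norm _ _).trans
          (mul_le_mul_of_nonneg_right (hKr x hx) (norm_nonneg _))) 2
      have hχ := hc0 x hx
      have h3 : ((chi r x) ^ 2)⁻¹ * ⟪x, w⟫ ^ 2 ≤ 2 * ((chi r x)⁻¹ * ‖w‖ ^ 2) := by
        rw [show ((chi r x) ^ 2)⁻¹ = (chi r x)⁻¹ * (chi r x)⁻¹ by rw [sq, mul_inv], mul_assoc,
          mul_left_comm 2]
        refine mul_le_mul_of_nonneg_left ?_ (inv_nonneg.2 hχ.le)
        rw [inv_mul_le_iff₀ hχ]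
        nlinarith [mul_le_mul_of_nonneg_right (chi_ge (hKr x hx)) (sq_nonneg ‖w‖)]
      rw [← inv_pow] at h3 ⊢
      linarith
  set qc : Space d → Space d := fun x => ∑ i, c i • q i x with hqcdef
  have hqcc : ContinuousOn qc K := continuousOn_finsetSum _ fun i _ => (hqc i).const_smul (c i)
  have hm := hK.measurableSet
  have hs : ∀ x ∈ K, η x * (ρ x + ⟪-(chi r x)⁻¹ • x, qc x⟫)
      = p x * (chi r x * ρ x) - p x * ⟪x, qc x⟫ := fun x hx => by
    rw [hav x hx]; simp only [hη]
    have := (hc0 x hx).ne'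
    field_simp
    ring
  have hxq : ContinuousOn (fun x => ⟪x, qc x⟫) K := continuousOn_id.inner hqcc
  have i1 := (hpc.fun_mul (hcc.fun_mul hρc)).integrableOn_compact (μ := volume) hK
  have i2 := (hpc.fun_mul hxq).integrableOn_compact (μ := volume) hK
  have hρ0 : ∫ x in K, p x * ρ x = 0 := hmean
  set S := ∫ x in K, η x * (ρ x + ⟪-(chi r x)⁻¹ • x, qc x⟫) with hSdef
  have hsc : ContinuousOn (fun x => ⟪-(chi r x)⁻¹ • x, qc x⟫) K :=
    (hci.neg.smul continuousOn_id).inner hqcc
  have hts : ∀ i, ∫ x in K, η x * (h i x * (ρ x + ⟪-(chi r x)⁻¹ • x, qc x⟫))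
      = (∫ x in K, η x * (g i x * (ρ x + ⟪-(chi r x)⁻¹ • x, qc x⟫))) - M i * S := by
    intro i
    rw [hSdef, ← integral_const_mul, ← integral_sub
      ((hηc.fun_mul ((hgc i).fun_mul (hρc.fun_add hsc))).integrableOn_compact hK)
      (((hηc.fun_mul (hρc.fun_add hsc)).integrableOn_compact hK).const_mul _)]
    exact integral_congr_ae (Filter.Eventually.of_forall fun x => by simp only [hh]; ring)
  have hM0 : 0 < M 0 := by
    refine div_pos ?_ hH
    have : ∀ x ∈ K, η x * g 0 x = p x := fun x hx => by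
      simp [hη, hg, mul_inv_cancel_right₀ (hc0 x hx).ne']
    rw [setIntegral_congr_fun hm this]
    obtain ⟨x₀, hx₀K, hx₀⟩ := hK.exists_isMinOn (nonempty_of_measure_ne_zero hKv.ne') hpc
    have := setIntegral_mono_on (f := fun _ => p x₀) (integrableOn_const hK.measure_lt_top.ne)
      (hpc.integrableOn_compact (μ := volume) hK) hm fun x hx => hx₀ hx
    rw [setIntegral_const, smul_eq_mul] at this
    exact lt_of_lt_of_le (mul_pos (ENNReal.toReal_pos hKv.ne' hK.measure_lt_top.ne) (hp0 x₀)) this
  have hS0 : S = 0 := by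
    have h0 := hsol 0
    rw [hts] at h0
    have l1 : ∀ x ∈ K, η x * ⟪u 0 x, qc x⟫ = p x * ((chi r x)⁻¹ * ⟪x, qc x⟫) := fun x hx => by
      simp only [hη, hu, Matrix.cons_val_zero, inner_smul_left, conj_trivial]
      have := (hc0 x hx).ne'
      field_simp
    have l2 : ∀ x ∈ K, η x * (g 0 x * (ρ x + ⟪-(chi r x)⁻¹ • x, qc x⟫))
        = p x * ρ x - p x * ((chi r x)⁻¹ * ⟪x, qc x⟫) := fun x hx => by
      rw [hav x hx]
      simp only [hη, hg, Matrix.cons_val_zero]
      have := (hc0 x hx).ne'
      field_simp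
      ring
    rw [setIntegral_congr_fun hm l1, setIntegral_congr_fun hm l2,
      integral_sub ((hpc.fun_mul hρc).integrableOn_compact hK)
        ((hpc.fun_mul (hci.fun_mul hxq)).integrableOn_compact hK), hρ0] at h0
    have : M 0 * S = 0 := by linarith
    exact (mul_eq_zero.1 this).resolve_left hM0.ne'
  refine ⟨qc, hqcc, ?_, ?_, ?_⟩
  · have e1 : ∀ x ∈ K, η x * ⟪∑ i, c i • u i x, ∑ i, c i • q i x⟫
        = p x * (chi r x * svar (score z b x) (fun i => ⟪qc x, z i⟫) + ‖qc x‖ ^ 2)
          + p x * ((chi r x)⁻¹ * ⟪x, qc x⟫ ^ 2) := fun x hx => by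
      have hAq : hess z b r x (qc x) = ∑ i, c i • u i x := by
        simp only [hqcdef, map_sum, map_smul, hq, hess_inverse_apply hr (hKr x hx)]
      rw [← hAq, real_inner_comm (qc x) (hess z b r x (qc x)), inner_hess_self]
      simp only [hη]
      have := (hc0 x hx).ne'
      field_simp
    have e2 : ∀ x ∈ K, η x * (ρ x + ⟪-(chi r x)⁻¹ • x, qc x⟫) ^ 2
        = p x * (chi r x * ρ x ^ 2 - 2 * ρ x * ⟪x, qc x⟫)
          + p x * ((chi r x)⁻¹ * ⟪x, qc x⟫ ^ 2) := fun x hx => by
      rw [hav x hx]; simp only [hη]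
      have := (hc0 x hx).ne'
      field_simp
      ring
    have hsv : ContinuousOn (fun x => svar (score z b x) (fun i => ⟪qc x, z i⟫)) K := by
      show ContinuousOn (fun x => ∑ i, wgt z b x i
        * (⟪qc x, z i⟫ - ∑ j, wgt z b x j * ⟪qc x, z j⟫) ^ 2) K
      exact continuousOn_finsetSum _ fun i _ => (continuous_wgt i).continuousOn.fun_mul
        (((hqcc.inner continuousOn_const).fun_sub (continuousOn_finsetSum _ fun j _ =>
          (continuous_wgt j).continuousOn.fun_mul (hqcc.inner continuousOn_const))).fun_pow 2)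
    have j3 := (hpc.fun_mul (hci.fun_mul (hxq.fun_pow 2))).integrableOn_compact (μ := volume) hK
    rw [setIntegral_congr_fun hm e1, setIntegral_congr_fun hm e2,
      integral_add ((hpc.fun_mul ((hcc.fun_mul hsv).fun_add (hqcc.norm.fun_pow 2))).integrableOn_compact hK) j3,
      integral_add ((hpc.fun_mul ((hcc.fun_mul (hρc.fun_pow 2)).fun_sub
        ((continuousOn_const.fun_mul hρc).fun_mul hxq))).integrableOn_compact hK) j3] at hE
    exact le_of_add_le_add_right hE
  · have h2 := hsol 2
    rw [hts, hS0, mul_zero, sub_zero] at h2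
    have l1 : ∀ x ∈ K, η x * ⟪u 2 x, qc x⟫ = p x * (chi r x * ⟪-covVec z b P x, qc x⟫) :=
      fun x _ => by simp [hη, hu]; ring
    rw [setIntegral_congr_fun hm l1] at h2
    rw [h2, ← integral_neg]
    refine setIntegral_congr_fun hm fun x hx => ?_
    rw [mul_left_comm, hs x hx]
    simp [hg, hζ, hρ, hp]
    ring
  · have h1 := hsol 1
    rw [hts, hS0, mul_zero, sub_zero] at h1
    have l1 : ∀ x ∈ K, η x * ⟪u 1 x, qc x⟫
        = p x * ⟪v, qc x⟫ + p x * ((chi r x)⁻¹ * ⟪x, v⟫ * ⟪x, qc x⟫) := fun x hx => by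
      simp only [hη, hu, Matrix.cons_val_one, Matrix.cons_val_zero, inner_add_left, inner_smul_left,
        conj_trivial]
      have := (hc0 x hx).ne'
      field_simp
    have l2 : ∀ x ∈ K, η x * (g 1 x * (ρ x + ⟪-(chi r x)⁻¹ • x, qc x⟫))
        = p x * (⟪x, v⟫ * ρ x) - p x * ((chi r x)⁻¹ * ⟪x, v⟫ * ⟪x, qc x⟫) := fun x hx => by
      rw [hav x hx]
      simp only [hη, hg, Matrix.cons_val_one, Matrix.cons_val_zero]
      have := (hc0 x hx).ne'
      field_simp
      ring
    have hxv : ContinuousOn (fun x : Space d => ⟪x, v⟫) K :=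
      (continuous_id.inner continuous_const).continuousOn
    have j1 := (hpc.fun_mul ((continuous_const (y := v)).continuousOn.inner hqcc)).integrableOn_compact (μ := volume) hK
    have j2 := (hpc.fun_mul ((hci.fun_mul hxv).fun_mul hxq)).integrableOn_compact (μ := volume) hK
    have j3 := (hpc.fun_mul (hxv.fun_mul hρc)).integrableOn_compact (μ := volume) hK
    rw [setIntegral_congr_fun hm l1, setIntegral_congr_fun hm l2, integral_add j1 j2,
      integral_sub j3 j2] at h1
    linarith

end Vale.Agent.P074
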