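import Vale.Agent.P074.Defs

/-!
The Wasserstein distance of order one.
-/

open MeasureTheory
open scoped ENNReal

namespace Vale.Agent.P074

/-- The Wasserstein distance of order one: infimum over couplings. -/
noncomputable def W1 {d : ℕ} (μ ν : Measure (Space d)) : ℝ≥0∞ :=
  ⨅ (π : Measure (Space d × Space d)) (_ : π.fst = μ ∧ π.snd = ν),
    ∫⁻ p, ‖p.1 - p.2‖ₑ ∂π

end Vale.Agent.P074
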