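import Vale.Agent.P074.Cell

/-!
The linearised estimate: the velocity of the potential is controlled by the velocities of the sites.
-/

open MeasureTheory Finset Set
open scoped RealInnerProductSpace

namespace Vale.Agent.P074

variable {d : ℕ} {ι : Type*} [Fintype ι] [Nonempty ι] {K : Set (Space d)} {r : ℝ}

/-- The linearised estimate, with the multiplier accounting for the mass constraints. -/
theorem linear_bound (hK : IsCompact K) (hKc : Convex ℝ K) (hKv : 0 < volume K) (hr : 0 < r)
    (hKr : ∀ x ∈ K, ‖x‖ ≤ r) (z : ι → Space d) (b : ι → ℝ) (v : ι → Space d) (bd : ι → ℝ)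
    {f : Space d → ℝ} (hf : ContinuousOn f K) (hf0 : ∫ x in K, f x = 0) {α : ℝ} (hα : 0 < α) :
    ∃ P : ι → ℝ,
      (∫ x in K, svar (score z b x) P = ∑ i, P i * ∫ x in K, wgt z b x i * f x) ∧
      |2 * (∫ x in K, smean (score z b x) (fun i => ⟪x, v i⟫ - bd i) * f x)
          - 2 * ∑ i, P i * ∫ x in K, wgt z b x i
              * ((⟪x, v i⟫ - bd i) - smean (score z b x) fun j => ⟪x, v j⟫ - bd j)|
        ≤ α * ∑ i, (∫ x in K, wgt z b x i) * ‖v i‖ ^ 2 + 6 * r ^ 2 / α * ∫ x in K, f x ^ 2 := by
  classical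
  have hm := hK.measurableSet
  set p : ι → Space d → ℝ := fun i x => wgt z b x i with hp
  have hpc : ∀ i, ContinuousOn (p i) K := fun i => (continuous_wgt i).continuousOn
  have hp0 : ∀ i x, 0 < p i x := fun i x => smax_pos _ _
  have hp1 : ∀ x, ∑ i, p i x = 1 := fun x => sum_smax _
  have int : ∀ {F : Space d → ℝ}, ContinuousOn F K → IntegrableOn F K := fun hF =>
    hF.integrableOn_compact hK
  have hsum : ∀ {F : ι → Space d → ℝ}, (∀ i, ContinuousOn (F i) K) →
      ∑ i, ∫ x in K, F i x = ∫ x in K, ∑ i, F i x := fun hF =>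
    (integral_finsetSum _ fun i _ => int (hF i)).symm
  have hmeanc : ∀ c : ι → ℝ, ContinuousOn (fun x => smean (score z b x) c) K := fun c => by
    show ContinuousOn (fun x => ∑ i, p i x * c i) K
    exact continuousOn_finsetSum _ fun i _ => (hpc i).fun_mul continuousOn_const
  have hsvc : ∀ c : ι → ℝ, ContinuousOn (fun x => svar (score z b x) c) K := fun c => by
    show ContinuousOn (fun x => ∑ i, p i x * (c i - smean (score z b x) c) ^ 2) K
    exact continuousOn_finsetSum _ fun i _ =>
      (hpc i).fun_mul ((continuousOn_const.fun_sub (hmeanc c)).fun_pow 2)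
  set A : ι → ι → ℝ := fun i j => ∫ x in K, p i x * ((if i = j then 1 else 0) - p j x) with hA
  have hrow : ∀ c i, ∑ j, A i j * c j = ∫ x in K, p i x * (c i - smean (score z b x) c) := by
    intro c i
    simp only [hA, mul_comm _ (c _)]
    rw [← setIntegral_sum_mul hK c fun j => (hpc i).fun_mul (continuousOn_const.fun_sub (hpc j))]
    refine setIntegral_congr_fun hm fun x _ => ?_
    simp only [mul_sub, sum_sub_distrib, smean, mul_sum, hp, wgt]
    congr 1
    · simp [mul_comm]
    · exact sum_congr rfl fun j _ => by ring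
  have hquad : ∀ c, ∑ i, c i * ∑ j, A i j * c j = ∫ x in K, svar (score z b x) c := by
    intro c
    simp only [hrow]
    rw [← setIntegral_sum_mul hK c fun i => (hpc i).fun_mul (continuousOn_const.fun_sub (hmeanc c))]
    refine setIntegral_congr_fun hm fun x _ => ?_
    rw [← sum_cov_self]
    exact sum_congr rfl fun i _ => by simp only [hp, wgt]; ring
  obtain ⟨P, hP⟩ := exists_solution A (fun i => ∫ x in K, p i x * f x) fun c h0 => by
    rw [hquad] at h0
    obtain ⟨x₀, hx₀K, hx₀⟩ := hK.exists_isMinOn (nonempty_of_measure_ne_zero hKv.ne') (hsvc c)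
    have h1 := setIntegral_mono_on (f := fun _ => svar (score z b x₀) c)
      (integrableOn_const hK.measure_lt_top.ne) (int (hsvc c)) hm fun x hx => hx₀ hx
    rw [setIntegral_const, smul_eq_mul, h0] at h1
    have hvol : 0 < (volume : Measure (Space d)).real K :=
      ENNReal.toReal_pos hKv.ne' hK.measure_lt_top.ne
    have h2 : svar (score z b x₀) c = 0 := le_antisymm
      (le_of_mul_le_mul_left (by simpa using h1) hvol) (svar_nonneg _ _)
    have h3 : ∀ i, c i = smean (score z b x₀) c := fun i => by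
      have := (sum_eq_zero_iff_of_nonneg fun j _ =>
        mul_nonneg (smax_pos _ j).le (sq_nonneg _)).1 h2 i (mem_univ i)
      rw [mul_eq_zero] at this
      exact sub_eq_zero.1 (pow_eq_zero_iff two_ne_zero |>.1 (this.resolve_left (smax_pos _ i).ne'))
    set m := smean (score z b x₀) c
    calc ∑ i, (∫ x in K, p i x * f x) * c i = ∑ i, m * ∫ x in K, p i x * f x :=
          sum_congr rfl fun i _ => by rw [h3 i, mul_comm]
      _ = m * ∫ x in K, f x := by
          rw [← mul_sum, hsum fun i => (hpc i).fun_mul hf]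
          congr 1
          exact setIntegral_congr_fun hm fun x _ => by rw [← sum_mul, hp1, one_mul]
      _ = 0 := by rw [hf0, mul_zero]
  refine ⟨P, ?_, ?_⟩
  · rw [← hquad]
    exact sum_congr rfl fun i _ => by rw [hP]
  set ζ : ι → Space d → ℝ := fun i x => P i - smean (score z b x) P with hζ
  have hζc : ∀ i, ContinuousOn (ζ i) K := fun i => continuousOn_const.fun_sub (hmeanc P)
  have hmean : ∀ i, ∫ x in K, p i x * (f x - ζ i x) = 0 := by
    intro i
    have h := hP i
    rw [hrow] at h
    simp only [mul_sub]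
    rw [integral_sub (int ((hpc i).fun_mul hf)) (int ((hpc i).fun_mul (hζc i)))]
    exact sub_eq_zero.2 h.symm
  have hcell := fun i => cell_bound hK hKc hKv hr hKr P i (v i) hf (hmean i)
  choose q hqc h1 h2 h3 using hcell
  have hcc : ContinuousOn (chi r : Space d → ℝ) K :=
    (by unfold chi; fun_prop : Continuous (chi r : Space d → ℝ)).continuousOn
  have hxq : ∀ i, ContinuousOn (fun x => ⟪x, q i x⟫) K := fun i => continuousOn_id.inner (hqc i)
  set W : Space d → ℝ := fun x => svar (score z b x) P with hW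
  have hζ0 : ∀ x, ∑ i, p i x * ζ i x = 0 := fun x => by
    simp only [hζ, mul_sub, sum_sub_distrib, ← sum_mul, hp1, one_mul]
    exact sub_self _
  set S := ∑ i, ∫ x in K, p i x * ‖q i x‖ ^ 2 with hS
  set Q := ∑ i, ∫ x in K, p i x * (chi r x * svar (score z b x) (fun j => ⟪q i x, z j⟫)) with hQ
  set Z := ∑ i, ∫ x in K, p i x * (ζ i x * ⟪x, q i x⟫) with hZ
  set F := ∑ i, ∫ x in K, p i x * (f x * ⟪x, q i x⟫) with hF
  have hsq : ∀ i, ContinuousOn (fun x => svar (score z b x) (fun j => ⟪q i x, z j⟫)) K := fun i => by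
    show ContinuousOn (fun x => ∑ j, p j x * (⟪q i x, z j⟫ - ∑ l, p l x * ⟪q i x, z l⟫) ^ 2) K
    exact continuousOn_finsetSum _ fun j _ => (hpc j).fun_mul
      ((((hqc i).inner continuousOn_const).fun_sub (continuousOn_finsetSum _ fun l _ =>
        (hpc l).fun_mul ((hqc i).inner continuousOn_const))).fun_pow 2)
  have hcv : ∀ i, ContinuousOn (fun x => ⟪-covVec z b P x, q i x⟫) K := fun i => by
    refine ContinuousOn.inner (Continuous.continuousOn ?_) (hqc i)
    show Continuous fun x => -∑ j, (wgt z b x j * (P j - ∑ l, wgt z b x l * P l)) • z j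
    fun_prop
  have hcχ : ∀ i, ContinuousOn (fun x => p i x * (chi r x * ((f x - ζ i x) ^ 2))) K := fun i =>
    (hpc i).fun_mul (hcc.fun_mul ((hf.fun_sub (hζc i)).fun_pow 2))
  have hA1 : Q + S ≤ (∫ x in K, chi r x * f x ^ 2) + (∫ x in K, chi r x * W x) - 2 * F + 2 * Z := by
    have hA := sum_le_sum fun i (_ : i ∈ Finset.univ) => h1 i
    have eL : ∀ i, ∫ x in K, p i x * (chi r x * svar (score z b x) (fun j => ⟪q i x, z j⟫)
        + ‖q i x‖ ^ 2) = (∫ x in K, p i x * (chi r x * svar (score z b x) (fun j => ⟪q i x, z j⟫)))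
          + ∫ x in K, p i x * ‖q i x‖ ^ 2 := fun i => by
      simp only [mul_add]
      exact integral_add (int ((hpc i).fun_mul (hcc.fun_mul (hsq i))))
        (int ((hpc i).fun_mul ((hqc i).norm.fun_pow 2)))
    have eR : ∀ i, ∫ x in K, p i x * (chi r x * (f x - ζ i x) ^ 2
        - 2 * (f x - ζ i x) * ⟪x, q i x⟫) = (∫ x in K, p i x * (chi r x * (f x - ζ i x) ^ 2))
          - 2 * (∫ x in K, p i x * (f x * ⟪x, q i x⟫))
          + 2 * ∫ x in K, p i x * (ζ i x * ⟪x, q i x⟫) := fun i => by
      have i1 := int (hcχ i)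
      have i2 := int ((hpc i).fun_mul (hf.fun_mul (hxq i)))
      have i3 := int ((hpc i).fun_mul ((hζc i).fun_mul (hxq i)))
      have j : IntegrableOn (fun x => p i x * (chi r x * (f x - ζ i x) ^ 2)
          - 2 * (p i x * (f x * ⟪x, q i x⟫))) K := i1.sub (i2.const_mul 2)
      rw [← integral_const_mul, ← integral_const_mul, ← integral_sub i1 (i2.const_mul 2),
        ← integral_add j (i3.const_mul 2)]
      exact integral_congr_ae (Filter.Eventually.of_forall fun x => by ring)
    have eW : ∑ i, ∫ x in K, p i x * (chi r x * (f x - ζ i x) ^ 2)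
        = (∫ x in K, chi r x * f x ^ 2) + ∫ x in K, chi r x * W x := by
      rw [hsum hcχ, ← integral_add (int (hcc.fun_mul (hf.fun_pow 2))) (int (hcc.fun_mul (hsvc P)))]
      refine setIntegral_congr_fun hm fun x _ => ?_
      have e : ∀ i, p i x * (chi r x * (f x - ζ i x) ^ 2)
          = chi r x * (p i x * f x ^ 2) - 2 * chi r x * f x * (p i x * ζ i x)
            + chi r x * (p i x * ζ i x ^ 2) := fun i => by ring
      simp only [e, sum_add_distrib, sum_sub_distrib, ← mul_sum, hζ0, mul_zero, sub_zero, ← sum_mul,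
        hp1, one_mul]
      rfl
    refine le_trans (le_of_eq ?_) (hA.trans (le_of_eq ?_))
    · rw [sum_congr rfl fun i _ => eL i, sum_add_distrib]
    · rw [sum_congr rfl fun i _ => eR i, sum_add_distrib, sum_sub_distrib, ← mul_sum, ← mul_sum,
        eW]
  have hA2 : ∑ i, ∫ x in K, p i x * (chi r x * ⟪-covVec z b P x, q i x⟫)
      = Z + ∫ x in K, chi r x * W x := by
    rw [sum_congr rfl fun i _ => h2 i, hZ, hsum fun i => (hpc i).fun_mul ((hζc i).fun_mul (hxq i))]
    rw [hsum fun i => (hpc i).fun_mul (((hζc i).fun_mul (hxq i)).fun_sub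
      ((hcc.fun_mul (hζc i)).fun_mul (hf.fun_sub (hζc i)))),
      ← integral_add (int (continuousOn_finsetSum _ fun i _ => (hpc i).fun_mul ((hζc i).fun_mul (hxq i))))
        (int (hcc.fun_mul (hsvc P)))]
    refine setIntegral_congr_fun hm fun x _ => ?_
    have e : ∀ i, p i x * (ζ i x * ⟪x, q i x⟫ - chi r x * ζ i x * (f x - ζ i x))
        = p i x * (ζ i x * ⟪x, q i x⟫) - chi r x * f x * (p i x * ζ i x)
          + chi r x * (p i x * ζ i x ^ 2) := fun i => by ring
    show ∑ i, p i x * (ζ i x * ⟪x, q i x⟫ - chi r x * ζ i x * (f x - ζ i x)) = _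
    simp only [e, sum_add_distrib, sum_sub_distrib, ← mul_sum, hζ0, mul_zero, sub_zero]
    rfl
  have hA3 : 2 * (∑ i, ∫ x in K, p i x * (chi r x * ⟪-covVec z b P x, q i x⟫))
      ≤ Q + ∫ x in K, chi r x * W x := by
    rw [hQ, hsum fun i => (hpc i).fun_mul (hcc.fun_mul (hcv i)),
      hsum fun i => (hpc i).fun_mul (hcc.fun_mul (hsq i)), ← integral_const_mul,
      ← integral_add (int (continuousOn_finsetSum _ fun i _ => (hpc i).fun_mul (hcc.fun_mul (hsq i))))
        (int (hcc.fun_mul (hsvc P)))]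
    refine setIntegral_mono_on (int (continuousOn_const.fun_mul (continuousOn_finsetSum _ fun i _ =>
        (hpc i).fun_mul (hcc.fun_mul (hcv i)))))
      (int ((continuousOn_finsetSum _ fun i _ => (hpc i).fun_mul (hcc.fun_mul (hsq i))).fun_add
        (hcc.fun_mul (hsvc P)))) hm fun x hx => ?_
    have hχ := (chi_pos hr (hKr x hx)).le
    have key : ∀ i, 2 * ⟪-covVec z b P x, q i x⟫
        ≤ svar (score z b x) (fun j => ⟪q i x, z j⟫) + W x := fun i => by
      have e : ⟪covVec z b P x, q i x⟫ = ∑ j, p j x * (P j - smean (score z b x) P)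
          * (⟪q i x, z j⟫ - smean (score z b x) fun l => ⟪q i x, z l⟫) := by
        rw [inner_covVec]
        exact sum_smax_sub_mul (score z b x) P fun j => ⟪q i x, z j⟫
      rw [inner_neg_left, e]
      simp only [hW, svar]
      rw [← sum_add_distrib, mul_neg, ← neg_mul, mul_sum]
      refine sum_le_sum fun j _ => ?_
      have := mul_nonneg (hp0 j x).le (sq_nonneg ((P j - smean (score z b x) P)
        + (⟪q i x, z j⟫ - smean (score z b x) fun l => ⟪q i x, z l⟫)))
      simp only [hp, wgt] at this ⊢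
      linarith
    calc 2 * ∑ i, p i x * (chi r x * ⟪-covVec z b P x, q i x⟫)
        = ∑ i, p i x * chi r x * (2 * ⟪-covVec z b P x, q i x⟫) := by
          rw [mul_sum]; exact sum_congr rfl fun i _ => by ring
      _ ≤ ∑ i, p i x * chi r x * (svar (score z b x) (fun j => ⟪q i x, z j⟫) + W x) :=
          sum_le_sum fun i _ => mul_le_mul_of_nonneg_left (key i) (mul_nonneg (hp0 i x).le hχ)
      _ = _ := by
          simp only [mul_add, sum_add_distrib, mul_assoc]
          rw [← Finset.sum_mul, hp1, one_mul]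
  have hA4 : -2 * F ≤ 2 * r ^ 2 * (∫ x in K, f x ^ 2) + S / 2 := by
    rw [hF, hS, hsum fun i => (hpc i).fun_mul (hf.fun_mul (hxq i)),
      hsum fun i => (hpc i).fun_mul ((hqc i).norm.fun_pow 2), ← integral_const_mul,
      ← integral_const_mul, ← integral_div, ← integral_add (int (continuousOn_const.fun_mul (hf.fun_pow 2)))
        ((int (continuousOn_finsetSum _ fun i _ => (hpc i).fun_mul ((hqc i).norm.fun_pow 2))).div_const 2)]
    refine setIntegral_mono_on
      (int (continuousOn_const.fun_mul (continuousOn_finsetSum _ fun i _ => (hpc i).fun_mul (hf.fun_mul (hxq i)))))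
      ((int (continuousOn_const.fun_mul (hf.fun_pow 2))).add
        ((int (continuousOn_finsetSum _ fun i _ => (hpc i).fun_mul ((hqc i).norm.fun_pow 2))).div_const 2))
      hm fun x hx => ?_
    have key : ∀ i, -2 * (f x * ⟪x, q i x⟫) ≤ 2 * r ^ 2 * f x ^ 2 + ‖q i x‖ ^ 2 / 2 := fun i => by
      have h' : |⟪x, q i x⟫| ≤ r * ‖q i x‖ := (abs_real_inner_le_norm _ _).trans
        (mul_le_mul_of_nonneg_right (hKr x hx) (norm_nonneg _))
      have h'' := mul_le_mul_of_nonneg_left h' (abs_nonneg (f x))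
      rw [← abs_mul] at h''
      nlinarith [neg_abs_le (f x * ⟪x, q i x⟫), sq_nonneg (2 * r * |f x| - ‖q i x‖), sq_abs (f x)]
    calc -2 * ∑ i, p i x * (f x * ⟪x, q i x⟫) = ∑ i, p i x * (-2 * (f x * ⟪x, q i x⟫)) := by
          rw [mul_sum]; exact sum_congr rfl fun i _ => by ring
      _ ≤ ∑ i, p i x * (2 * r ^ 2 * f x ^ 2 + ‖q i x‖ ^ 2 / 2) :=
          sum_le_sum fun i _ => mul_le_mul_of_nonneg_left (key i) (hp0 i x).le
      _ = _ := by
          simp only [mul_add, sum_add_distrib, ← sum_mul, hp1, one_mul, mul_div_assoc', ← sum_div]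
  have hA5 : ∫ x in K, chi r x * f x ^ 2 ≤ r ^ 2 * ∫ x in K, f x ^ 2 := by
    rw [← integral_const_mul]
    exact setIntegral_mono_on (int (hcc.fun_mul (hf.fun_pow 2)))
      ((int (hf.fun_pow 2)).const_mul _) hm fun x _ =>
        mul_le_mul_of_nonneg_right (chi_le x) (sq_nonneg _)
  have hSb : S ≤ 6 * r ^ 2 * ∫ x in K, f x ^ 2 := by linarith
  have hvc : ∀ i, ContinuousOn (fun x : Space d => ⟪x, v i⟫) K := fun i =>
    (continuous_id.inner continuous_const).continuousOn
  set T := ∑ i, ∫ x in K, p i x * ⟪v i, q i x⟫ with hT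
  have hlhs : (∫ x in K, smean (score z b x) (fun i => ⟪x, v i⟫ - bd i) * f x)
      - ∑ i, P i * (∫ x in K, wgt z b x i
        * ((⟪x, v i⟫ - bd i) - smean (score z b x) fun j => ⟪x, v j⟫ - bd j)) = -T := by
    have hξc : ∀ i, ContinuousOn (fun x : Space d => ⟪x, v i⟫ - bd i) K := fun i =>
      (hvc i).fun_sub continuousOn_const
    have huc : ContinuousOn (fun x => smean (score z b x) fun i => ⟪x, v i⟫ - bd i) K :=
      continuousOn_finsetSum _ fun i _ => (hpc i).fun_mul (hξc i)
    rw [← setIntegral_sum_mul hK P fun i => (hpc i).fun_mul ((hξc i).fun_sub huc),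
      ← integral_sub (int (huc.fun_mul hf)) (int (continuousOn_finsetSum _ fun i _ =>
        continuousOn_const.fun_mul ((hpc i).fun_mul ((hξc i).fun_sub huc))))]
    have e : ∀ i, ∫ x in K, p i x * ⟪v i, q i x⟫
        = -∫ x in K, p i x * ((⟪x, v i⟫ - bd i) * (f x - ζ i x)) := fun i => by
      refine (h3 i).trans (congrArg Neg.neg ?_)
      have i1 := int ((hpc i).fun_mul ((hξc i).fun_mul (hf.fun_sub (hζc i))))
      have i2 := (int ((hpc i).fun_mul (hf.fun_sub (hζc i)))).const_mul (bd i)
      calc ∫ x in K, p i x * (⟪x, v i⟫ * (f x - ζ i x))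
          = ∫ x in K, (p i x * ((⟪x, v i⟫ - bd i) * (f x - ζ i x))
              + bd i * (p i x * (f x - ζ i x))) :=
            integral_congr_ae (Filter.Eventually.of_forall fun x => by ring)
        _ = _ := by rw [integral_add i1 i2, integral_const_mul, hmean, mul_zero, add_zero]
    rw [hT, sum_congr rfl fun i _ => e i, sum_neg_distrib, neg_neg,
      hsum fun i => (hpc i).fun_mul ((hξc i).fun_mul (hf.fun_sub (hζc i)))]
    refine setIntegral_congr_fun hm fun x _ => ?_
    set m := smean (score z b x) fun i => ⟪x, v i⟫ - bd i with hmdef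
    have e1 : ∀ i, p i x * ((⟪x, v i⟫ - bd i) * (f x - ζ i x))
        = p i x * (⟪x, v i⟫ - bd i) * f x - P i * (p i x * ((⟪x, v i⟫ - bd i) - m))
          - m * (p i x * P i) + smean (score z b x) P * (p i x * (⟪x, v i⟫ - bd i)) := fun i => by
      simp only [hζ]; ring
    simp only [e1, sum_add_distrib, sum_sub_distrib, ← sum_mul, ← mul_sum]
    rw [show ∑ i, p i x * (⟪x, v i⟫ - bd i) = m from rfl,
      show ∑ i, p i x * P i = smean (score z b x) P from rfl]
    simp only [hp]
    ring
  rw [← mul_sub, hlhs, mul_neg, abs_neg, abs_mul, abs_two]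
  have hT2 : 2 * |T| ≤ α * (∑ i, (∫ x in K, p i x) * ‖v i‖ ^ 2) + S / α := by
    rw [hT, hS, sum_div, mul_sum, ← sum_add_distrib]
    refine (mul_le_mul_of_nonneg_left (abs_sum_le_sum_abs _ _) zero_le_two).trans ?_
    rw [mul_sum]
    refine sum_le_sum fun i _ => ?_
    rw [← Real.norm_eq_abs]
    refine (mul_le_mul_of_nonneg_left (norm_integral_le_integral_norm _) zero_le_two).trans ?_
    rw [← integral_const_mul, mul_comm (∫ x in K, p i x), ← integral_const_mul, ← integral_const_mul,
      ← integral_div, ← integral_add (((int (hpc i)).const_mul _).const_mul _)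
        ((int ((hpc i).fun_mul ((hqc i).norm.fun_pow 2))).div_const α)]
    refine setIntegral_mono_on
      (((int ((hpc i).fun_mul (continuousOn_const.inner (hqc i)))).norm).const_mul 2)
      ((((int (hpc i)).const_mul _).const_mul _).add
        ((int ((hpc i).fun_mul ((hqc i).norm.fun_pow 2))).div_const α)) hm fun x _ => ?_
    rw [Real.norm_eq_abs, abs_mul, abs_of_pos (hp0 i x)]
    have h' := abs_real_inner_le_norm (v i) (q i x)
    have h'' : 2 * (‖v i‖ * ‖q i x‖) ≤ α * ‖v i‖ ^ 2 + ‖q i x‖ ^ 2 / α := by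
      rw [← sub_nonneg]
      have : α * ‖v i‖ ^ 2 + ‖q i x‖ ^ 2 / α - 2 * (‖v i‖ * ‖q i x‖)
          = (α * ‖v i‖ - ‖q i x‖) ^ 2 / α := by field_simp; ring
      rw [this]; positivity
    have := mul_le_mul_of_nonneg_left (h''.trans' (mul_le_mul_of_nonneg_left h' zero_le_two)) (hp0 i x).le
    refine le_trans (le_of_eq (by ring)) (this.trans (le_of_eq (by ring)))
  refine hT2.trans (add_le_add le_rfl ?_)
  rw [div_mul_eq_mul_div]
  exact div_le_div_of_nonneg_right hSb hα.le

end Vale.Agent.P074
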