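import Vale.Agent.P074.Slab
import Vale.Agent.P074.DefsW1
import Mathlib.Analysis.SpecialFunctions.Pow.Continuity

/-!
No exponent above one third is admissible, and none above one quarter for the distance of order one.
-/

open MeasureTheory Filter Topology
open scoped ENNReal NNReal

namespace Vale.Agent.P074

variable {d : ℕ}

theorem exists_small_rpow {β : ℝ} (hβ : 0 < β) (C : ℝ) :
    ∃ m : ℝ, 0 < m ∧ m ≤ 1 / 4 ∧ C * m ^ β < (1 / 16 : ℝ) ^ (1 / 2 : ℝ) := by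
  have ht : Tendsto (fun m : ℝ => C * m ^ β) (𝓝[>] 0) (𝓝 0) := by
    have h := ((Real.continuousAt_rpow_const (0 : ℝ) _ (Or.inr hβ.le)).tendsto.mono_left
      (nhdsWithin_le_nhds (s := Set.Ioi 0))).const_mul C
    simpa [Real.zero_rpow hβ.ne'] using h
  have h16 : (0 : ℝ) < (1 / 16 : ℝ) ^ (1 / 2 : ℝ) := by positivity
  obtain ⟨m, hm, ⟨hm0, hm4⟩⟩ := ((ht.eventually (eventually_lt_nhds h16)).and
    (Ioc_mem_nhdsGT (show (0 : ℝ) < 1 / 4 by norm_num))).exists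
  exact ⟨m, hm0, hm4, hm⟩

theorem no_power_bound {C : ℝ≥0} {m a c β : ℝ} (hm : 0 < m) (ha : 0 ≤ a) (hc : 0 ≤ c)
    (hsmall : C * (a * m ^ β) < (1 / 16 : ℝ) ^ (1 / 2 : ℝ)) (hβ : c = a * m ^ (β + 1 / 2)) {N : ℝ≥0∞}
    (hlo : ENNReal.ofReal ((m / 16) ^ (1 / 2 : ℝ)) ≤ N) (hhi : N ≤ C * ENNReal.ofReal c) : False := by
  have h := hlo.trans hhi
  rw [← ENNReal.ofReal_coe_nnreal, ← ENNReal.ofReal_mul C.coe_nonneg,
    ENNReal.ofReal_le_ofReal_iff (mul_nonneg C.coe_nonneg hc), hβ, Real.rpow_add hm,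
    div_eq_mul_one_div, mul_comm m (1 / 16), Real.mul_rpow (by norm_num) hm.le] at h
  have hs : 0 < m ^ (1 / 2 : ℝ) := Real.rpow_pos_of_pos hm _
  nlinarith [mul_lt_mul_of_pos_right hsmall hs]

theorem not_admissible (n : ℕ) {α : ℝ} (hα : 1 / 3 < α) : ¬ Admissible (n + 2) α := by
  intro h
  obtain ⟨C, hC⟩ := h (cube (n + 2)) (isCompact_cube _) (convex_cube _) (interior_cube_nonempty _)
    (Metric.closedBall 0 1) (isCompact_closedBall _ _)
  obtain ⟨m, hm0, hm4, hlt⟩ := exists_small_rpow (β := (3 * α - 1) / 2) (by linarith)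
    ((C : ℝ) * (2 : ℝ) ^ (α / 2))
  obtain ⟨μ, ν, T, S, hμ, hν, hμY, hνY, hT, hS, hW, -, hL⟩ := exists_pair (n := n) hm0 hm4
  refine no_power_bound (C := C) (a := (2 : ℝ) ^ (α / 2)) (β := (3 * α - 1) / 2)
    (c := ((2 * m ^ 3) ^ (1 / 2 : ℝ)) ^ α) hm0 (by positivity) (by positivity)
    (by rwa [← mul_assoc]) ?_ hL ((hC μ ν hμ hν hμY hνY T S hT hS).trans ?_)
  · rw [← Real.rpow_mul (by positivity), Real.mul_rpow (by norm_num) (by positivity),
      ← Real.rpow_natCast m 3, ← Real.rpow_mul hm0.le]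
    congr 1 <;> [ring_nf; (push_cast; ring_nf)]
  · rw [← ENNReal.ofReal_rpow_of_nonneg (by positivity) (by linarith : (0 : ℝ) ≤ α)]
    exact mul_le_mul_right (ENNReal.rpow_le_rpow hW (by linarith)) _

theorem not_W1_bound (n : ℕ) {β : ℝ} (hβ : 1 / 4 < β) :
    ∃ K : Set (Space (n + 2)), IsCompact K ∧ Convex ℝ K ∧ (interior K).Nonempty ∧
      ∃ Y : Set (Space (n + 2)), IsCompact Y ∧ ∀ C : ℝ≥0,
        ∃ μ ν : Measure (Space (n + 2)), IsProbabilityMeasure μ ∧ IsProbabilityMeasure ν ∧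
          μ Yᶜ = 0 ∧ ν Yᶜ = 0 ∧ ∃ T S : Space (n + 2) → Space (n + 2),
            IsOptimalMap (uniform K) μ T ∧ IsOptimalMap (uniform K) ν S ∧
              C * W1 μ ν ^ β < eLpNorm (fun x => T x - S x) 2 (uniform K) := by
  refine ⟨cube (n + 2), isCompact_cube _, convex_cube _, interior_cube_nonempty _,
    Metric.closedBall 0 1, isCompact_closedBall _ _, fun C => ?_⟩
  obtain ⟨m, hm0, hm4, hlt⟩ := exists_small_rpow (β := (4 * β - 1) / 2) (by linarith)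
    ((C : ℝ) * (2 : ℝ) ^ β)
  obtain ⟨μ, ν, T, S, hμ, hν, hμY, hνY, hT, hS, -, hW, hL⟩ := exists_pair (n := n) hm0 hm4
  refine ⟨μ, ν, hμ, hν, hμY, hνY, T, S, hT, hS, lt_of_not_ge fun hle => ?_⟩
  refine no_power_bound (C := C) (a := (2 : ℝ) ^ β) (β := (4 * β - 1) / 2)
    (c := (2 * m ^ 2) ^ β) hm0 (by positivity) (by positivity)
    (by rwa [← mul_assoc]) ?_ hL (hle.trans ?_)
  · rw [Real.mul_rpow (by norm_num) (by positivity), ← Real.rpow_natCast m 2,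
      ← Real.rpow_mul hm0.le]
    congr 1
    push_cast; ring_nf
  · rw [← ENNReal.ofReal_rpow_of_nonneg (by positivity) (by linarith : (0 : ℝ) ≤ β)]
    exact mul_le_mul_right (ENNReal.rpow_le_rpow hW (by linarith)) _

end Vale.Agent.P074
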