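import Vale.Agent.P074.Potential
import Mathlib.MeasureTheory.Integral.Bochner.Basic

/-!
Optimal maps are best rearrangements.
-/

open MeasureTheory Finset Filter Topology Metric
open scoped ENNReal NNReal RealInnerProductSpace

namespace Vale.Agent.P074

variable {d : ℕ} {K : Set (Space d)}

theorem volume_pos_of_interior (h : (interior K).Nonempty) : volume K ≠ 0 := fun h0 =>
  (isOpen_interior.measure_pos volume h).ne' (measure_mono_null interior_subset h0)

theorem isProbabilityMeasure_uniform (hK : IsCompact K) (h : (interior K).Nonempty) :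
    IsProbabilityMeasure (uniform K) :=
  ⟨by rw [uniform, Measure.smul_apply, Measure.restrict_apply_univ, smul_eq_mul,
    ENNReal.inv_mul_cancel (volume_pos_of_interior h) hK.measure_lt_top.ne]⟩

theorem uniform_absolutelyContinuous (K : Set (Space d)) :
    uniform K ≪ volume.restrict K := Measure.AbsolutelyContinuous.rfl.smul_left _

theorem integral_uniform (K : Set (Space d)) (f : Space d → ℝ) :
    ∫ x, f x ∂uniform K = (volume K).toReal⁻¹ * ∫ x in K, f x := by
  rw [uniform, integral_smul_measure, smul_eq_mul, ENNReal.toReal_inv]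

theorem restrict_absolutelyContinuous_uniform (hK : IsCompact K) :
    volume.restrict K ≪ uniform K := by
  intro s hs
  rw [uniform, Measure.smul_apply, smul_eq_mul, mul_eq_zero] at hs
  exact hs.resolve_left (ENNReal.inv_ne_zero.2 hK.measure_lt_top.ne)

/-- An optimal map agrees almost everywhere with a bounded best rearrangement. -/
theorem IsOptimalMap.exists_best (hK : IsCompact K) (hne : (interior K).Nonempty)
    {μ : Measure (Space d)} {T : Space d → Space d} (hT : IsOptimalMap (uniform K) μ T) {R : ℝ}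
    (hR : 0 ≤ R) (hμ : μ (closedBall 0 R)ᶜ = 0) :
    ∃ T₀ : Space d → Space d, Measurable T₀ ∧ (∀ x, ‖T₀ x‖ ≤ R) ∧
      IsBestRearrangement K T₀ ∧ T =ᵐ[uniform K] T₀ ∧ (uniform K).map T₀ = μ := by
  classical
  obtain ⟨hTm, hmap, hmin⟩ := hT
  set T₀ : Space d → Space d := fun x => if ‖T x‖ ≤ R then T x else 0 with hT₀
  have hm₀ : Measurable T₀ :=
    Measurable.ite (measurableSet_le hTm.norm measurable_const) hTm measurable_const
  have hb : ∀ x, ‖T₀ x‖ ≤ R := fun x => by
    simp only [hT₀]; split_ifs with h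
    · exact h
    · simpa using hR
  have hae : T =ᵐ[uniform K] T₀ := by
    rw [← hmap, Measure.map_apply hTm measurableSet_closedBall.compl] at hμ
    filter_upwards [measure_eq_zero_iff_ae_notMem.1 hμ] with x hx
    simp only [Set.mem_preimage, Set.mem_compl_iff, mem_closedBall_zero_iff, not_not] at hx
    simp [hT₀, hx]
  have hmap₀ : (uniform K).map T₀ = μ := by rw [← hmap]; exact (Measure.map_congr hae).symm
  refine ⟨T₀, hm₀, hb, fun P hP => ?_, hae, hmap₀⟩
  set c := (volume K)⁻¹ with hc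
  have hc0 : c ≠ 0 := ENNReal.inv_ne_zero.2 hK.measure_lt_top.ne
  have hctop : c ≠ ⊤ := ENNReal.inv_ne_top.2 (volume_pos_of_interior hne)
  have hPu : MeasurePreserving P (uniform K) (uniform K) :=
    ⟨hP.measurable, by rw [uniform, Measure.map_smul, hP.map_eq]⟩
  have h := hmin (fun x => T₀ (P x)) (hm₀.comp hP.measurable)
    (by rw [show (fun x => T₀ (P x)) = T₀ ∘ P from rfl, ← Measure.map_map hm₀ hP.measurable,
      hPu.map_eq, hmap₀])
  rw [lintegral_congr_ae (g := fun x => ‖x - T₀ x‖ₑ ^ 2) (hae.mono fun x hx => by simp only [hx]),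
    uniform, lintegral_smul_measure, lintegral_smul_measure, smul_eq_mul, smul_eq_mul,
    ENNReal.mul_le_mul_iff_right hc0 hctop] at h
  obtain ⟨b, hKb⟩ := hK.isBounded.exists_norm_le
  have hfin : IsFiniteMeasure (volume.restrict K) :=
    ⟨by rw [Measure.restrict_apply_univ]; exact hK.measure_lt_top⟩
  have hsqi : ∀ F : Space d → Space d, Measurable F → (∀ x, ‖F x‖ ≤ R) →
      Integrable (fun x => ‖F x‖ ^ 2) (volume.restrict K) := fun F hF hFb =>
    Integrable.of_bound (hF.norm.pow_const 2).aestronglyMeasurable (R ^ 2)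
      (Eventually.of_forall fun x => by
        rw [Real.norm_eq_abs, abs_of_nonneg (sq_nonneg _)]
        exact pow_le_pow_left₀ (norm_nonneg _) (hFb x) 2)
  have hidi : Integrable (fun x : Space d => ‖x‖ ^ 2) (volume.restrict K) :=
    (continuous_norm.pow 2).continuousOn.integrableOn_compact hK
  have hconv : ∀ F : Space d → Space d, Measurable F → (∀ x, ‖F x‖ ≤ R) →
      ∫⁻ x in K, ‖x - F x‖ₑ ^ 2 = ENNReal.ofReal ((∫ x in K, ‖x‖ ^ 2)
        - 2 * (∫ x in K, ⟪x, F x⟫) + ∫ x in K, ‖F x‖ ^ 2) := by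
    intro F hF hFb
    have hi : Integrable (fun x => ⟪x, F x⟫) (volume.restrict K) := integrableOn_inner hK hF hFb
    have e : ∀ x : Space d, ‖x - F x‖ ^ 2 = ‖x‖ ^ 2 - 2 * ⟪x, F x⟫ + ‖F x‖ ^ 2 :=
      fun x => norm_sub_sq_real x (F x)
    have hint : Integrable (fun x => ‖x - F x‖ ^ 2) (volume.restrict K) := by
      simp only [e]
      exact (hidi.sub (hi.const_mul 2)).add (hsqi F hF hFb)
    rw [← integral_const_mul, ← integral_sub hidi (hi.const_mul 2),
      ← integral_add (f := fun x => ‖x‖ ^ 2 - 2 * ⟪x, F x⟫) (hidi.sub (hi.const_mul 2))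
        (hsqi F hF hFb)]
    simp only [← e]
    rw [ofReal_integral_eq_lintegral_ofReal hint (Eventually.of_forall fun x => sq_nonneg _)]
    refine lintegral_congr fun x => ?_
    rw [← ofReal_norm, ENNReal.ofReal_pow (norm_nonneg _)]
  have hsq : ∫ x in K, ‖T₀ (P x)‖ ^ 2 = ∫ x in K, ‖T₀ x‖ ^ 2 := by
    conv_rhs => rw [← hP.map_eq]
    rw [integral_map hP.measurable.aemeasurable (hm₀.norm.pow_const 2).aestronglyMeasurable]
  have hnn : 0 ≤ (∫ x in K, ‖x‖ ^ 2) - 2 * (∫ x in K, ⟪x, T₀ (P x)⟫)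
      + ∫ x in K, ‖T₀ (P x)‖ ^ 2 := by
    have hi : Integrable (fun x => ⟪x, T₀ (P x)⟫) (volume.restrict K) :=
      integrableOn_inner hK (T := fun x => T₀ (P x)) (hm₀.comp hP.measurable) (R := R) fun z => hb _
    rw [← integral_const_mul, ← integral_sub hidi (hi.const_mul 2),
      ← integral_add (f := fun x => ‖x‖ ^ 2 - 2 * ⟪x, T₀ (P x)⟫) (hidi.sub (hi.const_mul 2))
        (hsqi (fun x => T₀ (P x)) (hm₀.comp hP.measurable) fun x => hb _)]
    exact integral_nonneg fun x => by
      show 0 ≤ ‖x‖ ^ 2 - 2 * ⟪x, T₀ (P x)⟫ + ‖T₀ (P x)‖ ^ 2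
      rw [← norm_sub_sq_real]; exact sq_nonneg _
  rw [hconv T₀ hm₀ hb, hconv (fun x => T₀ (P x)) (hm₀.comp hP.measurable) fun x => hb _,
    ENNReal.ofReal_le_ofReal_iff hnn, hsq] at h
  linarith

end Vale.Agent.P074
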