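import Vale.Agent.P074.Linear
import Mathlib.Analysis.Normed.Group.Bounded

/-!
The potentials of the entropic problem are Lipschitz in the sites.
-/

open MeasureTheory Finset Set
open scoped RealInnerProductSpace

namespace Vale.Agent.P074

variable {d : ℕ} {ι : Type*} [Fintype ι] [Nonempty ι] {K : Set (Space d)} {r : ℝ}

/-- The mass of a cell. -/
noncomputable def cellMass (K : Set (Space d)) (z : ι → Space d) (b : ι → ℝ) (i : ι) : ℝ :=
  ∫ x in K, wgt z b x i

/-- The potential of the entropic problem. -/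
noncomputable def pot (z : ι → Space d) (b : ι → ℝ) (x : Space d) : ℝ := lsum (score z b x)

@[fun_prop]
theorem continuous_pot (z : ι → Space d) (b : ι → ℝ) : Continuous (pot z b) := by
  unfold pot lsum score
  exact Continuous.log (by fun_prop) fun x => (sumExp_pos _).ne'

theorem lsum_sub_const (a : ι → ℝ) (t : ℝ) : lsum (fun i => a i - t) = lsum a - t := by
  simp only [lsum, Real.exp_sub, ← sum_div]
  rw [Real.log_div (sumExp_pos a).ne' (Real.exp_pos t).ne', Real.log_exp]

theorem le_lsum (a : ι → ℝ) (i : ι) : a i ≤ lsum a := by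
  rw [lsum, Real.le_log_iff_exp_le (sumExp_pos a)]
  exact single_le_sum (fun j _ => (Real.exp_pos (a j)).le) (Finset.mem_univ i)

theorem lsum_le {a : ι → ℝ} {M : ℝ} (h : ∀ i, a i ≤ M) :
    lsum a ≤ Real.log (Fintype.card ι) + M := by
  have hN : (0 : ℝ) < Fintype.card ι := Nat.cast_pos.2 Fintype.card_pos
  rw [← Real.log_exp M, ← Real.log_mul hN.ne' (Real.exp_pos _).ne', lsum]
  refine Real.log_le_log (sumExp_pos a) ((sum_le_sum fun i _ => Real.exp_le_exp.2 (h i)).trans ?_)
  simp

theorem smax_lip (a ξ : ι → ℝ) {M : ℝ} (hξ : ∀ i, |ξ i| ≤ M) (k : ι) :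
    |smax (fun i => a i + ξ i) k - smax a k| ≤ 2 * M := by
  set b : ℝ → ι → ℝ := fun t i => a i + t * ξ i with hb
  have hd : ∀ t i, HasDerivAt (fun t => b t i) (ξ i) t := fun t i => by
    simpa [hb] using ((hasDerivAt_id t).mul_const (ξ i)).const_add (a i)
  have e0 : b 0 = a := funext fun i => by simp [hb]
  have e1 : b 1 = fun i => a i + ξ i := funext fun i => by simp [hb]
  obtain ⟨σ, hσ, hσ'⟩ := exists_hasDerivAt_eq_slope (fun t => smax (b t) k) _ zero_lt_one
    (fun t _ => (hasDerivAt_smax (hd t) k).continuousAt.continuousWithinAt)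
    fun t _ => hasDerivAt_smax (hd t) k
  simp only [e0, e1, sub_zero, div_one] at hσ'
  rw [← hσ', abs_mul, abs_of_pos (smax_pos _ k)]
  calc _ ≤ 1 * |ξ k - smean (b σ) ξ| :=
        mul_le_mul_of_nonneg_right (smax_le_one _ _) (abs_nonneg _)
    _ ≤ 2 * M := by
        rw [one_mul]; linarith [abs_sub (ξ k) (smean (b σ) ξ), hξ k, abs_smean_le (b σ) hξ]

theorem abs_score_le (hKr : ∀ x ∈ K, ‖x‖ ≤ r) {z : ι → Space d} {b : ι → ℝ} {Rz B : ℝ}
    (hz : ∀ i, ‖z i‖ ≤ Rz) (hb : ∀ i, |b i| ≤ B) {x : Space d} (hx : x ∈ K) (i : ι) :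
    |score z b x i| ≤ r * Rz + B :=
  (abs_sub _ _).trans (add_le_add ((abs_real_inner_le_norm _ _).trans
    (mul_le_mul (hKr x hx) (hz i) (norm_nonneg _) ((norm_nonneg x).trans (hKr x hx)))) (hb i))

/-- Weights with prescribed masses exist, with an explicit bound. -/
theorem exists_weights (hK : IsCompact K) (hKv : 0 < volume K) (hKr : ∀ x ∈ K, ‖x‖ ≤ r)
    (k₀ : ι) {m : ι → ℝ} {c : ℝ} (hc : 0 < c) (hm : ∀ i, c ≤ m i)
    (hsum : ∑ i, m i = (volume K).toReal) {z : ι → Space d} {Rz : ℝ} (hz : ∀ i, ‖z i‖ ≤ Rz) :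
    ∃ b : ι → ℝ, b k₀ = 0 ∧ (∀ i, cellMass K z b i = m i) ∧
      ∀ i, |b i| ≤ (volume K).toReal * (Real.log (Fintype.card ι) + 2 * (r * Rz)) / c := by
  classical
  set V := (volume K).toReal with hV
  have hV0 : 0 < V := ENNReal.toReal_pos hKv.ne' hK.measure_lt_top.ne
  have hVr : (volume : Measure (Space d)).real K = V := rfl
  set B := V * (Real.log (Fintype.card ι) + 2 * (r * Rz)) / c with hB
  obtain ⟨x₀, hx₀⟩ := nonempty_of_measure_ne_zero hKv.ne'
  have hrz : 0 ≤ r * Rz :=
    mul_nonneg ((norm_nonneg x₀).trans (hKr x₀ hx₀)) ((norm_nonneg _).trans (hz k₀))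
  have hint : ∀ b, IntegrableOn (pot z b) K := fun b =>
    (continuous_pot z b).continuousOn.integrableOn_compact hK
  set J : (ι → ℝ) → ℝ := fun b => (∫ x in K, pot z b x) + ∑ i, m i * b i with hJ
  have hshift : ∀ (b : ι → ℝ) t, J (fun i => b i + t) = J b := by
    intro b t
    have : ∀ x, pot z (fun i => b i + t) x = pot z b x - t := fun x => by
      simp only [pot]; rw [← lsum_sub_const]; congr 1; funext i; simp only [score]; ring
    simp only [hJ, this, mul_add, sum_add_distrib, ← sum_mul, hsum]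
    rw [integral_sub (hint b) (integrableOn_const hK.measure_lt_top.ne), setIntegral_const, smul_eq_mul,
      hVr]
    ring
  have hlow : ∀ b, b k₀ = 0 → J b ≤ J 0 → ∀ i, |b i| ≤ B := by
    intro b hb0 hle
    obtain ⟨i₀, -, hi₀⟩ := exists_min_image univ b univ_nonempty
    have h0 : ∫ x in K, pot z 0 x ≤ V * (Real.log (Fintype.card ι) + r * Rz) := by
      refine (setIntegral_mono_on (hint 0) (integrableOn_const hK.measure_lt_top.ne) hK.measurableSet
        fun x hx => lsum_le (M := r * Rz) fun i => ?_).trans (le_of_eq (by rw [setIntegral_const, smul_eq_mul, hVr]))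
      simpa using (le_abs_self _).trans
        (abs_score_le (b := 0) (B := 0) hKr hz (fun _ => by simp) hx i)
    have h1 : V * (-(r * Rz) - b i₀) ≤ ∫ x in K, pot z b x := by
      refine (le_of_eq (by rw [setIntegral_const, smul_eq_mul, hVr])).trans
        (setIntegral_mono_on (integrableOn_const hK.measure_lt_top.ne) (hint b) hK.measurableSet
          fun x hx => le_trans ?_ (le_lsum _ i₀))
      have := (abs_le.1 ((abs_real_inner_le_norm x (z i₀)).trans
        (mul_le_mul (hKr x hx) (hz i₀) (norm_nonneg _) ((norm_nonneg x).trans (hKr x hx))))).1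
      simp only [score]; linarith
    have h2 : ∑ i, m i * (b i - b i₀) ≤ V * (Real.log (Fintype.card ι) + 2 * (r * Rz)) := by
      simp only [hJ, Pi.zero_apply, mul_zero, sum_const_zero, add_zero] at hle
      simp only [mul_sub, sum_sub_distrib, ← sum_mul, hsum]
      linarith
    have h3 : ∀ i, b i - b i₀ ≤ B := fun i => by
      have hn : 0 ≤ b i - b i₀ := sub_nonneg.2 (hi₀ i (Finset.mem_univ i))
      rw [hB, le_div_iff₀ hc, mul_comm]
      refine le_trans (le_trans (mul_le_mul_of_nonneg_right (hm i) hn) ?_) h2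
      exact single_le_sum (f := fun j => m j * (b j - b i₀))
        (fun j _ => mul_nonneg (hc.le.trans (hm j)) (sub_nonneg.2 (hi₀ j (Finset.mem_univ j))))
        (Finset.mem_univ i)
    intro i
    have := h3 k₀
    have := h3 i
    have := hi₀ i (Finset.mem_univ i)
    have := hi₀ k₀ (Finset.mem_univ k₀)
    rw [abs_le]; constructor <;> linarith
  have hB0 : 0 ≤ B := by
    have := Real.log_nonneg (show (1 : ℝ) ≤ Fintype.card ι by exact_mod_cast Fintype.card_pos)
    rw [hB]; positivity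
  set Bx : Set (ι → ℝ) := {b | b k₀ = 0 ∧ ∀ i, |b i| ≤ B}
  have hBx : IsCompact Bx := by
    refine (isCompact_univ_pi fun _ : ι => isCompact_Icc (a := -B) (b := B)).of_isClosed_subset ?_
      fun b hb i _ => abs_le.1 (hb.2 i)
    have e : Bx = {b | b k₀ = 0} ∩ ⋂ i, {b : ι → ℝ | |b i| ≤ B} := by ext; simp [Bx]
    rw [e]
    exact (isClosed_eq (continuous_apply k₀) continuous_const).inter
      (isClosed_iInter fun i => isClosed_le (continuous_apply i).abs continuous_const)
  have hJc : ContinuousOn J Bx := by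
    refine ContinuousOn.add ?_ (Continuous.continuousOn (by fun_prop))
    refine continuousOn_of_dominated (F := fun b x => pot z b x)
      (bound := fun _ => Real.log (Fintype.card ι) + r * Rz + B)
      (fun b _ => (hint b).aestronglyMeasurable) (fun b hb => ?_)
      ((integrableOn_const hK.measure_lt_top.ne)) ?_
    · filter_upwards [ae_restrict_mem hK.measurableSet] with x hx
      have hs := abs_score_le hKr hz hb.2 hx
      have hl := Real.log_nonneg (show (1 : ℝ) ≤ Fintype.card ι by exact_mod_cast Fintype.card_pos)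
      rw [Real.norm_eq_abs, abs_le]
      constructor
      · linarith [le_lsum (score z b x) k₀, (abs_le.1 (hs k₀)).1,
          show pot z b x = lsum (score z b x) from rfl]
      · linarith [lsum_le fun i => (abs_le.1 (hs i)).2, show pot z b x = lsum (score z b x) from rfl]
    · refine Filter.Eventually.of_forall fun x => Continuous.continuousOn ?_
      simp only [pot, lsum, score]
      exact Continuous.log (by fun_prop) fun b => (sumExp_pos _).ne'
  obtain ⟨b, hbB, hbmin⟩ :=
    hBx.exists_isMinOn ⟨0, ⟨rfl, fun _ => by simpa using hB0⟩⟩ hJc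
  have hglob : ∀ b' : ι → ℝ, J b ≤ J b' := by
    intro b'
    rw [← hshift b' (-b' k₀)]
    set b'' : ι → ℝ := fun i => b' i + -b' k₀
    rcases le_or_gt (J b'') (J 0) with h | h
    · exact hbmin ⟨by simp [b''], hlow b'' (by simp [b'']) h⟩
    · exact (hbmin ⟨rfl, fun _ => by simpa using hB0⟩).trans h.le
  refine ⟨b, hbB.1, fun i => ?_, hbB.2⟩
  set N : ℝ := (Fintype.card ι : ℝ)
  have hN : 0 < N := Nat.cast_pos.2 Fintype.card_pos
  set t := (cellMass K z b i - m i) / (4 * N * V) with ht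
  have hstep : J (fun j => b j + if j = i then t else 0)
      ≤ J b + t * (m i - cellMass K z b i) + 2 * N * t ^ 2 * V := by
    have hpt : ∀ x, pot z (fun j => b j + if j = i then t else 0) x
        ≤ pot z b x - t * wgt z b x i + 2 * N * t ^ 2 := fun x => by
      have h := (abs_le.1 (lsum_taylor (score z b x) (fun j => -(if j = i then t else 0)) (M := |t|)
        fun j => by split_ifs <;> simp)).2
      have e : smean (score z b x) (fun j => -(if j = i then t else 0)) = -(t * wgt z b x i) := by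
        simp [smean, wgt, mul_ite, mul_comm]
      rw [e, sq_abs] at h
      have e2 : pot z (fun j => b j + if j = i then t else 0) x
          = lsum fun j => score z b x j + -(if j = i then t else 0) := by
        simp only [pot]; congr 1; funext j; simp only [score]; ring
      rw [e2]; simp only [pot]; linarith
    have hI := setIntegral_mono_on (hint _) (((hint b).sub
      (((continuous_wgt (z := z) (b := b) i).continuousOn.integrableOn_compact hK).const_mul t)).add
        (integrableOn_const (C := 2 * N * t ^ 2) hK.measure_lt_top.ne)) hK.measurableSet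
      fun x _ => hpt x
    have j : IntegrableOn (fun x => pot z b x - t * wgt z b x i) K := (hint b).sub
      (((continuous_wgt (z := z) (b := b) i).continuousOn.integrableOn_compact hK).const_mul t)
    simp only [Pi.add_apply, Pi.sub_apply] at hI
    rw [integral_add j (integrableOn_const hK.measure_lt_top.ne), integral_sub (hint b)
      (((continuous_wgt (z := z) (b := b) i).continuousOn.integrableOn_compact hK).const_mul t),
      integral_const_mul, setIntegral_const, smul_eq_mul, hVr] at hI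
    simp only [hJ, mul_add, sum_add_distrib, mul_ite, mul_zero, sum_ite_eq', Finset.mem_univ, if_true]
    simp only [cellMass]
    linarith
  have h := (hglob _).trans hstep
  have hq : t * (m i - cellMass K z b i) + 2 * N * t ^ 2 * V
      = -(cellMass K z b i - m i) ^ 2 / (8 * N * V) := by
    rw [ht]; field_simp; ring
  have h' : 0 ≤ -(cellMass K z b i - m i) ^ 2 / (8 * N * V) := by linarith
  rw [le_div_iff₀ (by positivity), zero_mul, neg_nonneg] at h'
  exact sub_eq_zero.1 (pow_eq_zero_iff two_ne_zero |>.1 (le_antisymm h' (sq_nonneg _)))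

/-- The weights move at most proportionally to the sites. -/
theorem weights_move (hK : IsCompact K) (hKv : 0 < volume K) {a : Space d → ι → ℝ}
    {ξ : Space d → ι → ℝ} (dz : ι → Space d) (db : ι → ℝ) (hξ : ∀ x i, ξ x i = ⟪x, dz i⟫ - db i)
    (hac : ∀ i, ContinuousOn (fun x => smax (a x) i) K)
    (hac' : ∀ i, ContinuousOn (fun x => smax (fun j => a x j + ξ x j) i) K)
    {pm E : ℝ} (hpm0 : 0 < pm) (hE : 0 ≤ E) (k₀ i₁ : ι) (hk₀ : db k₀ = 0)
    (hlow : ∀ x ∈ K, ∀ t ∈ Set.Icc (0 : ℝ) 1, ∀ i, pm ≤ smax (fun j => a x j + t * ξ x j) i)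
    (hxz : ∀ x ∈ K, ∀ i, |⟪x, dz i⟫| ≤ E) (hi₁ : ∀ i, |db i| ≤ |db i₁|)
    (hdiff : ∀ i, ∫ x in K, (smax (fun j => a x j + ξ x j) i - smax (a x) i) = 0) :
    |db i₁| ≤ (8 * (Fintype.card ι : ℝ) / pm + (8 * (Fintype.card ι : ℝ) / pm + 8) + 1) * E := by
  classical
  set N : ℝ := (Fintype.card ι : ℝ) with hNdef
  have hN : 0 < N := Nat.cast_pos.2 Fintype.card_pos
  set D := |db i₁| with hD
  have hD0 : 0 ≤ D := abs_nonneg _
  set V := (volume K).toReal with hV
  have hV0 : 0 < V := ENNReal.toReal_pos hKv.ne' hK.measure_lt_top.ne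
  have hVr : (volume : Measure (Space d)).real K = V := rfl
  have hm := hK.measurableSet
  have int : ∀ {F : Space d → ℝ}, ContinuousOn F K → IntegrableOn F K := fun hF =>
    hF.integrableOn_compact hK
  have hξb : ∀ x ∈ K, ∀ i, |ξ x i| ≤ E + D := fun x hx i => by
    rw [hξ]; exact (abs_sub _ _).trans (add_le_add (hxz x hx i) (hi₁ i))
  have hxzc : ∀ i, ContinuousOn (fun x : Space d => ⟪x, dz i⟫) K := fun i =>
    (continuous_id.inner continuous_const).continuousOn
  have hξc : ∀ i, ContinuousOn (fun x => ξ x i) K := fun i => by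
    simp only [hξ]; exact (hxzc i).fun_sub continuousOn_const
  have hΔc : ∀ i, ContinuousOn (fun x => smax (fun j => a x j + ξ x j) i - smax (a x) i) K :=
    fun i => (hac' i).fun_sub (hac i)
  have hq : pm * ∫ x in K, (ξ x i₁ - ξ x k₀) ^ 2
      ≤ 2 * ∑ i, ∫ x in K, ⟪x, dz i⟫ * (smax (fun j => a x j + ξ x j) i - smax (a x) i) := by
    have e1 : ∀ i, ∫ x in K, ξ x i * (smax (fun j => a x j + ξ x j) i - smax (a x) i)
        = ∫ x in K, ⟪x, dz i⟫ * (smax (fun j => a x j + ξ x j) i - smax (a x) i) := fun i => by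
      have e : ∀ x, ξ x i * (smax (fun j => a x j + ξ x j) i - smax (a x) i)
          = ⟪x, dz i⟫ * (smax (fun j => a x j + ξ x j) i - smax (a x) i)
            - db i * (smax (fun j => a x j + ξ x j) i - smax (a x) i) := fun x => by rw [hξ]; ring
      simp only [e]
      rw [integral_sub (int ((hxzc i).fun_mul (hΔc i))) ((int (hΔc i)).const_mul _),
        integral_const_mul, hdiff, mul_zero, sub_zero]
    rw [← sum_congr rfl fun i _ => e1 i, ← integral_finsetSum _ fun i _ =>
        int ((hξc i).fun_mul (hΔc i)), ← integral_const_mul, ← integral_const_mul]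
    exact setIntegral_mono_on ((int (((hξc i₁).fun_sub (hξc k₀)).fun_pow 2)).const_mul _)
      ((int (continuousOn_finsetSum _ fun i _ => (hξc i).fun_mul (hΔc i))).const_mul _) hm
      fun x hx => smax_mono (a x) (ξ x) hpm0.le (hlow x hx) i₁ k₀
  have h2 : ∑ i, ∫ x in K, ⟪x, dz i⟫ * (smax (fun j => a x j + ξ x j) i - smax (a x) i)
      ≤ N * (V * (E * (2 * (E + D)))) := by
    refine (sum_le_sum (g := fun _ => V * (E * (2 * (E + D)))) fun i _ => ?_).trans
      (le_of_eq (by simp [hNdef]))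
    refine (setIntegral_mono_on (g := fun _ => E * (2 * (E + D)))
      (int ((hxzc i).fun_mul (hΔc i))) (integrableOn_const hK.measure_lt_top.ne) hm
      fun x hx => ?_).trans (le_of_eq (by rw [setIntegral_const, smul_eq_mul, hVr]))
    refine (le_abs_self _).trans ?_
    rw [abs_mul]
    exact mul_le_mul (hxz x hx i) (smax_lip _ _ (hξb x hx) i) (abs_nonneg _) hE
  have h3 : V * (D ^ 2 / 2 - 4 * E ^ 2) ≤ ∫ x in K, (ξ x i₁ - ξ x k₀) ^ 2 := by
    refine (le_of_eq (by rw [setIntegral_const, smul_eq_mul, hVr])).trans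
      (setIntegral_mono_on (integrableOn_const hK.measure_lt_top.ne)
        (int (((hξc i₁).fun_sub (hξc k₀)).fun_pow 2)) hm fun x hx => ?_)
    have ea : ξ x i₁ - ξ x k₀ = (⟪x, dz i₁⟫ - ⟪x, dz k₀⟫) - db i₁ := by
      rw [hξ, hξ, hk₀]; ring
    rw [ea, hD, sq_abs]
    have hu : |⟪x, dz i₁⟫ - ⟪x, dz k₀⟫| ≤ 2 * E := by
      linarith [abs_sub ⟪x, dz i₁⟫ ⟪x, dz k₀⟫, hxz x hx i₁, hxz x hx k₀]
    have := pow_le_pow_left₀ (abs_nonneg _) hu 2
    rw [sq_abs] at this
    nlinarith [sq_nonneg (2 * (⟪x, dz i₁⟫ - ⟪x, dz k₀⟫) - db i₁)]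
  have h4 : pm * (D ^ 2 / 2 - 4 * E ^ 2) ≤ 4 * N * E * (E + D) := by
    refine le_of_mul_le_mul_left ?_ hV0
    nlinarith [mul_le_mul_of_nonneg_left h3 hpm0.le]
  set c := 8 * N / pm with hcdef
  have hc0 : 0 ≤ c := by positivity
  have h5 : D ^ 2 ≤ c * E * D + (c + 8) * E ^ 2 := by
    have : c * E * D + (c + 8) * E ^ 2 - D ^ 2
        = 2 / pm * (4 * N * E * (E + D) - pm * (D ^ 2 / 2 - 4 * E ^ 2)) := by
      rw [hcdef]; field_simp; ring
    rw [← sub_nonneg, this]
    exact mul_nonneg (by positivity) (sub_nonneg.2 h4)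
  by_contra hn
  rw [not_le] at hn
  have hED : E ≤ D := le_trans (le_mul_of_one_le_left hE (by linarith)) hn.le
  have h6 : (c + 8) * E ^ 2 ≤ (c + 8) * E * D := by
    rw [sq, ← mul_assoc]; exact mul_le_mul_of_nonneg_left hED (mul_nonneg (by linarith) hE)
  have hDpos : 0 < D := lt_of_le_of_lt (mul_nonneg (by linarith) hE) hn
  have h7 := mul_lt_mul_of_pos_right hn hDpos
  nlinarith [mul_nonneg hE hD0]

/-- The multiplier is bounded. -/
theorem multiplier_bound (hK : IsCompact K) (hKv : 0 < volume K) {z : ι → Space d} {b : ι → ℝ}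
    {pm : ℝ} (hpm0 : 0 < pm) (hpi : ∀ x ∈ K, ∀ i, pm ≤ wgt z b x i) {f : Space d → ℝ}
    (hf : ContinuousOn f K) (hf0 : ∫ x in K, f x = 0) (k₀ : ι) (P : ι → ℝ)
    (hP1 : ∫ x in K, svar (score z b x) P = ∑ i, P i * ∫ x in K, wgt z b x i * f x) (i : ι) :
    |P i - P k₀| ≤ 2 * (Fintype.card ι : ℝ) * (∫ x in K, |f x|) / ((volume K).toReal * pm) := by
  classical
  set N : ℝ := (Fintype.card ι : ℝ) with hNdef
  have hN : 0 < N := Nat.cast_pos.2 Fintype.card_pos
  set V := (volume K).toReal with hV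
  have hV0 : 0 < V := ENNReal.toReal_pos hKv.ne' hK.measure_lt_top.ne
  have hVr : (volume : Measure (Space d)).real K = V := rfl
  set F1 := ∫ x in K, |f x| with hF1
  have hm := hK.measurableSet
  have int : ∀ {F : Space d → ℝ}, ContinuousOn F K → IntegrableOn F K := fun hF =>
    hF.integrableOn_compact hK
  set P' := fun i => P i - P k₀ with hP'
  obtain ⟨i₂, -, hi₂⟩ := exists_max_image univ (fun i => |P' i|) univ_nonempty
  refine (hi₂ i (Finset.mem_univ i)).trans ?_
  have hwc : ∀ i, ContinuousOn (fun x => wgt z b x i) K := fun i => (continuous_wgt i).continuousOn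
  have hF0 : ∀ i, |∫ x in K, wgt z b x i * f x| ≤ F1 := fun i => by
    rw [← Real.norm_eq_abs]
    refine (norm_integral_le_integral_norm _).trans (setIntegral_mono_on
      (int ((hwc i).fun_mul hf)).norm (int hf.abs) hm fun x _ => ?_)
    rw [Real.norm_eq_abs, abs_mul, wgt, abs_of_pos (smax_pos _ i)]
    exact mul_le_of_le_one_left (abs_nonneg _) (smax_le_one _ _)
  have h1 : pm / 2 * P' i₂ ^ 2 * V ≤ ∫ x in K, svar (score z b x) P := by
    have hsc : ContinuousOn (fun x => svar (score z b x) P) K := by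
      show ContinuousOn (fun x => ∑ i, wgt z b x i * (P i - ∑ j, wgt z b x j * P j) ^ 2) K
      exact continuousOn_finsetSum _ fun i _ => (hwc i).fun_mul
        ((continuousOn_const.fun_sub (continuousOn_finsetSum _ fun j _ =>
          (hwc j).fun_mul continuousOn_const)).fun_pow 2)
    refine (le_of_eq (by rw [setIntegral_const, smul_eq_mul, hVr, mul_comm])).trans
      (setIntegral_mono_on (integrableOn_const hK.measure_lt_top.ne) (int hsc) hm fun x hx => ?_)
    rcases eq_or_ne i₂ k₀ with h | h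
    · simp only [hP', h, sub_self]; simpa using svar_nonneg _ _
    set a := smean (score z b x) P
    have hle : ∑ i ∈ {i₂, k₀}, smax (score z b x) i * (P i - a) ^ 2 ≤ svar (score z b x) P :=
      sum_le_sum_of_subset_of_nonneg (Finset.subset_univ _) fun i _ _ =>
        mul_nonneg (smax_pos _ _).le (sq_nonneg _)
    rw [sum_pair h] at hle
    refine le_trans ?_ hle
    refine le_trans ?_ (add_le_add (mul_le_mul_of_nonneg_right (hpi x hx i₂) (sq_nonneg _))
      (mul_le_mul_of_nonneg_right (hpi x hx k₀) (sq_nonneg _)))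
    simp only [hP']
    nlinarith [mul_nonneg hpm0.le (sq_nonneg (P i₂ + P k₀ - 2 * a))]
  have h2 : ∑ i, P i * (∫ x in K, wgt z b x i * f x)
      = ∑ i, P' i * ∫ x in K, wgt z b x i * f x := by
    simp only [hP', sub_mul, sum_sub_distrib, ← mul_sum]
    rw [← integral_finsetSum _ fun i _ => int ((hwc i).fun_mul hf)]
    simp only [← sum_mul, wgt, sum_smax, one_mul, hf0, mul_zero, sub_zero]
  have h3 : ∑ i, P' i * (∫ x in K, wgt z b x i * f x) ≤ N * (|P' i₂| * F1) := by
    refine (sum_le_sum (g := fun _ => |P' i₂| * F1) fun i _ => ?_).trans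
      (le_of_eq (by simp [hNdef]))
    refine (le_abs_self _).trans ?_
    rw [abs_mul]
    exact mul_le_mul (hi₂ i (Finset.mem_univ i)) (hF0 i) (abs_nonneg _) (abs_nonneg _)
  rw [hP1, h2] at h1
  have h4 := h1.trans h3
  rw [← sq_abs] at h4
  rcases eq_or_lt_of_le (abs_nonneg (P' i₂)) with h0 | h0
  · rw [← h0]
    exact div_nonneg (mul_nonneg (by positivity) (integral_nonneg fun x => abs_nonneg _)) (by positivity)
  rw [le_div_iff₀ (mul_pos hV0 hpm0)]
  nlinarith

/-- One step along the path of sites. -/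
theorem step_bound (hK : IsCompact K) (hKc : Convex ℝ K) (hKv : 0 < volume K) (hr : 0 < r)
    (hKr : ∀ x ∈ K, ‖x‖ ≤ r) (k₀ : ι) (m : ι → ℝ) (M₀ : ℝ) {f : Space d → ℝ}
    (hf : ContinuousOn f K) (hf0 : ∫ x in K, f x = 0) :
    ∃ C : ℝ, ∀ (z z' : ι → Space d) (b b' : ι → ℝ) (e : ℝ), 0 ≤ e →
      (∀ i, ‖z' i - z i‖ ≤ e) → b k₀ = 0 → b' k₀ = 0 →
      (∀ i, cellMass K z b i = m i) → (∀ i, cellMass K z' b' i = m i) →
      (∀ x ∈ K, ∀ i, |score z b x i| ≤ M₀) → (∀ x ∈ K, ∀ i, |score z' b' x i| ≤ M₀) →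
      ∀ α > 0, |2 * ∫ x in K, (pot z' b' x - pot z b x) * f x|
        ≤ α * ∑ i, m i * ‖z' i - z i‖ ^ 2 + 6 * r ^ 2 / α * (∫ x in K, f x ^ 2) + C * e ^ 2 := by
  classical
  set N : ℝ := (Fintype.card ι : ℝ) with hNdef
  have hN : 0 < N := Nat.cast_pos.2 Fintype.card_pos
  set pm := Real.exp (-(2 * M₀)) / N with hpm
  have hpm0 : 0 < pm := div_pos (Real.exp_pos _) hN
  set V := (volume K).toReal with hV
  have hV0 : 0 < V := ENNReal.toReal_pos hKv.ne' hK.measure_lt_top.ne
  have hVr : (volume : Measure (Space d)).real K = V := rfl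
  set Cb := 8 * N / pm + (8 * N / pm + 8) + 1 with hCb
  set C1 := r + Cb * r with hC1
  set F1 := ∫ x in K, |f x| with hF1
  set Pb := 2 * N * F1 / (V * pm) with hPb
  refine ⟨4 * N * C1 ^ 2 * F1 + 2 * N * Pb * ((4 + 4 * N) * V * C1 ^ 2),
    fun z z' b b' e he hze hb hb' hmz hmz' hs hs' α hα => ?_⟩
  have hm := hK.measurableSet
  have int : ∀ {F : Space d → ℝ}, ContinuousOn F K → IntegrableOn F K := fun hF =>
    hF.integrableOn_compact hK
  set dz := fun i => z' i - z i with hdz
  set db := fun i => b' i - b i with hdb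
  set ξ : Space d → ι → ℝ := fun x i => ⟪x, dz i⟫ - db i with hξ
  have hscore : ∀ x, score z' b' x = fun i => score z b x i + ξ x i := fun x => funext fun i => by
    simp only [score, hξ, hdz, hdb, inner_sub_right]; ring
  have hlow : ∀ x ∈ K, ∀ t ∈ Set.Icc (0 : ℝ) 1, ∀ i,
      pm ≤ smax (fun j => score z b x j + t * ξ x j) i := fun x hx t ht i => by
    refine smax_ge (fun j => ?_) i
    have h1 := abs_le.1 (hs x hx j)
    have h2 := abs_le.1 (hs' x hx j)
    rw [hscore] at h2
    rw [abs_le]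
    constructor <;>
      nlinarith [mul_le_mul_of_nonneg_left h1.1 (sub_nonneg.2 ht.2),
        mul_le_mul_of_nonneg_left h2.1 ht.1, mul_le_mul_of_nonneg_left h1.2 (sub_nonneg.2 ht.2),
        mul_le_mul_of_nonneg_left h2.2 ht.1]
  have hpi : ∀ x ∈ K, ∀ i, pm ≤ smax (score z b x) i := fun x hx i => by
    simpa using hlow x hx 0 (by simp) i
  obtain ⟨i₁, -, hi₁⟩ := exists_max_image univ (fun i => |db i|) univ_nonempty
  set D := |db i₁| with hD
  have hD0 : 0 ≤ D := abs_nonneg _
  have hxz : ∀ x ∈ K, ∀ i, |⟪x, dz i⟫| ≤ r * e := fun x hx i =>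
    (abs_real_inner_le_norm _ _).trans (mul_le_mul (hKr x hx) (hze i) (norm_nonneg _) hr.le)
  have hξb : ∀ x ∈ K, ∀ i, |ξ x i| ≤ r * e + D := fun x hx i =>
    (abs_sub _ _).trans (add_le_add (hxz x hx i) (hi₁ i (Finset.mem_univ i)))
  have hwc : ∀ (z : ι → Space d) (b : ι → ℝ) i, ContinuousOn (fun x => wgt z b x i) K :=
    fun z b i => (continuous_wgt i).continuousOn
  have hxzc : ∀ i, ContinuousOn (fun x : Space d => ⟪x, dz i⟫) K := fun i =>
    (continuous_id.inner continuous_const).continuousOn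
  have hξc : ∀ i, ContinuousOn (fun x => ξ x i) K := fun i => (hxzc i).fun_sub continuousOn_const
  have hdiff : ∀ i, ∫ x in K, (wgt z' b' x i - wgt z b x i) = 0 := fun i => by
    rw [integral_sub (int (hwc z' b' i)) (int (hwc z b i))]
    exact sub_eq_zero.2 ((hmz' i).trans (hmz i).symm)
  -- the weights move at most proportionally to the sites
  have hDb : D ≤ Cb * (r * e) := by
    refine weights_move hK hKv (a := fun x => score z b x) (ξ := ξ) dz db (fun x i => rfl)
      (hwc z b) (fun i => ?_) hpm0 (by positivity) k₀ i₁ (by simp [hdb, hb, hb']) hlow hxz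
      (fun i => hi₁ i (Finset.mem_univ i)) fun i => ?_
    · simp only [← hscore]; exact hwc z' b' i
    · simp only [← hscore]; exact hdiff i
  set M := r * e + D with hM
  have hM0 : 0 ≤ M := by positivity
  have hMC : M ≤ C1 * e := by
    have : C1 * e = r * e + Cb * (r * e) := by rw [hC1]; ring
    linarith
  have hMe : M ^ 2 ≤ C1 ^ 2 * e ^ 2 := by rw [← mul_pow]; exact pow_le_pow_left₀ hM0 hMC 2
  obtain ⟨P, hP1, hP2⟩ := linear_bound hK hKc hKv hr hKr z b dz db hf hf0 hα
  set u : Space d → ℝ := fun x => smean (score z b x) (ξ x) with hu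
  have huc : ContinuousOn u K :=
    continuousOn_finsetSum _ fun i _ => (hwc z b i).fun_mul (hξc i)
  set Dd : ι → ℝ := fun i => ∫ x in K, wgt z b x i * (ξ x i - u x) with hDd
  have hDc : ∀ i, ContinuousOn (fun x => wgt z b x i * (ξ x i - u x)) K := fun i =>
    (hwc z b i).fun_mul ((hξc i).fun_sub huc)
  have hDd0 : ∀ i, |Dd i| ≤ (4 + 4 * N) * V * C1 ^ 2 * e ^ 2 := fun i => by
    have e1 : Dd i = -∫ x in K, ((wgt z' b' x i - wgt z b x i) - wgt z b x i * (ξ x i - u x)) := by
      rw [integral_sub (int ((hwc z' b' i).fun_sub (hwc z b i))) (int (hDc i)), hdiff, zero_sub,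
        neg_neg]
    rw [e1, abs_neg, ← Real.norm_eq_abs]
    refine (norm_setIntegral_le_of_norm_le_const hK.measure_lt_top
      (C := (4 + 4 * N) * M ^ 2) fun x hx => ?_).trans ?_
    · simp only [wgt, hscore, Real.norm_eq_abs]
      exact smax_taylor (score z b x) (ξ x) (hξb x hx) i
    · rw [hVr]
      have := mul_le_mul_of_nonneg_left hMe (show 0 ≤ (4 + 4 * N) * V by positivity)
      linarith
  have hDsum : ∑ i, Dd i = 0 := by
    rw [hDd, ← integral_finsetSum _ fun i _ => int (hDc i)]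
    refine integral_eq_zero_of_ae (Filter.Eventually.of_forall fun x => ?_)
    simp only [mul_sub, sum_sub_distrib, ← sum_mul, wgt, sum_smax, one_mul]
    exact sub_self _
  set P' := fun i => P i - P k₀ with hP'
  have hP'b : ∀ i, |P' i| ≤ Pb :=
    multiplier_bound hK hKv hpm0 hpi hf hf0 k₀ P hP1
  have hPD : |∑ i, P i * Dd i| ≤ N * (Pb * ((4 + 4 * N) * V * C1 ^ 2 * e ^ 2)) := by
    have : ∑ i, P i * Dd i = ∑ i, P' i * Dd i := by
      simp only [hP', sub_mul, sum_sub_distrib, ← mul_sum, hDsum, mul_zero, sub_zero]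
    rw [this]
    refine (abs_sum_le_sum_abs _ _).trans ((sum_le_sum fun i _ => ?_).trans
      (le_of_eq (by rw [sum_const, card_univ, nsmul_eq_mul])))
    rw [abs_mul]
    exact mul_le_mul (hP'b i) (hDd0 i) (abs_nonneg _) ((abs_nonneg _).trans (hP'b i))
  have hpc : ∀ (z : ι → Space d) (b : ι → ℝ), ContinuousOn (pot z b) K := fun z b =>
    (continuous_pot z b).continuousOn
  have hX : |(∫ x in K, (pot z' b' x - pot z b x) * f x) - ∫ x in K, u x * f x|
      ≤ 2 * N * C1 ^ 2 * e ^ 2 * F1 := by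
    rw [← integral_sub (int (((hpc z' b').fun_sub (hpc z b)).fun_mul hf)) (int (huc.fun_mul hf)),
      hF1, ← integral_const_mul, ← Real.norm_eq_abs]
    refine (norm_integral_le_integral_norm _).trans (setIntegral_mono_on
      (int ((((hpc z' b').fun_sub (hpc z b)).fun_mul hf).fun_sub (huc.fun_mul hf))).norm
      ((int hf.abs).const_mul _) hm fun x hx => ?_)
    rw [Real.norm_eq_abs, ← sub_mul, abs_mul]
    refine mul_le_mul_of_nonneg_right ?_ (abs_nonneg _)
    simp only [pot, hscore, hu]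
    refine (lsum_taylor (score z b x) (ξ x) (hξb x hx)).trans ?_
    have := mul_le_mul_of_nonneg_left hMe (show 0 ≤ 2 * N by positivity)
    simp only [← hNdef]
    linarith
  have hA : ∑ i, (∫ x in K, wgt z b x i) * ‖dz i‖ ^ 2 = ∑ i, m i * ‖z' i - z i‖ ^ 2 :=
    sum_congr rfl fun i _ => by rw [← hmz i]; rfl
  rw [hA] at hP2
  change |2 * (∫ x in K, u x * f x) - 2 * ∑ i, P i * Dd i| ≤ _ at hP2
  have a1 := abs_le.1 hX
  have a2 := abs_le.1 hPD
  have a3 := abs_le.1 hP2
  rw [abs_le]; constructor <;> linarith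

/-- The entropic potentials are Lipschitz in the sites, in mean square. -/
theorem potential_bound (hK : IsCompact K) (hKc : Convex ℝ K) (hKv : 0 < volume K) (hr : 0 < r)
    (hKr : ∀ x ∈ K, ‖x‖ ≤ r) {m : ι → ℝ} (hm : ∀ i, 0 < m i)
    (hsum : ∑ i, m i = (volume K).toReal) (z₀ z₁ : ι → Space d) :
    ∃ b₀ b₁ : ι → ℝ, (∀ i, cellMass K z₀ b₀ i = m i) ∧ (∀ i, cellMass K z₁ b₁ i = m i) ∧
      ∃ c : ℝ, ∫ x in K, (pot z₁ b₁ x - pot z₀ b₀ x - c) ^ 2
        ≤ 6 * r ^ 2 * ∑ i, m i * ‖z₁ i - z₀ i‖ ^ 2 := by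
  classical
  obtain ⟨k₀⟩ := ‹Nonempty ι›
  obtain ⟨i₀, -, hi₀⟩ := exists_min_image univ m univ_nonempty
  have hc : ∀ i, m i₀ ≤ m i := fun i => hi₀ i (Finset.mem_univ i)
  set Rz := ∑ i, (‖z₀ i‖ + ‖z₁ i‖) with hRz
  set V := (volume K).toReal with hV
  have hV0 : 0 < V := ENNReal.toReal_pos hKv.ne' hK.measure_lt_top.ne
  set B := V * (Real.log (Fintype.card ι) + 2 * (r * Rz)) / m i₀
  set M₀ := r * Rz + B
  set zt : ℝ → ι → Space d := fun t i => z₀ i + t • (z₁ i - z₀ i) with hzt
  have hzR : ∀ t ∈ Set.Icc (0 : ℝ) 1, ∀ i, ‖zt t i‖ ≤ Rz := fun t ht i => by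
    have e : zt t i = (1 - t) • z₀ i + t • z₁ i := by simp only [hzt]; module
    rw [e]
    refine (norm_add_le _ _).trans (le_trans ?_ (single_le_sum (f := fun j => ‖z₀ j‖ + ‖z₁ j‖)
      (fun j _ => by positivity) (Finset.mem_univ i)))
    rw [norm_smul, norm_smul, Real.norm_of_nonneg (sub_nonneg.2 ht.2), Real.norm_of_nonneg ht.1]
    exact add_le_add (mul_le_of_le_one_left (norm_nonneg _) (by linarith [ht.1]))
      (mul_le_of_le_one_left (norm_nonneg _) ht.2)
  have hex : ∀ t : ℝ, ∃ b : ι → ℝ, t ∈ Set.Icc (0 : ℝ) 1 →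
      b k₀ = 0 ∧ (∀ i, cellMass K (zt t) b i = m i) ∧ ∀ i, |b i| ≤ B := fun t => by
    by_cases ht : t ∈ Set.Icc (0 : ℝ) 1
    · obtain ⟨b, h⟩ := exists_weights hK hKv hKr k₀ (hm i₀) hc hsum (hzR t ht)
      exact ⟨b, fun _ => h⟩
    · exact ⟨0, fun h => absurd h ht⟩
  choose bt hbt using hex
  have h0 : (0 : ℝ) ∈ Set.Icc (0 : ℝ) 1 := by simp
  have h1 : (1 : ℝ) ∈ Set.Icc (0 : ℝ) 1 := by simp
  have ez0 : zt 0 = z₀ := funext fun i => by simp [hzt]
  have ez1 : zt 1 = z₁ := funext fun i => by simp [hzt]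
  refine ⟨bt 0, bt 1, fun i => by simpa [ez0] using (hbt 0 h0).2.1 i,
    fun i => by simpa [ez1] using (hbt 1 h1).2.1 i, ?_⟩
  have hpc : ∀ (z : ι → Space d) (b : ι → ℝ), ContinuousOn (pot z b) K := fun z b =>
    (continuous_pot z b).continuousOn
  have int : ∀ {F : Space d → ℝ}, ContinuousOn F K → IntegrableOn F K := fun hF =>
    hF.integrableOn_compact hK
  set g : Space d → ℝ := fun x => pot z₁ (bt 1) x - pot z₀ (bt 0) x with hg
  have hgc : ContinuousOn g K := (hpc _ _).fun_sub (hpc _ _)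
  set c := (∫ x in K, g x) / V with hcdef
  refine ⟨c, ?_⟩
  set f : Space d → ℝ := fun x => g x - c with hf
  have hfc : ContinuousOn f K := hgc.fun_sub continuousOn_const
  have hf0 : ∫ x in K, f x = 0 := by
    rw [hf, integral_sub (int hgc) (integrableOn_const hK.measure_lt_top.ne), setIntegral_const,
      smul_eq_mul, hcdef, show (volume : Measure (Space d)).real K = V from rfl,
      mul_div_cancel₀ _ hV0.ne', sub_self]
  obtain ⟨C, hC⟩ := step_bound hK hKc hKv hr hKr k₀ m M₀ hfc hf0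
  set A := ∑ i, m i * ‖z₁ i - z₀ i‖ ^ 2 with hA
  set F := ∫ x in K, f x ^ 2 with hF
  have hgf : ∫ x in K, g x * f x = F := by
    have : ∀ x, g x * f x = f x ^ 2 + c * f x := fun x => by simp only [hf]; ring
    simp only [this]
    rw [integral_add (int (hfc.fun_pow 2)) ((int hfc).const_mul c), integral_const_mul, hf0,
      mul_zero, add_zero]
  set e₀ := ∑ i, ‖z₁ i - z₀ i‖ with he₀
  have key : ∀ n : ℕ, 0 < n → ∀ α > 0,
      2 * F ≤ α * A + 6 * r ^ 2 / α * F + C * e₀ ^ 2 / n := by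
    intro n hn α hα
    have hn' : (0 : ℝ) < n := Nat.cast_pos.2 hn
    set T : ℕ → ℝ := fun j => ∫ x in K, pot (zt (j / n)) (bt (j / n)) x * f x with hT
    have hstep : ∀ j ∈ Finset.range n, 2 * (T (j + 1) - T j)
        ≤ (α * A + 6 * r ^ 2 / α * F + C * e₀ ^ 2 / n) / n := by
      intro j hj
      have hjn : (j : ℝ) + 1 ≤ n := by exact_mod_cast Finset.mem_range.1 hj
      have ht : ((j : ℝ) / n) ∈ Set.Icc (0 : ℝ) 1 :=
        ⟨by positivity, (div_le_one hn').2 (by linarith)⟩
      have ht' : ((j + 1 : ℕ) : ℝ) / n ∈ Set.Icc (0 : ℝ) 1 :=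
        ⟨by positivity, (div_le_one hn').2 (by push_cast; exact hjn)⟩
      have hd : ∀ i, zt (((j + 1 : ℕ) : ℝ) / n) i - zt ((j : ℝ) / n) i
          = (n : ℝ)⁻¹ • (z₁ i - z₀ i) := fun i => by
        simp only [hzt]; push_cast; rw [add_div, add_smul, one_div]; abel
      have h := hC _ _ _ _ (e₀ / n) (by positivity) (fun i => by
          rw [hd, norm_smul, norm_inv, RCLike.norm_natCast, ← div_eq_inv_mul]
          exact div_le_div_of_nonneg_right (single_le_sum (f := fun i => ‖z₁ i - z₀ i‖)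
            (fun i _ => norm_nonneg _) (Finset.mem_univ i)) hn'.le)
        (hbt _ ht).1 (hbt _ ht').1 (hbt _ ht).2.1 (hbt _ ht').2.1
        (fun x hx => abs_score_le hKr (hzR _ ht) (hbt _ ht).2.2 hx)
        (fun x hx => abs_score_le hKr (hzR _ ht') (hbt _ ht').2.2 hx) (α * n) (by positivity)
      simp only [hd, norm_smul, mul_pow, norm_inv, RCLike.norm_natCast, sub_mul] at h
      rw [integral_sub (int ((hpc _ _).fun_mul hfc)) (int ((hpc _ _).fun_mul hfc))] at h
      refine le_trans ((le_abs_self _).trans h) (le_of_eq ?_)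
      rw [hA]
      simp only [mul_left_comm (m _) ((n : ℝ)⁻¹ ^ 2), ← mul_sum]
      field_simp
    have h2 := sum_le_sum hstep
    rw [← mul_sum, Finset.sum_range_sub T, sum_const, Finset.card_range, nsmul_eq_mul,
      mul_div_cancel₀ _ hn'.ne'] at h2
    refine le_trans (le_of_eq ?_) h2
    rw [← hgf, hT]
    simp only [Nat.cast_zero, zero_div, div_self hn'.ne', hg, ez0, ez1, sub_mul]
    rw [integral_sub (int ((hpc _ _).fun_mul hfc)) (int ((hpc _ _).fun_mul hfc))]
  have hlim : ∀ α > 0, 2 * F ≤ α * A + 6 * r ^ 2 / α * F := fun α hα => by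
    refine ge_of_tendsto (x := Filter.atTop)
      (show Filter.Tendsto (fun n : ℕ => α * A + 6 * r ^ 2 / α * F + C * e₀ ^ 2 / n) Filter.atTop
        (nhds (α * A + 6 * r ^ 2 / α * F)) by
          simpa using (tendsto_const_div_atTop_nhds_zero_nat (C * e₀ ^ 2)).const_add _) ?_
    filter_upwards [Filter.eventually_gt_atTop 0] with n hn using key n hn α hα
  have := hlim (6 * r ^ 2) (by positivity)
  rw [div_self (by positivity : (6 * r ^ 2 : ℝ) ≠ 0), one_mul] at this
  show F ≤ 6 * r ^ 2 * A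
  linarith

end Vale.Agent.P074
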