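import Vale.Agent.P074.Defs
import Mathlib.MeasureTheory.Covering.DensityTheorem
import Mathlib.MeasureTheory.Measure.Haar.Unique
import Mathlib.MeasureTheory.Measure.Lebesgue.EqHaar
import Mathlib.MeasureTheory.Integral.Average
import Mathlib.Analysis.Convex.Measure
import Mathlib.Logic.Equiv.Fin.Rotate
import Mathlib.MeasureTheory.Function.L2Space
import Mathlib.MeasureTheory.Function.SpecialFunctions.Inner

/-!
Optimal maps are cyclically monotone, hence carry a Rockafellar potential.
-/

open MeasureTheory Finset Filter Topology Metric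
open scoped ENNReal NNReal RealInnerProductSpace

namespace Vale.Agent.P074

variable {d : ℕ}

/-- Points at which moving averages of `T` converge to its value. -/
def goodPoints (K : Set (Space d)) (T : Space d → Space d) : Set (Space d) :=
  {x | x ∈ interior K ∧ ∀ (k : ℕ) (w : ℝ → Space d),
    (∀ᶠ r in 𝓝[>] (0 : ℝ), x ∈ closedBall (w r) ((k : ℝ) * r)) →
      Tendsto (fun r => ⨍ y in closedBall (w r) r, T y) (𝓝[>] 0) (𝓝 (T x))}

theorem locallyIntegrable_of_bounded {T : Space d → Space d} (hT : Measurable T) {R : ℝ}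
    (hR : ∀ x, ‖T x‖ ≤ R) : LocallyIntegrable T volume := fun x =>
  ⟨ball x 1, ball_mem_nhds x one_pos, IntegrableOn.of_bound measure_ball_lt_top
    hT.aestronglyMeasurable.restrict R (Eventually.of_forall hR)⟩

theorem ae_mem_goodPoints {K : Set (Space d)} (hK : Convex ℝ K) {T : Space d → Space d}
    (hT : LocallyIntegrable T volume) :
    ∀ᵐ x ∂volume.restrict K, x ∈ goodPoints K T := by
  have h1 : ∀ᵐ x ∂(volume : Measure (Space d)), ∀ (k : ℕ) (w : ℝ → Space d),
      (∀ᶠ r in 𝓝[>] (0 : ℝ), x ∈ closedBall (w r) ((k : ℝ) * r)) →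
        Tendsto (fun r => ⨍ y in closedBall (w r) r, T y) (𝓝[>] 0) (𝓝 (T x)) := by
    refine ae_all_iff.2 fun k => ?_
    filter_upwards [IsUnifLocDoublingMeasure.ae_tendsto_average (μ := volume) hT (k : ℝ)] with x hx
      w hw
    exact hx w (fun r => r) tendsto_id hw
  have h2 : ∀ᵐ x ∂volume.restrict K, x ∈ interior K := by
    have h3 : ∀ᵐ x ∂(volume : Measure (Space d)), x ∉ frontier K :=
      measure_eq_zero_iff_ae_notMem.1 (hK.addHaar_frontier volume)
    filter_upwards [ae_restrict_mem₀ (hK.nullMeasurableSet volume),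
      ae_restrict_of_ae h3] with x hx hx'
    by_contra hc
    exact hx' ⟨subset_closure hx, hc⟩
  filter_upwards [h2, ae_restrict_of_ae h1] with x hx hx' using ⟨hx, hx'⟩

open Classical in
/-- A translation on each of finitely many balls. -/
noncomputable def shuffle {ι : Type*} [Fintype ι] (c : ι → Space d) (v : ι → Space d) (r : ℝ)
    (z : Space d) : Space d :=
  z + ∑ i, if z ∈ closedBall (c i) r then v i else 0

variable {ι : Type*} [Fintype ι] {c : ι → Space d} {r : ℝ}

theorem measurable_shuffle (v : ι → Space d) : Measurable (shuffle c v r) := by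
  classical
  exact measurable_id.add (Finset.measurable_sum _ fun i _ =>
    Measurable.ite measurableSet_closedBall measurable_const measurable_const)

theorem shuffle_of_mem (v : ι → Space d)
    (hd : ∀ i j, i ≠ j → Disjoint (closedBall (c i) r) (closedBall (c j) r)) {i : ι} {z : Space d}
    (hz : z ∈ closedBall (c i) r) : shuffle c v r z = z + v i := by
  classical
  rw [shuffle, sum_eq_single i (fun j _ hj => if_neg fun hzj => Set.disjoint_left.1 (hd j i hj) hzj hz)
    (fun h => absurd (mem_univ i) h), if_pos hz]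

theorem shuffle_of_notMem (v : ι → Space d) {z : Space d} (hz : ∀ i, z ∉ closedBall (c i) r) :
    shuffle c v r z = z := by
  classical
  rw [shuffle, sum_eq_zero (fun i _ => if_neg (hz i)), add_zero]

theorem measurePreserving_sub_closedBall (a b : Space d) (r : ℝ) :
    MeasurePreserving (fun z => z + (b - a)) (volume.restrict (closedBall a r))
      (volume.restrict (closedBall b r)) := by
  have h := (measurePreserving_add_right (volume : Measure (Space d)) (b - a)).restrict_preimage
    (s := closedBall b r) measurableSet_closedBall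
  have e : (fun z => z + (b - a)) ⁻¹' closedBall b r = closedBall a r := by
    ext z
    simp only [Set.mem_preimage, mem_closedBall, dist_eq_norm]
    rw [show z + (b - a) - b = z - a by abel]
  rwa [e] at h

theorem integral_ball_translate (a b : Space d) (r : ℝ) (f : Space d → ℝ) :
    ∫ z in closedBall a r, f (z + (b - a)) = ∫ z in closedBall b r, f z := by
  have h := (measurePreserving_sub_closedBall a b r).integral_comp
    (MeasurableEquiv.addRight (b - a)).measurableEmbedding f
  exact h

theorem decompose_balls {K : Set (Space d)} (hsub : ∀ i, closedBall (c i) r ⊆ K)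
    (hd : ∀ i j, i ≠ j → Disjoint (closedBall (c i) r) (closedBall (c j) r)) :
    volume.restrict K = volume.restrict (K \ ⋃ i, closedBall (c i) r)
      + ∑ i, volume.restrict (closedBall (c i) r) := by
  have hU : MeasurableSet (⋃ i, closedBall (c i) r) :=
    MeasurableSet.iUnion fun i => measurableSet_closedBall
  rw [← Measure.restrict_inter_add_diff K hU, add_comm,
    Set.inter_eq_right.2 (Set.iUnion_subset hsub),
    Measure.restrict_iUnion (fun i j hij => hd i j hij) (fun i => measurableSet_closedBall),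
    Measure.sum_fintype]

theorem measurePreserving_shuffle {K : Set (Space d)} (hKm : MeasurableSet K)
    (hsub : ∀ i, closedBall (c i) r ⊆ K)
    (hd : ∀ i j, i ≠ j → Disjoint (closedBall (c i) r) (closedBall (c j) r)) (σ : Equiv.Perm ι) :
    MeasurePreserving (shuffle c (fun i => c (σ i) - c i) r) (volume.restrict K)
      (volume.restrict K) := by
  refine ⟨measurable_shuffle _, ?_⟩
  set P := shuffle c (fun i => c (σ i) - c i) r with hP
  conv_lhs => rw [decompose_balls hsub hd]
  conv_rhs => rw [decompose_balls hsub hd]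
  rw [Measure.map_add _ _ (measurable_shuffle _)]
  have hU : MeasurableSet (⋃ i, closedBall (c i) r) :=
    MeasurableSet.iUnion fun i => measurableSet_closedBall
  congr 1
  · have : P =ᵐ[volume.restrict (K \ ⋃ i, closedBall (c i) r)] id := by
      filter_upwards [ae_restrict_mem (hKm.diff hU)] with z hz
      exact shuffle_of_notMem _ fun i hi => hz.2 (Set.mem_iUnion.2 ⟨i, hi⟩)
    rw [Measure.map_congr this, Measure.map_id]
  · rw [← Measure.mapₗ_apply_of_measurable (measurable_shuffle _), map_sum,
      ← Equiv.sum_comp σ fun i => volume.restrict (closedBall (c i) r)]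
    refine sum_congr rfl fun i _ => ?_
    rw [Measure.mapₗ_apply_of_measurable (measurable_shuffle _)]
    have : P =ᵐ[volume.restrict (closedBall (c i) r)] fun z => z + (c (σ i) - c i) := by
      filter_upwards [ae_restrict_mem measurableSet_closedBall] with z hz
      exact shuffle_of_mem _ hd hz
    rw [Measure.map_congr this, (measurePreserving_sub_closedBall _ _ r).map_eq]

/-- `T` maximises the correlation among its rearrangements. -/
def IsBestRearrangement (K : Set (Space d)) (T : Space d → Space d) : Prop :=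
  ∀ P : Space d → Space d, MeasurePreserving P (volume.restrict K) (volume.restrict K) →
    ∫ z in K, ⟪z, T (P z)⟫ ≤ ∫ z in K, ⟪z, T z⟫

theorem integrableOn_inner {K : Set (Space d)} (hK : IsCompact K) {T : Space d → Space d}
    (hT : Measurable T) {R : ℝ} (hR : ∀ x, ‖T x‖ ≤ R) :
    IntegrableOn (fun z => ⟪z, T z⟫) K := by
  obtain ⟨b, hb⟩ := hK.isBounded.exists_norm_le
  refine IntegrableOn.of_bound hK.measure_lt_top
    (measurable_id.inner hT).aestronglyMeasurable.restrict (b * R) ?_
  filter_upwards [ae_restrict_mem hK.measurableSet] with z hz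
  exact (norm_inner_le_norm _ _).trans
    (mul_le_mul (hb z hz) (hR z) (norm_nonneg _) (le_trans (norm_nonneg _) (hb z hz)))

theorem cycle_balls {K : Set (Space d)} (hK : IsCompact K) {T : Space d → Space d}
    (hT : Measurable T) {R : ℝ} (hR : ∀ x, ‖T x‖ ≤ R) (hbest : IsBestRearrangement K T)
    (hsub : ∀ i, closedBall (c i) r ⊆ K)
    (hd : ∀ i j, i ≠ j → Disjoint (closedBall (c i) r) (closedBall (c j) r)) (σ : Equiv.Perm ι) :
    0 ≤ ∑ i, ⟪c (σ i) - c i, ∫ y in closedBall (c (σ i)) r, T y⟫ := by
  set P := shuffle c (fun i => c (σ i) - c i) r with hP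
  have hPm : Measurable P := measurable_shuffle _
  set F := fun z => ⟪z, T (P z)⟫ with hF
  set G := fun z => ⟪z, T z⟫ with hG
  have hFi : IntegrableOn F K := integrableOn_inner hK (hT.comp hPm) (R := R) fun z => hR _
  have hGi : IntegrableOn G K := integrableOn_inner hK hT hR
  have h := hbest P (measurePreserving_shuffle hK.measurableSet hsub hd σ)
  have hdec : ∀ f : Space d → ℝ, IntegrableOn f K →
      ∫ z in K, f z = (∫ z in K \ ⋃ i, closedBall (c i) r, f z)
        + ∑ i, ∫ z in closedBall (c i) r, f z := by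
    intro f hf
    conv_lhs => rw [decompose_balls hsub hd]
    rw [integral_add_measure (hf.mono_set Set.sdiff_subset),
      integral_finsetSum_measure fun i _ => hf.mono_set (hsub i)]
    exact integrable_finsetSum_measure.2 fun i _ => hf.mono_set (hsub i)
  rw [hdec F hFi, hdec G hGi] at h
  have hrest : ∫ z in K \ ⋃ i, closedBall (c i) r, F z
      = ∫ z in K \ ⋃ i, closedBall (c i) r, G z := by
    refine setIntegral_congr_fun
      (hK.measurableSet.diff (MeasurableSet.iUnion fun i => measurableSet_closedBall)) fun z hz => ?_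
    simp only [hF, hG, hP]
    rw [shuffle_of_notMem _ fun i hi => hz.2 (Set.mem_iUnion.2 ⟨i, hi⟩)]
  have hball : ∀ i, ∫ z in closedBall (c i) r, F z
      = (∫ w in closedBall (c (σ i)) r, G w)
        - ⟪c (σ i) - c i, ∫ w in closedBall (c (σ i)) r, T w⟫ := by
    intro i
    have hTi : IntegrableOn T (closedBall (c (σ i)) r) :=
      IntegrableOn.of_bound measure_closedBall_lt_top hT.aestronglyMeasurable.restrict R
        (Eventually.of_forall hR)
    calc ∫ z in closedBall (c i) r, F z
        = ∫ z in closedBall (c i) r,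
            (fun w => ⟪w - (c (σ i) - c i), T w⟫) (z + (c (σ i) - c i)) := by
          refine setIntegral_congr_fun measurableSet_closedBall fun z hz => ?_
          simp only [hF, hP, shuffle_of_mem _ hd hz, add_sub_cancel_right]
      _ = ∫ w in closedBall (c (σ i)) r, ⟪w - (c (σ i) - c i), T w⟫ :=
          integral_ball_translate (c i) (c (σ i)) r fun w => ⟪w - (c (σ i) - c i), T w⟫
      _ = _ := by
          have hG' : IntegrableOn (fun w => ⟪w, T w⟫) (closedBall (c (σ i)) r) :=
            hGi.mono_set (hsub _)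
          have hv : IntegrableOn (fun w => ⟪c (σ i) - c i, T w⟫) (closedBall (c (σ i)) r) :=
            hTi.const_inner _
          simp only [fun w : Space d => inner_sub_left (𝕜 := ℝ) w (c (σ i) - c i) (T w)]
          rw [integral_sub hG' hv, integral_inner hTi]
  simp only [hball, sum_sub_distrib] at h
  rw [hrest, Equiv.sum_comp σ fun i => ∫ w in closedBall (c i) r, G w] at h
  linarith

/-- Cyclical monotonicity at good points. -/
theorem cyclic_monotone [NeZero d] {K : Set (Space d)} (hK : IsCompact K)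
    {T : Space d → Space d} (hT : Measurable T) {R : ℝ} (hR : ∀ x, ‖T x‖ ≤ R)
    (hbest : IsBestRearrangement K T) {m : ℕ} (x : Fin m → Space d)
    (hx : ∀ i, x i ∈ goodPoints K T) (σ : Equiv.Perm (Fin m)) :
    0 ≤ ∑ i, ⟪x (σ i) - x i, T (x (σ i))⟫ := by
  classical
  set e : Space d := EuclideanSpace.single 0 1 with he
  have hen : ‖e‖ = 1 := by simp [he]
  let w : Fin m → ℝ → Space d := fun i r => x i + (3 * r * (i : ℕ)) • e
  have hw : ∀ i r, 0 ≤ r → dist (x i) (w i r) ≤ 3 * (m : ℝ) * r := by
    intro i r hr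
    simp only [w, dist_eq_norm, sub_add_cancel_left, norm_neg, norm_smul, hen, mul_one,
      Real.norm_eq_abs]
    rw [abs_of_nonneg (by positivity)]
    have : ((i : ℕ) : ℝ) ≤ m := by exact_mod_cast i.2.le
    nlinarith
  have hlim : ∀ i, Tendsto (fun r => ⨍ y in closedBall (w i r) r, T y) (𝓝[>] 0) (𝓝 (T (x i))) := by
    intro i
    refine (hx i).2 (3 * m) (w i) ?_
    filter_upwards [self_mem_nhdsWithin] with r hr
    rw [mem_closedBall]
    push_cast
    exact hw i r (le_of_lt hr)
  have hwlim : ∀ i, Tendsto (w i) (𝓝[>] 0) (𝓝 (x i)) := by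
    intro i
    have : Tendsto (w i) (𝓝 0) (𝓝 (x i + (3 * 0 * ((i : ℕ) : ℝ)) • e)) :=
      Continuous.tendsto (by fun_prop) 0
    simp only [mul_zero, zero_mul, zero_smul, add_zero] at this
    exact this.mono_left nhdsWithin_le_nhds
  have hl : Tendsto (fun r => ∑ i, ⟪w (σ i) r - w i r, ⨍ y in closedBall (w (σ i) r) r, T y⟫)
      (𝓝[>] 0) (𝓝 (∑ i, ⟪x (σ i) - x i, T (x (σ i))⟫)) :=
    tendsto_finsetSum _ fun i _ => ((hwlim (σ i)).sub (hwlim i)).inner (hlim (σ i))
  have hsep : ∀ᶠ r in 𝓝[>] (0 : ℝ), ∀ i j, i ≠ j →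
      Disjoint (closedBall (w i r) r) (closedBall (w j r) r) := by
    refine eventually_all.2 fun i => eventually_all.2 fun j => ?_
    by_cases hxij : x i = x j
    · filter_upwards [self_mem_nhdsWithin] with r (hr : 0 < r) hij
      refine closedBall_disjoint_closedBall ?_
      simp only [w, dist_eq_norm, hxij, add_sub_add_left_eq_sub, ← sub_smul, norm_smul, hen,
        mul_one, Real.norm_eq_abs, ← mul_sub, abs_mul]
      have h1 : (1 : ℝ) ≤ |((i : ℕ) : ℝ) - ((j : ℕ) : ℝ)| := by
        have hne : ((i : ℕ) : ℤ) - ((j : ℕ) : ℤ) ≠ 0 := by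
          simpa [sub_eq_zero, Fin.val_inj] using hij
        have := Int.one_le_abs hne
        exact_mod_cast this
      rw [abs_of_pos (by norm_num : (0 : ℝ) < 3), abs_of_pos hr]
      nlinarith
    · have hr : Tendsto (fun r => dist (w i r) (w j r) - (r + r)) (𝓝[>] 0)
          (𝓝 (dist (x i) (x j) - (0 + 0))) :=
        ((hwlim i).dist (hwlim j)).sub (tendsto_nhdsWithin_of_tendsto_nhds
          (tendsto_id.add tendsto_id))
      filter_upwards [hr.eventually (eventually_gt_nhds (show (0 : ℝ) < dist (x i) (x j) - (0 + 0) by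
        simpa using dist_pos.2 hxij))] with r hr _
      exact closedBall_disjoint_closedBall (by linarith)
  have hin : ∀ᶠ r in 𝓝[>] (0 : ℝ), ∀ i, closedBall (w i r) r ⊆ K := by
    refine eventually_all.2 fun i => ?_
    obtain ⟨ε, hε, hsub⟩ := Metric.isOpen_iff.1 isOpen_interior (x i) (hx i).1
    filter_upwards [(hwlim i).eventually (ball_mem_nhds (x i) (half_pos hε)),
      (tendsto_nhdsWithin_of_tendsto_nhds tendsto_id : Tendsto (fun r : ℝ => r) (𝓝[>] 0) (𝓝 0))
        |>.eventually (eventually_lt_nhds (half_pos hε))] with r h1 h2 y hy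
    refine interior_subset (hsub ?_)
    rw [mem_closedBall] at hy
    rw [mem_ball]
    linarith [dist_triangle y (w i r) (x i)]
  refine ge_of_tendsto hl ?_
  filter_upwards [hsep, hin, self_mem_nhdsWithin] with r hd hsub (hr : 0 < r)
  have h := cycle_balls hK hT hR hbest hsub hd σ
  have hv : ∀ i, volume.real (closedBall (w i r) r) = volume.real (closedBall (0 : Space d) r) :=
    fun i => by simp only [measureReal_def, Measure.addHaar_closedBall_center]
  simp only [setAverage_eq, inner_smul_right, hv, ← mul_sum]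
  exact mul_nonneg (inv_nonneg.2 measureReal_nonneg) h

/-- The value of a chain at `w`. -/
noncomputable def chainVal (T : Space d → Space d) (z : ℕ → Space d) (n : ℕ) (w : Space d) : ℝ :=
  (∑ i ∈ range n, ⟪z (i + 1) - z i, T (z i)⟫) + ⟪w - z n, T (z n)⟫

/-- Chains in `Γ` starting at `x₀`. -/
def chains (Γ : Set (Space d)) (x₀ : Space d) : Set ((ℕ → Space d) × ℕ) :=
  {p | p.1 0 = x₀ ∧ ∀ i, i ≤ p.2 → p.1 i ∈ Γ}

/-- The Rockafellar potential. -/
noncomputable def rock (Γ : Set (Space d)) (x₀ : Space d) (T : Space d → Space d) (w : Space d) :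
    ℝ :=
  sSup ((fun p => chainVal T p.1 p.2 w) '' chains Γ x₀)

/-- A convex Lipschitz potential for `T` on `K`. -/
structure IsPotential (K : Set (Space d)) (T : Space d → Space d) (R : ℝ) (φ : Space d → ℝ) :
    Prop where
  lip : ∀ a b, φ a - φ b ≤ R * ‖a - b‖
  mid : ∀ a v, 2 * φ a ≤ φ (a + v) + φ (a - v)
  subgrad : ∀ᵐ x ∂volume.restrict K, ∀ w, φ x + ⟪w - x, T x⟫ ≤ φ w

theorem exists_potential [NeZero d] {K : Set (Space d)} (hK : IsCompact K) (hKc : Convex ℝ K)
    {T : Space d → Space d} (hT : Measurable T) {R : ℝ} (hR : ∀ x, ‖T x‖ ≤ R)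
    (hbest : IsBestRearrangement K T) : ∃ φ, IsPotential K T R φ := by
  have hR0 : 0 ≤ R := le_trans (norm_nonneg _) (hR 0)
  rcases Set.eq_empty_or_nonempty (goodPoints K T) with hΓ | ⟨x₀, hx₀⟩
  · refine ⟨fun _ => 0, ⟨fun a b => ?_, fun a v => by simp, ?_⟩⟩
    · rw [sub_self]; positivity
    · filter_upwards [ae_mem_goodPoints hKc (locallyIntegrable_of_bounded hT hR)] with x hx
      rw [hΓ] at hx
      exact absurd hx (Set.notMem_empty x)
  set Γ := goodPoints K T
  have hne : ∀ w, ((fun p => chainVal T p.1 p.2 w) '' chains Γ x₀).Nonempty := fun w =>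
    ⟨_, Set.mem_image_of_mem _ (show ((fun _ => x₀, 0) : (ℕ → Space d) × ℕ) ∈ chains Γ x₀ from
      ⟨rfl, fun _ _ => hx₀⟩)⟩
  have hbound : ∀ p ∈ chains Γ x₀, ∀ w, chainVal T p.1 p.2 w ≤ R * ‖w - x₀‖ := by
    rintro ⟨z, n⟩ ⟨hz0, hz⟩ w
    dsimp only at hz0 hz ⊢
    have hc := cyclic_monotone hK hT hR hbest (fun i : Fin (n + 1) => z i)
      (fun i => hz _ (Nat.lt_succ_iff.1 i.2)) (finRotate (n + 1)).symm
    rw [← Equiv.sum_comp (finRotate (n + 1))] at hc
    simp only [Equiv.symm_apply_apply] at hc
    rw [Fin.sum_univ_castSucc] at hc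
    simp only [finRotate_apply, Fin.coeSucc_eq_succ, Fin.val_succ, Fin.val_castSucc,
      Fin.last_add_one, Fin.val_zero, Fin.val_last] at hc
    rw [Fin.sum_univ_eq_sum_range (fun i => ⟪z i - z (i + 1), T (z i)⟫) n, hz0] at hc
    have e1 : ∑ i ∈ range n, ⟪z i - z (i + 1), T (z i)⟫
        = -∑ i ∈ range n, ⟪z (i + 1) - z i, T (z i)⟫ := by
      rw [← sum_neg_distrib]
      exact sum_congr rfl fun i _ => by rw [← inner_neg_left, neg_sub]
    have e2 : ⟪w - z n, T (z n)⟫ = ⟪w - x₀, T (z n)⟫ - ⟪z n - x₀, T (z n)⟫ := by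
      rw [← inner_sub_left]; congr 1; abel
    have e3 : ⟪w - x₀, T (z n)⟫ ≤ R * ‖w - x₀‖ :=
      (real_inner_le_norm _ _).trans (by rw [mul_comm]; gcongr; exact hR _)
    simp only [chainVal]
    linarith
  have hbdd : ∀ w, BddAbove ((fun p => chainVal T p.1 p.2 w) '' chains Γ x₀) := fun w =>
    ⟨R * ‖w - x₀‖, by rintro _ ⟨p, hp, rfl⟩; exact hbound p hp w⟩
  have hle : ∀ p ∈ chains Γ x₀, ∀ w, chainVal T p.1 p.2 w ≤ rock Γ x₀ T w := fun p hp w =>
    le_csSup (hbdd w) (Set.mem_image_of_mem _ hp)
  refine ⟨rock Γ x₀ T, ⟨fun a b => ?_, fun a v => ?_, ?_⟩⟩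
  · rw [sub_le_iff_le_add]
    refine csSup_le (hne a) ?_
    rintro _ ⟨p, hp, rfl⟩
    have := hle p hp b
    have e : chainVal T p.1 p.2 a = chainVal T p.1 p.2 b + ⟪a - b, T (p.1 p.2)⟫ := by
      simp only [chainVal, inner_sub_left]; ring
    have e3 : ⟪a - b, T (p.1 p.2)⟫ ≤ R * ‖a - b‖ :=
      (real_inner_le_norm _ _).trans (by rw [mul_comm]; gcongr; exact hR _)
    simp only
    linarith
  · rw [← le_div_iff₀' two_pos]
    refine csSup_le (hne a) ?_
    rintro _ ⟨p, hp, rfl⟩
    rw [le_div_iff₀' two_pos]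
    have h1 := hle p hp (a + v)
    have h2 := hle p hp (a - v)
    simp only [chainVal, inner_sub_left, inner_add_left] at *
    linarith
  · filter_upwards [ae_mem_goodPoints hKc (locallyIntegrable_of_bounded hT hR)] with x hx w
    rw [← le_sub_iff_add_le]
    refine csSup_le (hne x) ?_
    rintro _ ⟨⟨z, n⟩, ⟨hz0, hz⟩, rfl⟩
    dsimp only at hz0 hz ⊢
    rw [le_sub_iff_add_le]
    let z' : ℕ → Space d := fun i => if i ≤ n then z i else x
    have hp' : ((z', n + 1) : (ℕ → Space d) × ℕ) ∈ chains Γ x₀ := by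
      refine ⟨by simp [z', hz0], fun i _ => ?_⟩
      dsimp only [z']
      split_ifs with hi
      · exact hz i hi
      · exact hx
    refine le_trans (le_of_eq ?_) (hle _ hp' w)
    simp only [chainVal, sum_range_succ]
    have e1 : ∀ i ∈ range n, ⟪z' (i + 1) - z' i, T (z' i)⟫ = ⟪z (i + 1) - z i, T (z i)⟫ := by
      intro i hi
      have hi' := mem_range.1 hi
      simp [z', show i + 1 ≤ n by omega, hi'.le]
    rw [sum_congr rfl e1]
    simp [z']

end Vale.Agent.P074
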