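import Mathlib.MeasureTheory.Constructions.Pi
import Mathlib.MeasureTheory.Integral.Layercake
import Mathlib.MeasureTheory.Measure.Haar.OfBasis
import Mathlib.MeasureTheory.Measure.Lebesgue.Basic
import Mathlib.MeasureTheory.Measure.Regular
import Mathlib.MeasureTheory.Group.Measure
import Mathlib.MeasureTheory.Measure.Haar.InnerProductSpace

/-!
The midpoint form of the Prékopa–Leindler inequality.
-/

open MeasureTheory Set
open scoped ENNReal Pointwise

namespace Vale.Agent.P074

/-- The one dimensional Brunn–Minkowski inequality, for a set containing all midpoints. -/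
theorem volume_add_volume_le {A B H : Set ℝ} (hA : MeasurableSet A) (hB : MeasurableSet B)
    (hAn : A.Nonempty) (hBn : B.Nonempty)
    (h : ∀ x ∈ A, ∀ y ∈ B, (x + y) / 2 ∈ H) : volume A + volume B ≤ 2 * volume H := by
  have key : ∀ C D : Set ℝ, IsCompact C → IsCompact D → C.Nonempty → D.Nonempty →
      C ⊆ A → D ⊆ B → volume C + volume D ≤ 2 * volume H := by
    intro C D hC hD hCn hDn hCA hDB
    obtain ⟨a, ha, haMax⟩ := hC.exists_isGreatest hCn
    obtain ⟨b, hb, hbMin⟩ := hD.exists_isLeast hDn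
    set C' := (fun s => s - b) ⁻¹' C with hC'
    set D' := (fun s => s - a) ⁻¹' D with hD'
    have hsub : C' ∪ D' ⊆ (fun s => (1 / 2 : ℝ) * s) ⁻¹' H := by
      rintro s (hs | hs)
      · show (1 / 2 : ℝ) * s ∈ H
        rw [show (1 / 2 : ℝ) * s = ((s - b) + b) / 2 by ring]
        exact h _ (hCA hs) b (hDB hb)
      · show (1 / 2 : ℝ) * s ∈ H
        rw [show (1 / 2 : ℝ) * s = (a + (s - a)) / 2 by ring]
        exact h a (hCA ha) _ (hDB hs)
    have hint : volume (C' ∩ D') = 0 := by
      refine measure_mono_null (fun s hs => ?_) (measure_singleton (a + b))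
      have h1 := haMax hs.1
      have h2 := hbMin hs.2
      simp only [mem_singleton_iff] at h1 h2 ⊢
      linarith
    have hD'm : MeasurableSet D' := hD.measurableSet.preimage (measurable_sub_const a)
    calc volume C + volume D = volume C' + volume D' := by
          simp only [hC', hD', sub_eq_add_neg, measure_preimage_add_right]
      _ = volume (C' ∪ D') + volume (C' ∩ D') := (measure_union_add_inter C' hD'm).symm
      _ ≤ volume ((fun s => (1 / 2 : ℝ) * s) ⁻¹' H) := by
          rw [hint, add_zero]; exact measure_mono hsub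
      _ = 2 * volume H := by
          rw [Real.volume_preimage_mul_left (by norm_num : (1 / 2 : ℝ) ≠ 0)]
          norm_num
  obtain ⟨a, ha⟩ := hAn
  obtain ⟨b, hb⟩ := hBn
  rw [hA.measure_eq_iSup_isCompact, hB.measure_eq_iSup_isCompact]
  simp only [iSup_and']
  refine ENNReal.biSup_add_biSup_le' ⟨∅, empty_subset _, isCompact_empty⟩
    ⟨∅, empty_subset _, isCompact_empty⟩ fun C hC D hD => ?_
  exact le_trans (add_le_add (measure_mono (subset_insert a C))
    (measure_mono (subset_insert b D))) (key _ _ (hC.2.insert a) (hD.2.insert b)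
      (insert_nonempty _ _) (insert_nonempty _ _) (insert_subset ha hC.1) (insert_subset hb hD.1))

theorem sq_add_le_sq {F G H : ℝ≥0∞} (h : F + G ≤ 2 * H) : F * G ≤ H ^ 2 := by
  have h4 : 4 * (F * G) ≤ 4 * H ^ 2 := by
    calc 4 * (F * G) = 4 * F * G := by ring
      _ ≤ (F + G) ^ 2 := by
          rcases eq_or_ne F ⊤ with rfl | hF
          · simp
          rcases eq_or_ne G ⊤ with rfl | hG
          · simp
          lift F to NNReal using hF
          lift G to NNReal using hG
          exact_mod_cast four_mul_le_sq_add F G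
      _ ≤ (2 * H) ^ 2 := by gcongr
      _ = 4 * H ^ 2 := by ring
  rwa [ENNReal.mul_le_mul_iff_right (by norm_num) (by norm_num)] at h4

/-- The bounded normalised one dimensional case. -/
theorem pl_normalised {f g h : ℝ → ℝ} (hf : Measurable f) (hg : Measurable g) (hh : Measurable h)
    (hf0 : ∀ x, 0 ≤ f x) (hg0 : ∀ x, 0 ≤ g x) (hh0 : ∀ x, 0 ≤ h x)
    (hf1 : ∀ x, f x ≤ 1) (hg1 : ∀ x, g x ≤ 1)
    (hfs : ∀ u < 1, ∃ x, u < f x) (hgs : ∀ u < 1, ∃ x, u < g x)
    (hyp : ∀ x y, f x * g y ≤ h ((x + y) / 2) ^ 2) :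
    (∫⁻ x, ENNReal.ofReal (f x)) + ∫⁻ x, ENNReal.ofReal (g x)
      ≤ 2 * ∫⁻ x, ENNReal.ofReal (h x) := by
  rw [lintegral_eq_lintegral_meas_lt volume (Filter.Eventually.of_forall hf0) hf.aemeasurable,
    lintegral_eq_lintegral_meas_lt volume (Filter.Eventually.of_forall hg0) hg.aemeasurable,
    lintegral_eq_lintegral_meas_lt volume (Filter.Eventually.of_forall hh0) hh.aemeasurable,
    ← lintegral_add_left (f := fun t => volume {a : ℝ | t < f a})
      (Antitone.measurable fun s t hst => measure_mono fun x (hx : t < f x) => lt_of_le_of_lt hst hx),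
    ← lintegral_const_mul' _ _ (by norm_num)]
  refine setLIntegral_mono' measurableSet_Ioi fun u hu => ?_
  rcases lt_or_ge u 1 with hu1 | hu1
  · refine volume_add_volume_le (measurableSet_lt measurable_const hf)
      (measurableSet_lt measurable_const hg) (hfs u hu1) (hgs u hu1) fun x hx y hy => ?_
    have h1 : u * u < f x * g y := mul_lt_mul'' hx hy hu.out.le hu.out.le
    show u < h ((x + y) / 2)
    exact lt_of_pow_lt_pow_left₀ 2 (hh0 _) (by rw [pow_two]; exact h1.trans_le (hyp x y))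
  · rw [show {a : ℝ | u < f a} = ∅ from eq_empty_of_forall_notMem fun x hx =>
        absurd (hx.out.trans_le (hf1 x)) (not_lt.2 hu1),
      show {a : ℝ | u < g a} = ∅ from eq_empty_of_forall_notMem fun x hx =>
        absurd (hx.out.trans_le (hg1 x)) (not_lt.2 hu1)]
    simp

theorem pl_bounded {f g h : ℝ → ℝ} {M : ℝ} (hf : Measurable f) (hg : Measurable g)
    (hh : Measurable h) (hf0 : ∀ x, 0 ≤ f x) (hg0 : ∀ x, 0 ≤ g x) (hh0 : ∀ x, 0 ≤ h x)
    (hfM : ∀ x, f x ≤ M) (hgM : ∀ x, g x ≤ M)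
    (hyp : ∀ x y, f x * g y ≤ h ((x + y) / 2) ^ 2) :
    (∫⁻ x, ENNReal.ofReal (f x)) * ∫⁻ x, ENNReal.ofReal (g x)
      ≤ (∫⁻ x, ENNReal.ofReal (h x)) ^ 2 := by
  have hfb : BddAbove (range f) := ⟨M, forall_mem_range.2 hfM⟩
  have hgb : BddAbove (range g) := ⟨M, forall_mem_range.2 hgM⟩
  set s := ⨆ x, f x with hs
  set t := ⨆ x, g x with ht
  rcases le_or_gt s 0 with hs0 | hs0
  · have : ∀ x, f x = 0 := fun x => le_antisymm ((le_ciSup hfb x).trans hs0) (hf0 x)
    simp [this]
  rcases le_or_gt t 0 with ht0 | ht0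
  · have : ∀ x, g x = 0 := fun x => le_antisymm ((le_ciSup hgb x).trans ht0) (hg0 x)
    simp [this]
  have hst : 0 < Real.sqrt (s * t) := Real.sqrt_pos.2 (mul_pos hs0 ht0)
  have key := pl_normalised (f := fun x => f x / s) (g := fun x => g x / t)
    (h := fun x => h x / Real.sqrt (s * t)) (hf.div_const _) (hg.div_const _) (hh.div_const _)
    (fun x => div_nonneg (hf0 x) hs0.le) (fun x => div_nonneg (hg0 x) ht0.le)
    (fun x => div_nonneg (hh0 x) hst.le) (fun x => (div_le_one hs0).2 (le_ciSup hfb x))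
    (fun x => (div_le_one ht0).2 (le_ciSup hgb x))
    (fun u hu => by
      obtain ⟨x, hx⟩ := exists_lt_of_lt_ciSup (f := f) (show u * s < ⨆ x, f x from mul_lt_of_lt_one_left hs0 hu)
      exact ⟨x, (lt_div_iff₀ hs0).2 hx⟩)
    (fun u hu => by
      obtain ⟨x, hx⟩ := exists_lt_of_lt_ciSup (f := g) (show u * t < ⨆ x, g x from mul_lt_of_lt_one_left ht0 hu)
      exact ⟨x, (lt_div_iff₀ ht0).2 hx⟩)
    (fun x y => by
      rw [div_pow, Real.sq_sqrt (mul_pos hs0 ht0).le, div_mul_div_comm]
      exact div_le_div_of_nonneg_right (hyp x y) (mul_pos hs0 ht0).le)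
  have e : ∀ (F : ℝ → ℝ) (c : ℝ), 0 < c → Measurable F →
      ∫⁻ x, ENNReal.ofReal (F x) = ENNReal.ofReal c * ∫⁻ x, ENNReal.ofReal (F x / c) := by
    intro F c hc hF
    rw [← lintegral_const_mul' _ _ ENNReal.ofReal_ne_top]
    refine lintegral_congr fun x => ?_
    rw [← ENNReal.ofReal_mul hc.le, mul_div_cancel₀ _ hc.ne']
  rw [e f s hs0 hf, e g t ht0 hg, e h _ hst hh, mul_pow, ← ENNReal.ofReal_pow hst.le,
    Real.sq_sqrt (mul_pos hs0 ht0).le, mul_mul_mul_comm, ← ENNReal.ofReal_mul hs0.le]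
  exact mul_le_mul' le_rfl (sq_add_le_sq key)

/-- The one dimensional Prékopa–Leindler inequality. -/
theorem pl_one {f g h : ℝ → ℝ≥0∞} (hf : Measurable f) (hg : Measurable g) (hh : Measurable h)
    (hyp : ∀ x y, f x * g y ≤ h ((x + y) / 2) ^ 2) :
    (∫⁻ x, f x) * ∫⁻ x, g x ≤ (∫⁻ x, h x) ^ 2 := by
  have hlim : ∀ F : ℝ → ℝ≥0∞, Measurable F →
      ∫⁻ x, F x = ⨆ n : ℕ, ∫⁻ x, min (F x) n := by
    intro F hF
    rw [← lintegral_iSup (fun n => hF.min measurable_const)
      fun i j hij x => min_le_min le_rfl (by exact_mod_cast hij)]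
    refine lintegral_congr fun x => le_antisymm ?_ (iSup_le fun n => min_le_left _ _)
    rcases eq_or_ne (F x) ⊤ with hx | hx
    · simp [hx, ENNReal.iSup_natCast]
    · obtain ⟨n, hn⟩ := ENNReal.exists_nat_gt hx
      exact le_iSup_of_le n (le_min le_rfl hn.le)
  have hfix : ∀ (F : ℝ → ℝ≥0∞) (n : ℕ), ∫⁻ x, min (F x) n
      = ∫⁻ x, ENNReal.ofReal (min (F x) n).toReal := fun F n => lintegral_congr fun x => by
    rw [ENNReal.ofReal_toReal (ne_top_of_le_ne_top (ENNReal.natCast_ne_top n) (min_le_right _ _))]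
  have key : ∀ i j : ℕ, (∫⁻ x, min (f x) i) * ∫⁻ x, min (g x) j ≤ (∫⁻ x, h x) ^ 2 := by
    intro i j
    set n := max i j
    refine (mul_le_mul' (lintegral_mono fun x => min_le_min le_rfl
        (show (i : ℝ≥0∞) ≤ n by exact_mod_cast le_max_left i j))
      (lintegral_mono fun x => min_le_min le_rfl
        (show (j : ℝ≥0∞) ≤ n by exact_mod_cast le_max_right i j))).trans ?_
    refine le_trans ?_ (pow_le_pow_left' (lintegral_mono fun x => min_le_left (h x) (n : ℝ≥0∞)) 2)
    rw [hfix, hfix, hfix]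
    have hb : ∀ (F : ℝ → ℝ≥0∞) x, (min (F x) (n : ℝ≥0∞)).toReal ≤ n := fun F x => by
      simpa using ENNReal.toReal_mono (ENNReal.natCast_ne_top n) (min_le_right (F x) (n : ℝ≥0∞))
    refine pl_bounded (M := n) (hf.min measurable_const).ennreal_toReal
      (hg.min measurable_const).ennreal_toReal (hh.min measurable_const).ennreal_toReal
      (fun _ => ENNReal.toReal_nonneg) (fun _ => ENNReal.toReal_nonneg)
      (fun _ => ENNReal.toReal_nonneg) (hb f) (hb g) fun x y => ?_
    rw [← ENNReal.toReal_mul, ← ENNReal.toReal_pow]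
    refine ENNReal.toReal_mono (ENNReal.pow_ne_top
      (ne_top_of_le_ne_top (ENNReal.natCast_ne_top n) (min_le_right _ _))) ?_
    rcases le_or_gt (h ((x + y) / 2)) n with hm | hm
    · rw [min_eq_left hm]; exact (mul_le_mul' (min_le_left _ _) (min_le_left _ _)).trans (hyp x y)
    · rw [min_eq_right hm.le, pow_two]; exact mul_le_mul' (min_le_right _ _) (min_le_right _ _)
  rw [hlim f hf, hlim g hg, ENNReal.iSup_mul]
  simp only [ENNReal.mul_iSup, iSup_le_iff]
  exact key

/-- The midpoint Prékopa–Leindler inequality on coordinate space. -/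
theorem pl_pi : ∀ (n : ℕ) (f g h : (Fin n → ℝ) → ℝ≥0∞), Measurable f → Measurable g → Measurable h →
    (∀ x y, f x * g y ≤ h ((1 / 2 : ℝ) • (x + y)) ^ 2) →
    (∫⁻ x, f x) * ∫⁻ x, g x ≤ (∫⁻ x, h x) ^ 2 := by
  intro n
  induction n with
  | zero =>
    intro f g h _ _ _ hyp
    have key : ∀ u v w : Fin 0 → ℝ, f u * g v ≤ h w ^ 2 := fun u v w => by
      rw [Subsingleton.elim w ((1 / 2 : ℝ) • (u + v))]
      exact hyp u v
    simp only [lintegral_unique, volume_pi, Measure.pi_empty_univ, mul_one]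
    exact key _ _ _
  | succ n ih =>
    intro f g h hf hg hh hyp
    set e : (Fin (n + 1) → ℝ) ≃ᵐ ℝ × (Fin n → ℝ) :=
      MeasurableEquiv.piFinSuccAbove (fun _ => ℝ) 0 with he
    have hp : MeasurePreserving e.symm (volume : Measure (ℝ × (Fin n → ℝ))) volume :=
      (volume_preserving_piFinSuccAbove (fun _ : Fin (n + 1) => ℝ) 0).symm
    have conv : ∀ F : (Fin (n + 1) → ℝ) → ℝ≥0∞, Measurable F →
        ∫⁻ x, F x = ∫⁻ a : ℝ, ∫⁻ b, F (e.symm (a, b)) := by
      intro F hF
      rw [← hp.lintegral_comp hF]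
      exact lintegral_prod _ (hF.comp e.symm.measurable).aemeasurable
    rw [conv f hf, conv g hg, conv h hh]
    refine pl_one (hf.comp e.symm.measurable).lintegral_prod_right'
      (hg.comp e.symm.measurable).lintegral_prod_right'
      (hh.comp e.symm.measurable).lintegral_prod_right' fun a a' => ?_
    refine ih _ _ _ (hf.comp (e.symm.measurable.comp measurable_prodMk_left))
      (hg.comp (e.symm.measurable.comp measurable_prodMk_left))
      (hh.comp (e.symm.measurable.comp measurable_prodMk_left)) fun x y => ?_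
    refine (hyp _ _).trans (le_of_eq ?_)
    congr 2
    funext i
    refine Fin.cases ?_ (fun j => ?_) i <;>
      simp [e, MeasurableEquiv.piFinSuccAbove] <;> ring

/-- The midpoint Prékopa–Leindler inequality on Euclidean space. -/
theorem prekopa_leindler {d : ℕ} {f g h : EuclideanSpace ℝ (Fin d) → ℝ≥0∞} (hf : Measurable f)
    (hg : Measurable g) (hh : Measurable h)
    (hyp : ∀ x y, f x * g y ≤ h ((1 / 2 : ℝ) • (x + y)) ^ 2) :
    (∫⁻ x, f x) * ∫⁻ x, g x ≤ (∫⁻ x, h x) ^ 2 := by
  have hp := PiLp.volume_preserving_toLp (Fin d)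
  rw [← hp.lintegral_comp hf, ← hp.lintegral_comp hg, ← hp.lintegral_comp hh]
  refine pl_pi d _ _ _ (hf.comp hp.measurable) (hg.comp hp.measurable) (hh.comp hp.measurable)
    fun x y => ?_
  simpa using hyp (WithLp.toLp 2 x) (WithLp.toLp 2 y)

end Vale.Agent.P074
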