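import Vale.Agent.P074.Tools
import Mathlib.Algebra.BigOperators.Fin
import Mathlib.Topology.Algebra.Module.FiniteDimension

/-!
Three collinear atoms, the middle one moved sideways.
-/

open MeasureTheory Finset
open scoped ENNReal NNReal RealInnerProductSpace

namespace Vale.Agent.P074

variable {n : ℕ}

/-- The centred unit cube. -/
def cube (d : ℕ) : Set (Space d) := {x | ∀ i, x i ∈ Set.Icc (-(1 / 2) : ℝ) (1 / 2)}

theorem measurable_coord' {d : ℕ} (i : Fin d) : Measurable fun x : Space d => x i :=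
  (EuclideanSpace.proj (𝕜 := ℝ) i).continuous.measurable

theorem measurable_affine {d : ℕ} (p t : ℝ) (i : Fin d) :
    Measurable fun x : Space d => p + t * x i :=
  (Measurable.const_mul (M := ℝ) (measurable_coord' i) t).const_add p

theorem volume_pi_box {d : ℕ} (I : Fin d → Set ℝ) (hI : ∀ i, MeasurableSet (I i)) :
    volume {x : Space d | ∀ i, x i ∈ I i} = ∏ i, volume (I i) := by
  have h : {x : Space d | ∀ i, x i ∈ I i}
      = (MeasurableEquiv.toLp 2 (Fin d → ℝ)).symm ⁻¹' Set.univ.pi I := by ext x; simp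
  rw [h, (EuclideanSpace.volume_preserving_symm_measurableEquiv_toLp (Fin d)).measure_preimage
    (MeasurableSet.univ_pi hI).nullMeasurableSet, volume_pi_pi]

theorem volume_cube (d : ℕ) : volume (cube d) = 1 := by
  rw [cube, volume_pi_box _ fun _ => measurableSet_Icc]
  simp only [Real.volume_Icc]
  norm_num

theorem measurableSet_cube (d : ℕ) : MeasurableSet (cube d) := by
  have : cube d = ⋂ i, (fun x : Space d => x i) ⁻¹' Set.Icc (-(1 / 2)) (1 / 2) := by
    ext x; simp [cube]
  rw [this]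
  exact MeasurableSet.iInter fun i => measurable_coord' i measurableSet_Icc

theorem uniform_cube (d : ℕ) : uniform (cube d) = volume.restrict (cube d) := by
  rw [uniform, volume_cube, inv_one, one_smul]

theorem isProbabilityMeasure_uniform_cube (d : ℕ) : IsProbabilityMeasure (uniform (cube d)) :=
  ⟨by rw [uniform_cube, Measure.restrict_apply_univ, volume_cube]⟩

theorem isCompact_cube (d : ℕ) : IsCompact (cube d) := by
  refine Metric.isCompact_of_isClosed_isBounded ?_ ?_
  · have : cube d = ⋂ i, (fun x : Space d => x i) ⁻¹' Set.Icc (-(1 / 2)) (1 / 2) := by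
      ext x; simp [cube]
    rw [this]
    exact isClosed_iInter fun i =>
      isClosed_Icc.preimage (EuclideanSpace.proj (𝕜 := ℝ) i).continuous
  · refine (Metric.isBounded_iff_subset_closedBall 0).2 ⟨√(d : ℝ), fun x hx => ?_⟩
    rw [Metric.mem_closedBall, dist_zero_right, EuclideanSpace.norm_eq]
    refine Real.sqrt_le_sqrt ?_
    calc ∑ i, ‖x i‖ ^ 2 ≤ ∑ _i : Fin d, (1 : ℝ) := sum_le_sum fun i _ => by
          rw [Real.norm_eq_abs, sq_abs]
          nlinarith [(hx i).1, (hx i).2]
      _ = d := by simp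

theorem convex_cube (d : ℕ) : Convex ℝ (cube d) := by
  intro x hx y hy a b ha hb hab i
  have h := convex_Icc (-(1 / 2) : ℝ) (1 / 2) (hx i) (hy i) ha hb hab
  simpa using h

theorem interior_cube_nonempty (d : ℕ) : (interior (cube d)).Nonempty := by
  refine ⟨0, mem_interior.2 ⟨Metric.ball 0 (1 / 2), fun x hx i => ?_, Metric.isOpen_ball, by simp⟩⟩
  rw [mem_ball_zero_iff] at hx
  have := (PiLp.norm_apply_le x i).trans hx.le
  rw [Real.norm_eq_abs, abs_le] at this
  exact this

/-- The left cell. -/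
def cellL (p t : ℝ) : Set (Space (n + 2)) := {x | x 0 < p - t * x 1}

/-- The right cell. -/
def cellR (p q t : ℝ) : Set (Space (n + 2)) := {x | p - t * x 1 ≤ x 0 ∧ q + t * x 1 < x 0}

/-- The unit vector of the axis `i`. -/
noncomputable def axis {d : ℕ} (i : Fin d) : Space d := EuclideanSpace.single i 1

/-- The map with three values. -/
noncomputable def slabMap (p q t : ℝ) : Space (n + 2) → Space (n + 2) :=
  three (cellL p t) (cellR p q t) (-axis 0) (t • axis 1) (axis 0)

theorem measurableSet_cellL (p t : ℝ) : MeasurableSet (cellL (n := n) p t) :=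
  by
  simp only [cellL, sub_eq_add_neg, ← neg_mul]
  exact measurableSet_lt (measurable_coord' 0) (measurable_affine p (-t) 1)

theorem measurableSet_cellR (p q t : ℝ) : MeasurableSet (cellR (n := n) p q t) := by
  simp only [cellR, sub_eq_add_neg, ← neg_mul]
  exact (measurableSet_le (measurable_affine p (-t) 1) (measurable_coord' 0)).inter
    (measurableSet_lt (measurable_affine q t 1) (measurable_coord' 0))

theorem disjoint_cells (p q t : ℝ) : Disjoint (cellL (n := n) p t) (cellR p q t) :=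
  Set.disjoint_left.2 fun _ hx hx' => absurd hx (not_lt.2 hx'.1)

theorem measurable_slabMap (p q t : ℝ) : Measurable (slabMap (n := n) p q t) :=
  measurable_three (measurableSet_cellL p t) (measurableSet_cellR p q t)

theorem map_slabMap (p q t : ℝ) :
    (uniform (cube (n + 2))).map (slabMap p q t)
      = uniform (cube (n + 2)) (cellL p t) • Measure.dirac (-axis 0)
        + uniform (cube (n + 2)) (cellL p t ∪ cellR p q t)ᶜ • Measure.dirac (t • axis 1)
        + uniform (cube (n + 2)) (cellR p q t) • Measure.dirac (axis 0) :=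
  map_three _ (measurableSet_cellL p t) (measurableSet_cellR p q t) (disjoint_cells p q t)

theorem isOptimalMap_slabMap (p q t : ℝ)
    (hord : ∀ x ∈ cube (n + 2), p - t * x 1 ≤ q + t * x 1) :
    IsOptimalMap (uniform (cube (n + 2))) ((uniform (cube (n + 2))).map (slabMap p q t))
      (slabMap p q t) := by
  classical
  have := isProbabilityMeasure_uniform_cube (n + 2)
  have h01 : (0 : Fin (n + 2)) ≠ 1 := by simp
  let ψ : Space (n + 2) → ℝ := fun y =>
    if y 0 < 0 then -p else if 0 < y 0 then q else 0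
  have hψ : Measurable ψ :=
    Measurable.ite (measurableSet_lt (measurable_coord' 0) measurable_const) measurable_const
      (Measurable.ite (measurableSet_lt measurable_const (measurable_coord' 0))
        measurable_const measurable_const)
  refine isOptimalMap_of_potential (measurable_slabMap p q t)
    {-axis 0, t • axis 1, axis 0} (fun x => ?_) ψ hψ ?_
  · simp only [slabMap, three]
    split_ifs <;> simp
  rw [uniform_cube]
  filter_upwards [ae_restrict_mem (measurableSet_cube (n + 2))] with x hx y hy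
  have vl : ⟪x, -axis (0 : Fin (n + 2))⟫ - ψ (-axis 0) = -x 0 + p := by
    simp [ψ, axis, inner_neg_right, EuclideanSpace.inner_single_right]
  have vw : ⟪x, t • axis (1 : Fin (n + 2))⟫ - ψ (t • axis 1) = t * x 1 := by
    simp [ψ, axis, inner_smul_right, EuclideanSpace.inner_single_right, h01]
  have vr : ⟪x, axis (0 : Fin (n + 2))⟫ - ψ (axis 0) = x 0 - q := by
    simp [ψ, axis, EuclideanSpace.inner_single_right]
  have hxo := hord x hx
  simp only [mem_insert, mem_singleton] at hy
  simp only [slabMap, three, cellL, cellR, Set.mem_setOf_eq]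
  split_ifs with h1 h2
  · rcases hy with rfl | rfl | rfl <;> linarith
  · rcases hy with rfl | rfl | rfl <;> linarith [h2.1, h2.2]
  · rw [not_lt] at h1
    have h3 : x 0 ≤ q + t * x 1 := not_lt.1 fun hc => h2 ⟨h1, hc⟩
    rcases hy with rfl | rfl | rfl <;> linarith

theorem prod_two (f : Fin (n + 2) → ℝ≥0∞) (hf : ∀ i : Fin n, f i.succ.succ = 1) :
    ∏ i, f i = f 0 * f 1 := by
  rw [Fin.prod_univ_succ, Fin.prod_univ_succ]
  simp [hf]

/-- The measure of a box in the first two coordinates. -/
theorem uniform_box (a b a' b' : ℝ) (ha : -(1 / 2) ≤ a) (hb : b ≤ 1 / 2) (ha' : -(1 / 2) ≤ a')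
    (hb' : b' ≤ 1 / 2) :
    uniform (cube (n + 2)) {x | x 0 ∈ Set.Ioo a b ∧ x 1 ∈ Set.Icc a' b'}
      = ENNReal.ofReal (b - a) * ENNReal.ofReal (b' - a') := by
  have hm : MeasurableSet {x : Space (n + 2) | x 0 ∈ Set.Ioo a b ∧ x 1 ∈ Set.Icc a' b'} :=
    (measurable_coord' 0 measurableSet_Ioo).inter (measurable_coord' 1 measurableSet_Icc)
  rw [uniform_cube, Measure.restrict_apply hm]
  let I : Fin (n + 2) → Set ℝ :=
    Fin.cons (Set.Ioo a b) (Fin.cons (Set.Icc a' b') fun _ => Set.Icc (-(1 / 2)) (1 / 2))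
  have hset : {x : Space (n + 2) | x 0 ∈ Set.Ioo a b ∧ x 1 ∈ Set.Icc a' b'} ∩ cube (n + 2)
      = {x | ∀ i, x i ∈ I i} := by
    ext x
    simp only [Set.mem_inter_iff, Set.mem_setOf_eq, cube]
    constructor
    · rintro ⟨⟨h0, h1⟩, hc⟩ i
      refine Fin.cases h0 (fun j => ?_) i
      exact Fin.cases h1 (fun k => hc _) j
    · intro h
      have h0 : x 0 ∈ Set.Ioo a b := h 0
      have h1 : x 1 ∈ Set.Icc a' b' := h (Fin.succ 0)
      refine ⟨⟨h0, h1⟩, fun i => ?_⟩
      refine Fin.cases ⟨by linarith [h0.1], by linarith [h0.2]⟩ (fun j => ?_) i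
      refine Fin.cases (by rw [Fin.succ_zero_eq_one]; exact ⟨by linarith [h1.1], by linarith [h1.2]⟩) (fun k => ?_) j
      exact h (Fin.succ (Fin.succ k))
  rw [hset, volume_pi_box I (fun i => by
    refine Fin.cases measurableSet_Ioo (fun j => ?_) i
    exact Fin.cases measurableSet_Icc (fun k => measurableSet_Icc) j)]
  rw [prod_two (fun i => volume (I i)) fun i => by simp [I]; norm_num]
  simp [I, Fin.cons_one]

theorem uniform_halfspace (p : ℝ) (hp1 : -(1 / 2) ≤ p) (hp2 : p ≤ 1 / 2) :
    uniform (cube (n + 2)) {x | x 0 < p} = ENNReal.ofReal (p + 1 / 2) := by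
  have hbox := uniform_box (n := n) (-(1 / 2)) p (-(1 / 2)) (1 / 2) le_rfl hp2 le_rfl le_rfl
  rw [show ((1 : ℝ) / 2 - -(1 / 2)) = 1 by norm_num, ENNReal.ofReal_one, mul_one,
    sub_neg_eq_add] at hbox
  rw [← hbox, uniform_cube]
  refine measure_congr ?_
  have hnull : ∀ᵐ x ∂volume.restrict (cube (n + 2)), x (0 : Fin (n + 2)) ≠ -(1 / 2) := by
    refine ae_iff.2 ?_
    refine le_antisymm ((Measure.restrict_apply_le _ _).trans (le_of_eq ?_)) bot_le
    let I : Fin (n + 2) → Set ℝ := Fin.cons {-(1 / 2)} fun _ => Set.univ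
    have e : {x : Space (n + 2) | ¬x 0 ≠ -(1 / 2)} = {x | ∀ i, x i ∈ I i} := by
      ext x
      simp only [not_not, Set.mem_setOf_eq]
      constructor
      · intro h i
        exact Fin.cases (by simp [I, h]) (fun j => by simp [I]) i
      · intro h
        simpa [I] using h 0
    rw [e, volume_pi_box I (fun i => Fin.cases (by simp [I]) (fun j => by simp [I]) i)]
    exact prod_eq_zero (mem_univ 0) (by simp [I])
  filter_upwards [hnull, ae_restrict_mem (measurableSet_cube (n + 2))] with x hx0 hxc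
  have h0 := hxc 0
  have h1 := hxc 1
  exact propext ⟨fun h => ⟨⟨lt_of_le_of_ne h0.1 (Ne.symm hx0), h⟩, h1⟩, fun h => h.1.2⟩

theorem uniform_middle (p q : ℝ) (hp1 : -(1 / 2) ≤ p) (hpq : p ≤ q) (hq : q ≤ 1 / 2) :
    uniform (cube (n + 2)) {x | p ≤ x 0 ∧ x 0 ≤ q} = ENNReal.ofReal (q - p) := by
  have hm : MeasurableSet {x : Space (n + 2) | p ≤ x 0 ∧ x 0 ≤ q} :=
    (measurable_coord' 0) (measurableSet_Icc (a := p) (b := q))
  rw [uniform_cube, Measure.restrict_apply hm]
  let I : Fin (n + 2) → Set ℝ := Fin.cons (Set.Icc p q) fun _ => Set.Icc (-(1 / 2)) (1 / 2)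
  have e : {x : Space (n + 2) | p ≤ x 0 ∧ x 0 ≤ q} ∩ cube (n + 2) = {x | ∀ i, x i ∈ I i} := by
    ext x
    simp only [Set.mem_inter_iff, Set.mem_setOf_eq, cube]
    constructor
    · rintro ⟨h, hc⟩ i
      exact Fin.cases h (fun j => hc _) i
    · intro h
      have h0 : x 0 ∈ Set.Icc p q := h 0
      exact ⟨h0, fun i => Fin.cases ⟨by linarith [h0.1], by linarith [h0.2]⟩
        (fun j => h (Fin.succ j)) i⟩
  rw [e, volume_pi_box I (fun i => Fin.cases measurableSet_Icc (fun j => measurableSet_Icc) i),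
    Fin.prod_univ_succ]
  simp only [I, Fin.cons_zero, Fin.cons_succ, Real.volume_Icc]
  norm_num

theorem one_le_enorm_sub_of_coord {d : ℕ} {u v : Space d} (i : Fin d) (h : 1 ≤ |u i - v i|) :
    (1 : ℝ≥0∞) ≤ ‖u - v‖ₑ := by
  rw [← ofReal_norm_eq_enorm]
  refine ENNReal.one_le_ofReal.2 (h.trans ?_)
  simpa [Real.norm_eq_abs] using PiLp.norm_apply_le (u - v) i

/-- The two targets at parameter `m`. -/
theorem exists_pair {m : ℝ} (hm : 0 < m) (hm4 : m ≤ 1 / 4) :
    ∃ (μ ν : Measure (Space (n + 2))) (T S : Space (n + 2) → Space (n + 2)),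
      IsProbabilityMeasure μ ∧ IsProbabilityMeasure ν ∧
      μ (Metric.closedBall 0 1)ᶜ = 0 ∧ ν (Metric.closedBall 0 1)ᶜ = 0 ∧
      IsOptimalMap (uniform (cube (n + 2))) μ T ∧ IsOptimalMap (uniform (cube (n + 2))) ν S ∧
      W2 μ ν ≤ ENNReal.ofReal ((2 * m ^ 3) ^ (1 / 2 : ℝ)) ∧
      W1 μ ν ≤ ENNReal.ofReal (2 * m ^ 2) ∧
      ENNReal.ofReal ((m / 16) ^ (1 / 2 : ℝ))
        ≤ eLpNorm (fun x => T x - S x) 2 (uniform (cube (n + 2))) := by
  have := isProbabilityMeasure_uniform_cube (n + 2)
  set ρ := uniform (cube (n + 2)) with hρ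
  have h01 : (0 : Fin (n + 2)) ≠ 1 := by simp
  -- the wedge
  set L := cellL (n := n) (-(m / 2)) m with hL
  set R := cellR (n := n) (-(m / 2)) (m / 2) m with hR
  set M := ρ (L ∪ R)ᶜ with hM
  set a := (ρ L).toReal with ha
  set b := M.toReal with hb
  have hd : Disjoint L R := disjoint_cells _ _ _
  have hmL := measurableSet_cellL (n := n) (-(m / 2)) m
  have hmR := measurableSet_cellR (n := n) (-(m / 2)) (m / 2) m
  have htot : ρ L + M + ρ R = 1 := by
    rw [hM, add_right_comm, ← measure_union hd hmR, measure_add_measure_compl (hmL.union hmR),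
      measure_univ]
  have hab : a + b ≤ 1 := by
    rw [ha, hb, ← ENNReal.toReal_add (measure_ne_top _ _) (measure_ne_top _ _)]
    refine ENNReal.toReal_le_of_le_ofReal zero_le_one ?_
    rw [ENNReal.ofReal_one, ← htot]
    exact le_self_add
  have ha0 : 0 ≤ a := ENNReal.toReal_nonneg
  have hb0 : 0 ≤ b := ENNReal.toReal_nonneg
  have hM2 : M ≤ ENNReal.ofReal (2 * m) := by
    rw [show 2 * m = m - -m by ring, ← uniform_middle (n := n) (-m) m (by linarith) (by linarith)
      (by linarith), hM, hρ, uniform_cube]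
    refine measure_mono_ae ?_
    filter_upwards [ae_restrict_mem (measurableSet_cube (n + 2))] with x hx hxm
    change x ∈ {x : Space (n + 2) | -m ≤ x 0 ∧ x 0 ≤ m}
    have hxm' : ¬(x ∈ L ∨ x ∈ R) := hxm
    simp only [hL, hR, cellL, cellR, Set.mem_setOf_eq, not_or, not_and, not_lt] at hxm'
    have h1 := hx 1
    exact ⟨by nlinarith [hxm'.1, h1.2], by nlinarith [hxm'.2 hxm'.1, h1.2]⟩
  -- the straight slab with the same masses
  set p := a - 1 / 2 with hp
  set q := p + b with hq
  have hL0 : ρ (cellL p 0) = ρ L := by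
    have e : cellL (n := n) p 0 = {x | x 0 < p} := by ext x; simp [cellL]
    rw [e, hρ, uniform_halfspace p (by linarith) (by linarith), hp, sub_add_cancel, ha, hρ,
      ENNReal.ofReal_toReal (measure_ne_top _ _)]
  have hM0 : ρ (cellL p 0 ∪ cellR p q 0)ᶜ = M := by
    have e : (cellL (n := n) p 0 ∪ cellR p q 0)ᶜ = {x | p ≤ x 0 ∧ x 0 ≤ q} := by
      ext x
      simp only [cellL, cellR, zero_mul, sub_zero, add_zero, Set.mem_compl_iff, Set.mem_union,
        Set.mem_setOf_eq, not_or, not_and, not_lt]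
      exact ⟨fun h => ⟨h.1, h.2 h.1⟩, fun h => ⟨h.1, fun _ => h.2⟩⟩
    rw [e, hρ, uniform_middle p q (by linarith) (by linarith) (by linarith), hq,
      add_sub_cancel_left, hb, ENNReal.ofReal_toReal (measure_ne_top _ _)]
  have hR0 : ρ (cellR p q 0) = ρ R := by
    have h1 : ρ (cellL p 0) + ρ (cellL p 0 ∪ cellR p q 0)ᶜ + ρ (cellR p q 0) = 1 := by
      rw [add_right_comm, ← measure_union (disjoint_cells p q 0) (measurableSet_cellR p q 0),
        measure_add_measure_compl ((measurableSet_cellL p 0).union (measurableSet_cellR p q 0)),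
        measure_univ]
    rw [hL0, hM0, ← htot] at h1
    exact (ENNReal.add_right_inj
      (ENNReal.add_ne_top.2 ⟨measure_ne_top _ _, measure_ne_top _ _⟩)).1 h1
  set T := slabMap (n := n) p q 0 with hT
  set S := slabMap (n := n) (-(m / 2)) (m / 2) m with hS
  have hsupp : ∀ (p q t : ℝ), |t| ≤ 1 → ρ.map (slabMap p q t) (Metric.closedBall 0 1)ᶜ = 0 := by
    intro p q t ht
    rw [Measure.map_apply (measurable_slabMap p q t) measurableSet_closedBall.compl]
    refine measure_mono_null (fun x hx => ?_) measure_empty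
    refine absurd ?_ hx
    simp only [slabMap, three, mem_closedBall_zero_iff]
    split_ifs <;> simp [axis, norm_smul, ht]
  refine ⟨ρ.map T, ρ.map S, T, S,
    Measure.isProbabilityMeasure_map (measurable_slabMap p q 0).aemeasurable,
    Measure.isProbabilityMeasure_map (measurable_slabMap _ _ _).aemeasurable,
    hsupp p q 0 (by norm_num), hsupp _ _ m (by rw [abs_of_pos hm]; linarith),
    isOptimalMap_slabMap p q 0 (fun x _ => by linarith),
    isOptimalMap_slabMap _ _ m (fun x hx => by nlinarith [(hx 1).1]), ?_, ?_, ?_⟩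
  · rw [hT, hS, hρ, map_slabMap, map_slabMap, ← hρ, hL0, hM0, hR0, ← hL, ← hR, ← hM]
    refine (W2_move_middle _ _ _ _ _ _ _).trans ?_
    rw [← ENNReal.ofReal_rpow_of_nonneg (by positivity) (by norm_num)]
    refine ENNReal.rpow_le_rpow ?_ (by norm_num)
    have e : ‖(0 : ℝ) • axis (1 : Fin (n + 2)) - m • axis 1‖ₑ = ENNReal.ofReal m := by
      rw [← ofReal_norm_eq_enorm, zero_smul, zero_sub, norm_neg, norm_smul]
      simp [axis, abs_of_pos hm]
    rw [e, ← ENNReal.ofReal_pow hm.le, show 2 * m ^ 3 = 2 * m * m ^ 2 by ring,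
      ENNReal.ofReal_mul (p := 2 * m) (by linarith)]
    exact mul_le_mul_left hM2 _
  · rw [hT, hS, hρ, map_slabMap, map_slabMap, ← hρ, hL0, hM0, hR0, ← hL, ← hR, ← hM]
    refine (W1_move_middle _ _ _ _ _ _ _).trans ?_
    have e : ‖(0 : ℝ) • axis (1 : Fin (n + 2)) - m • axis 1‖ₑ = ENNReal.ofReal m := by
      rw [← ofReal_norm_eq_enorm, zero_smul, zero_sub, norm_neg, norm_smul]
      simp [axis, abs_of_pos hm]
    rw [e, show 2 * m ^ 2 = 2 * m * m by ring, ENNReal.ofReal_mul (p := 2 * m) (by linarith)]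
    exact mul_le_mul_left hM2 _
  · -- a box on which the two maps differ
    obtain ⟨B, hBm, hBvol, hB⟩ : ∃ B : Set (Space (n + 2)), MeasurableSet B ∧
        ρ B = ENNReal.ofReal (m / 4) * ENNReal.ofReal (1 / 4) ∧
        ∀ x ∈ B, (1 : ℝ≥0∞) ≤ ‖T x - S x‖ₑ := by
      by_cases hpm : p ≤ -(m / 2)
      · refine ⟨{x | x 0 ∈ Set.Ioo (-(m / 2)) (-(m / 4)) ∧ x 1 ∈ Set.Icc (-(1 / 2)) (-(1 / 4))},
          (measurable_coord' 0 measurableSet_Ioo).inter (measurable_coord' 1 measurableSet_Icc),
          ?_, fun x hx => ?_⟩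
        · rw [hρ, uniform_box _ _ _ _ (by linarith) (by linarith) le_rfl (by norm_num)]
          congr 2 <;> ring
        obtain ⟨⟨h1, h2⟩, h3, h4⟩ := hx
        have hSx : x ∈ cellL (n := n) (-(m / 2)) m := by
          show x 0 < _
          nlinarith
        have hTx : x ∉ cellL (n := n) p 0 := by
          show ¬x 0 < _
          linarith
        refine one_le_enorm_sub_of_coord 0 ?_
        simp only [hT, hS, slabMap, three, if_pos hSx, if_neg hTx]
        split_ifs <;> simp [axis, h01]
        norm_num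
      · refine ⟨{x | x 0 ∈ Set.Ioo (-(3 * m / 4)) (-(m / 2)) ∧ x 1 ∈ Set.Icc (1 / 4) (1 / 2)},
          (measurable_coord' 0 measurableSet_Ioo).inter (measurable_coord' 1 measurableSet_Icc),
          ?_, fun x hx => ?_⟩
        · rw [hρ, uniform_box _ _ _ _ (by linarith) (by linarith) (by norm_num) le_rfl]
          congr 2 <;> ring
        obtain ⟨⟨h1, h2⟩, h3, h4⟩ := hx
        have hTx : x ∈ cellL (n := n) p 0 := by
          show x 0 < _
          linarith
        have hSx : x ∉ cellL (n := n) (-(m / 2)) m := by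
          show ¬x 0 < _
          nlinarith
        refine one_le_enorm_sub_of_coord 0 ?_
        simp only [hT, hS, slabMap, three, if_pos hTx, if_neg hSx]
        split_ifs <;> simp [axis, h01]
        norm_num
    rw [eLpNorm_eq_lintegral_rpow_enorm_toReal two_ne_zero ENNReal.ofNat_ne_top]
    simp only [ENNReal.toReal_ofNat]
    rw [← ENNReal.ofReal_rpow_of_nonneg (by positivity) (by norm_num)]
    refine ENNReal.rpow_le_rpow ?_ (by norm_num)
    calc ENNReal.ofReal (m / 16) = ∫⁻ _x in B, 1 ∂ρ := by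
          rw [setLIntegral_one, hBvol, ← ENNReal.ofReal_mul (by positivity)]
          congr 1; ring
      _ ≤ ∫⁻ x in B, ‖T x - S x‖ₑ ^ (2 : ℝ) ∂ρ :=
          setLIntegral_mono' hBm fun x hx => ENNReal.one_le_rpow (hB x hx) (by norm_num)
      _ ≤ _ := setLIntegral_le_lintegral _ _

end Vale.Agent.P074
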