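import Vale.Agent.P074.Defs
import Mathlib.Analysis.SpecialFunctions.Log.Deriv
import Mathlib.Analysis.SpecialFunctions.ExpDeriv
import Mathlib.Analysis.Calculus.Deriv.Add
import Mathlib.Analysis.Calculus.Deriv.MeanValue
import Mathlib.Analysis.Calculus.Deriv.Comp

/-!
The soft maximum and soft argmax of finitely many scores.
-/

open Finset
open scoped RealInnerProductSpace

namespace Vale.Agent.P074

variable {ι : Type*} [Fintype ι]

/-- The soft maximum. -/
noncomputable def lsum (a : ι → ℝ) : ℝ := Real.log (∑ i, Real.exp (a i))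

/-- The soft argmax. -/
noncomputable def smax (a : ι → ℝ) (k : ι) : ℝ := Real.exp (a k) / ∑ i, Real.exp (a i)

/-- The mean of `c` for the soft argmax weights of `a`. -/
noncomputable def smean (a c : ι → ℝ) : ℝ := ∑ i, smax a i * c i

/-- The variance of `c` for the soft argmax weights of `a`. -/
noncomputable def svar (a c : ι → ℝ) : ℝ := ∑ i, smax a i * (c i - smean a c) ^ 2

theorem sumExp_pos [Nonempty ι] (a : ι → ℝ) : 0 < ∑ i, Real.exp (a i) :=
  sum_pos (fun _ _ => Real.exp_pos _) univ_nonempty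

theorem smax_pos [Nonempty ι] (a : ι → ℝ) (k : ι) : 0 < smax a k :=
  div_pos (Real.exp_pos _) (sumExp_pos a)

theorem sum_smax [Nonempty ι] (a : ι → ℝ) : ∑ i, smax a i = 1 := by
  simp only [smax, ← sum_div]
  exact div_self (sumExp_pos a).ne'

theorem smax_le_one [Nonempty ι] (a : ι → ℝ) (k : ι) : smax a k ≤ 1 :=
  sum_smax a ▸ single_le_sum (fun i _ => (smax_pos a i).le) (mem_univ k)

theorem svar_nonneg [Nonempty ι] (a c : ι → ℝ) : 0 ≤ svar a c :=
  sum_nonneg fun i _ => mul_nonneg (smax_pos a i).le (sq_nonneg _)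

theorem smax_eq_exp [Nonempty ι] (a : ι → ℝ) (k : ι) : smax a k = Real.exp (a k - lsum a) := by
  rw [Real.exp_sub, lsum, Real.exp_log (sumExp_pos a), smax]

theorem sum_smax_sub_mul [Nonempty ι] (a c e : ι → ℝ) :
    ∑ i, smax a i * (c i - smean a c) * e i
      = ∑ i, smax a i * (c i - smean a c) * (e i - smean a e) := by
  simp only [mul_sub, sum_sub_distrib]
  rw [← sum_mul]
  have : ∑ i, (smax a i * c i - smax a i * smean a c) = 0 := by
    rw [sum_sub_distrib, ← sum_mul, sum_smax, one_mul]; exact sub_self _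
  rw [this, zero_mul, sub_zero]

theorem sum_cov_self [Nonempty ι] (a c : ι → ℝ) :
    ∑ i, smax a i * (c i - smean a c) * c i = svar a c := by
  rw [sum_smax_sub_mul, svar]; exact sum_congr rfl fun i _ => by ring

theorem svar_sub_const [Nonempty ι] (a c : ι → ℝ) (t : ℝ) : svar a (fun i => c i - t) = svar a c := by
  have h : smean a (fun i => c i - t) = smean a c - t := by
    simp only [smean, mul_sub, sum_sub_distrib, ← sum_mul, sum_smax, one_mul]
  simp only [svar, h]
  exact sum_congr rfl fun i _ => by ring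

variable {a : ℝ → ι → ℝ} {ξ : ι → ℝ} {s : ℝ}

theorem hasDerivAt_lsum [Nonempty ι] (ha : ∀ i, HasDerivAt (fun t => a t i) (ξ i) s) :
    HasDerivAt (fun t => lsum (a t)) (smean (a s) ξ) s := by
  have h := (HasDerivAt.fun_sum fun i (_ : i ∈ univ) => (ha i).exp).log (sumExp_pos (a s)).ne'
  refine h.congr_deriv ?_
  simp only [smean, smax, sum_div]
  exact sum_congr rfl fun i _ => by ring

theorem hasDerivAt_smax [Nonempty ι] (ha : ∀ i, HasDerivAt (fun t => a t i) (ξ i) s) (k : ι) :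
    HasDerivAt (fun t => smax (a t) k) (smax (a s) k * (ξ k - smean (a s) ξ)) s := by
  simp only [smax_eq_exp]
  exact ((ha k).sub (hasDerivAt_lsum ha)).exp

theorem hasDerivAt_smean [Nonempty ι] (ha : ∀ i, HasDerivAt (fun t => a t i) (ξ i) s)
    (c : ι → ℝ) : HasDerivAt (fun t => smean (a t) c)
      (∑ i, smax (a s) i * (ξ i - smean (a s) ξ) * c i) s :=
  HasDerivAt.fun_sum fun i _ => (hasDerivAt_smax ha i).mul_const (c i)

/-- The soft maximum lies above its linearisation. -/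
theorem lsum_add_ge [Nonempty ι] (a ξ : ι → ℝ) :
    lsum a + smean a ξ ≤ lsum (fun i => a i + ξ i) := by
  have hS := sumExp_pos a
  have h : (∑ i, Real.exp (a i)) * Real.exp (smean a ξ) ≤ ∑ i, Real.exp (a i + ξ i) := by
    have hpt : ∀ i, smax a i * Real.exp (smean a ξ) * (1 + (ξ i - smean a ξ))
        ≤ smax a i * Real.exp (ξ i) := fun i => by
      have := mul_le_mul_of_nonneg_left (Real.add_one_le_exp (ξ i - smean a ξ))
        (mul_nonneg (smax_pos a i).le (Real.exp_pos (smean a ξ)).le)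
      refine le_trans (by rw [add_comm (1 : ℝ)]) (this.trans (le_of_eq ?_))
      rw [mul_assoc, ← Real.exp_add, add_sub_cancel]
    have h2 := sum_le_sum fun i (_ : i ∈ univ) => hpt i
    have e : ∑ i, smax a i * Real.exp (smean a ξ) * (1 + (ξ i - smean a ξ))
        = Real.exp (smean a ξ) := by
      have : ∀ i, smax a i * Real.exp (smean a ξ) * (1 + (ξ i - smean a ξ))
          = Real.exp (smean a ξ) * (smax a i * (1 - smean a ξ) + smax a i * ξ i) := fun i => by ring
      simp only [this, ← mul_sum, sum_add_distrib, ← sum_mul, sum_smax]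
      rw [smean]; ring
    rw [e] at h2
    have h3 := mul_le_mul_of_nonneg_left h2 hS.le
    refine h3.trans (le_of_eq ?_)
    rw [mul_sum]
    refine sum_congr rfl fun i _ => ?_
    rw [Real.exp_add, smax]
    field_simp
  have := Real.log_le_log (mul_pos hS (Real.exp_pos _)) h
  rwa [Real.log_mul hS.ne' (Real.exp_pos _).ne', Real.log_exp] at this

theorem abs_smean_le [Nonempty ι] (a : ι → ℝ) {c : ι → ℝ} {M : ℝ} (h : ∀ i, |c i| ≤ M) :
    |smean a c| ≤ M := by
  refine (abs_sum_le_sum_abs _ _).trans ?_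
  calc ∑ i, |smax a i * c i| ≤ ∑ i, smax a i * M := sum_le_sum fun i _ => by
        rw [abs_mul, abs_of_pos (smax_pos a i)]
        exact mul_le_mul_of_nonneg_left (h i) (smax_pos a i).le
    _ = M := by rw [← sum_mul, sum_smax, one_mul]

/-- First and second order expansions along a segment of scores. -/
theorem smax_taylor [Nonempty ι] (a ξ : ι → ℝ) {M : ℝ} (hξ : ∀ i, |ξ i| ≤ M) (k : ι) :
    |smax (fun i => a i + ξ i) k - smax a k - smax a k * (ξ k - smean a ξ)|
      ≤ (4 + 4 * Fintype.card ι) * M ^ 2 := by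
  have hM0 : 0 ≤ M := (abs_nonneg _).trans (hξ k)
  set b : ℝ → ι → ℝ := fun t i => a i + t * ξ i with hb
  have hd : ∀ t i, HasDerivAt (fun t => b t i) (ξ i) t := fun t i => by
    simpa [hb] using ((hasDerivAt_id t).mul_const (ξ i)).const_add (a i)
  have h1 : ∀ j t, |smax (b t) j * (ξ j - smean (b t) ξ)| ≤ 2 * M := fun j t => by
    rw [abs_mul, abs_of_pos (smax_pos _ j)]
    calc _ ≤ 1 * |ξ j - smean (b t) ξ| :=
          mul_le_mul_of_nonneg_right (smax_le_one _ _) (abs_nonneg _)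
      _ ≤ 2 * M := by rw [one_mul]; linarith [abs_sub (ξ j) (smean (b t) ξ), hξ j, abs_smean_le (b t) hξ]
  set D : ℝ → ℝ := fun t => smax (b t) k * (ξ k - smean (b t) ξ)
  have hD : ∀ t, HasDerivAt D (smax (b t) k * (ξ k - smean (b t) ξ) * (ξ k - smean (b t) ξ)
      + smax (b t) k * (0 - ∑ i, smax (b t) i * (ξ i - smean (b t) ξ) * ξ i)) t := fun t =>
    (hasDerivAt_smax (hd t) k).mul ((hasDerivAt_const t (ξ k)).sub (hasDerivAt_smean (hd t) ξ))
  have hDb : ∀ t, |deriv D t| ≤ (4 + 2 * Fintype.card ι) * M ^ 2 := fun t => by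
    rw [(hD t).deriv]
    refine (abs_add_le _ _).trans ?_
    have e1 : |ξ k - smean (b t) ξ| ≤ 2 * M := by
      linarith [abs_sub (ξ k) (smean (b t) ξ), hξ k, abs_smean_le (b t) hξ]
    have e2 : |∑ i, smax (b t) i * (ξ i - smean (b t) ξ) * ξ i| ≤ Fintype.card ι * (2 * M * M) := by
      refine (abs_sum_le_sum_abs _ _).trans ((sum_le_sum fun i _ => ?_).trans (le_of_eq
        (by rw [sum_const, card_univ, nsmul_eq_mul])))
      rw [abs_mul]; exact mul_le_mul (h1 i t) (hξ i) (abs_nonneg _) (by linarith)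
    have t1 : |smax (b t) k * (ξ k - smean (b t) ξ) * (ξ k - smean (b t) ξ)| ≤ 2 * M * (2 * M) := by
      rw [abs_mul]; exact mul_le_mul (h1 k t) e1 (abs_nonneg _) (by linarith)
    have t2 : |smax (b t) k * (0 - ∑ i, smax (b t) i * (ξ i - smean (b t) ξ) * ξ i)|
        ≤ 1 * (Fintype.card ι * (2 * M * M)) := by
      rw [abs_mul, zero_sub, abs_neg, abs_of_pos (smax_pos _ k)]
      exact mul_le_mul (smax_le_one _ _) e2 (abs_nonneg _) zero_le_one
    linarith
  obtain ⟨σ, hσ, hσ'⟩ := exists_hasDerivAt_eq_slope (fun t => smax (b t) k) D zero_lt_one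
    (fun t _ => (hasDerivAt_smax (hd t) k).continuousAt.continuousWithinAt)
    fun t _ => hasDerivAt_smax (hd t) k
  obtain ⟨τ, hτ, hτ'⟩ := exists_hasDerivAt_eq_slope D (deriv D) hσ.1
    (fun t _ => (hD t).continuousAt.continuousWithinAt) fun t _ => (hD t).differentiableAt.hasDerivAt
  have e0 : b 0 = a := funext fun i => by simp [hb]
  have e1 : b 1 = fun i => a i + ξ i := funext fun i => by simp [hb]
  simp only [e0, e1, sub_zero, div_one] at hσ'
  rw [← hσ', show smax a k * (ξ k - smean a ξ) = D 0 by simp only [D, e0]]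
  rw [eq_div_iff (sub_ne_zero.2 hσ.1.ne'), sub_zero] at hτ'
  rw [← hτ', abs_mul, abs_of_pos hσ.1]
  have hN : (0 : ℝ) ≤ (Fintype.card ι : ℝ) * M ^ 2 := by positivity
  calc |deriv D τ| * σ ≤ (4 + 2 * Fintype.card ι) * M ^ 2 * 1 :=
        mul_le_mul (hDb τ) hσ.2.le hσ.1.le (by positivity)
    _ ≤ _ := by nlinarith

theorem lsum_taylor [Nonempty ι] (a ξ : ι → ℝ) {M : ℝ} (hξ : ∀ i, |ξ i| ≤ M) :
    |lsum (fun i => a i + ξ i) - lsum a - smean a ξ| ≤ 2 * Fintype.card ι * M ^ 2 := by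
  obtain ⟨i₀⟩ := ‹Nonempty ι›
  have hM0 : 0 ≤ M := (abs_nonneg _).trans (hξ i₀)
  set b : ℝ → ι → ℝ := fun t i => a i + t * ξ i with hb
  have hd : ∀ t i, HasDerivAt (fun t => b t i) (ξ i) t := fun t i => by
    simpa [hb] using ((hasDerivAt_id t).mul_const (ξ i)).const_add (a i)
  have e0 : b 0 = a := funext fun i => by simp [hb]
  have e1 : b 1 = fun i => a i + ξ i := funext fun i => by simp [hb]
  have hb' : ∀ t, |∑ i, smax (b t) i * (ξ i - smean (b t) ξ) * ξ i|
      ≤ 2 * Fintype.card ι * M ^ 2 := fun t => by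
    refine (abs_sum_le_sum_abs _ _).trans ((sum_le_sum (g := fun _ => 2 * M ^ 2) fun i _ => ?_).trans
      (le_of_eq (by rw [sum_const, card_univ, nsmul_eq_mul]; ring)))
    rw [abs_mul, abs_mul, abs_of_pos (smax_pos _ i)]
    calc smax (b t) i * |ξ i - smean (b t) ξ| * |ξ i| ≤ 1 * (2 * M) * M :=
          mul_le_mul (mul_le_mul (smax_le_one _ _)
            (by linarith [abs_sub (ξ i) (smean (b t) ξ), hξ i, abs_smean_le (b t) hξ])
            (abs_nonneg _) zero_le_one) (hξ i) (abs_nonneg _) (by linarith)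
      _ = 2 * M ^ 2 := by ring
  obtain ⟨σ, hσ, hσ'⟩ := exists_hasDerivAt_eq_slope (fun t => lsum (b t))
    (fun t => smean (b t) ξ) zero_lt_one
    (fun t _ => (hasDerivAt_lsum (hd t)).continuousAt.continuousWithinAt)
    fun t _ => hasDerivAt_lsum (hd t)
  obtain ⟨τ, hτ, hτ'⟩ := exists_hasDerivAt_eq_slope (fun t => smean (b t) ξ) _ hσ.1
    (fun t _ => (hasDerivAt_smean (hd t) ξ).continuousAt.continuousWithinAt)
    fun t _ => hasDerivAt_smean (hd t) ξ
  simp only [e0, e1, sub_zero, div_one] at hσ'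
  rw [← hσ']
  rw [eq_div_iff (sub_ne_zero.2 hσ.1.ne'), sub_zero] at hτ'
  simp only [e0] at hτ'
  rw [← hτ', abs_mul, abs_of_pos hσ.1]
  calc _ ≤ 2 * (Fintype.card ι : ℝ) * M ^ 2 * 1 :=
        mul_le_mul (hb' τ) hσ.2.le hσ.1.le (by positivity)
    _ = _ := mul_one _

/-- Monotonicity of the soft argmax, quantified by a lower bound on the weights. -/
theorem smax_mono [Nonempty ι] (a ξ : ι → ℝ) {p : ℝ} (hp : 0 ≤ p)
    (hlow : ∀ t ∈ Set.Icc (0 : ℝ) 1, ∀ i, p ≤ smax (fun j => a j + t * ξ j) i) (k l : ι) :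
    p * (ξ k - ξ l) ^ 2 ≤ 2 * ∑ i, ξ i * (smax (fun j => a j + ξ j) i - smax a i) := by
  set b : ℝ → ι → ℝ := fun t i => a i + t * ξ i with hb
  have hd : ∀ t i, HasDerivAt (fun t => b t i) (ξ i) t := fun t i => by
    simpa [hb] using ((hasDerivAt_id t).mul_const (ξ i)).const_add (a i)
  have e0 : b 0 = a := funext fun i => by simp [hb]
  have e1 : b 1 = fun i => a i + ξ i := funext fun i => by simp [hb]
  obtain ⟨σ, hσ, hσ'⟩ := exists_hasDerivAt_eq_slope (fun t => smean (b t) ξ)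
    (fun t => ∑ i, smax (b t) i * (ξ i - smean (b t) ξ) * ξ i) zero_lt_one
    (fun t _ => (hasDerivAt_smean (hd t) ξ).continuousAt.continuousWithinAt)
    fun t _ => hasDerivAt_smean (hd t) ξ
  simp only [sub_zero, div_one, sum_cov_self] at hσ'
  have e : ∑ i, ξ i * (smax (fun j => a j + ξ j) i - smax a i) = svar (b σ) ξ := by
    rw [hσ', smean, smean, ← sum_sub_distrib, e0, e1]
    exact sum_congr rfl fun i _ => by ring
  rw [e]
  classical
  rcases eq_or_ne k l with rfl | hkl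
  · rw [sub_self]; simpa using svar_nonneg _ _
  set m := smean (b σ) ξ
  have h2 : p * (ξ k - m) ^ 2 + p * (ξ l - m) ^ 2 ≤ svar (b σ) ξ := by
    have hle : ∑ i ∈ {k, l}, smax (b σ) i * (ξ i - m) ^ 2 ≤ svar (b σ) ξ :=
      sum_le_sum_of_subset_of_nonneg (subset_univ _) fun i _ _ =>
        mul_nonneg (smax_pos _ _).le (sq_nonneg _)
    rw [sum_pair hkl] at hle
    have hk := hlow σ (Set.Ioo_subset_Icc_self hσ)
    exact le_trans (add_le_add (mul_le_mul_of_nonneg_right (hk k) (sq_nonneg _))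
      (mul_le_mul_of_nonneg_right (hk l) (sq_nonneg _))) hle
  nlinarith [mul_nonneg hp (sq_nonneg (ξ k + ξ l - 2 * m))]

theorem smax_ge [Nonempty ι] {a : ι → ℝ} {M : ℝ} (h : ∀ i, |a i| ≤ M) (k : ι) :
    Real.exp (-(2 * M)) / Fintype.card ι ≤ smax a k := by
  have hS : ∑ i, Real.exp (a i) ≤ Fintype.card ι * Real.exp M :=
    (sum_le_sum fun i _ => Real.exp_le_exp.2 (abs_le.1 (h i)).2).trans (le_of_eq (by simp))
  rw [smax, div_le_div_iff₀ (Nat.cast_pos.2 Fintype.card_pos) (sumExp_pos a)]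
  refine (mul_le_mul_of_nonneg_left hS (Real.exp_pos _).le).trans ?_
  rw [mul_left_comm, ← Real.exp_add, mul_comm]
  refine mul_le_mul_of_nonneg_right (Real.exp_le_exp.2 ?_) (Nat.cast_nonneg _)
  linarith [(abs_le.1 (h k)).1]

end Vale.Agent.P074
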