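import Vale.Agent.P074.Optimal
import Vale.Agent.P074.DefsW1
import Mathlib.MeasureTheory.Group.Integral
import Mathlib.MeasureTheory.Function.LpSeminorm.CompareExp

/-!
The stability estimate with exponent one quarter.
-/

open MeasureTheory Finset Filter Topology Metric
open scoped ENNReal NNReal RealInnerProductSpace

namespace Vale.Agent.P074

variable {d : ℕ} {K : Set (Space d)} {R : ℝ} {T S : Space d → Space d} {φ φ₁ φ₂ : Space d → ℝ}

theorem IsPotential.nonneg_R [NeZero d] (h : IsPotential K T R φ) : 0 ≤ R := by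
  have h1 := h.lip (EuclideanSpace.single 0 1) 0
  have h2 := h.lip 0 (EuclideanSpace.single 0 1)
  simp only [sub_zero, zero_sub, norm_neg, EuclideanSpace.single, PiLp.norm_single, norm_one,
    mul_one] at h1 h2
  linarith

theorem IsPotential.continuous (h : IsPotential K T R φ) : Continuous φ := by
  have : LipschitzWith R.toNNReal φ := LipschitzWith.of_le_add_mul _ fun a b => by
    have := h.lip a b
    rw [dist_eq_norm]
    linarith [mul_le_mul_of_nonneg_right (Real.le_coe_toNNReal R) (norm_nonneg (a - b))]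
  exact this.continuous

/-- The conjugate of `φ` over the ball of radius `B`. -/
noncomputable def conj (B : ℝ) (φ : Space d → ℝ) (y : Space d) : ℝ :=
  sSup ((fun z => ⟪z, y⟫ - φ z) '' closedBall 0 B)

theorem le_conj {B : ℝ} (hφ : Continuous φ) (y : Space d) {z : Space d} (hz : ‖z‖ ≤ B) :
    ⟪z, y⟫ - φ z ≤ conj B φ y :=
  le_csSup ((isCompact_closedBall (0 : Space d) B).image (by fun_prop)).bddAbove
    (Set.mem_image_of_mem _ (by simpa using hz))

theorem conj_sub_le {B : ℝ} (hB : 0 ≤ B) (hφ : Continuous φ) (a b : Space d) :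
    conj B φ a - conj B φ b ≤ B * ‖a - b‖ := by
  rw [sub_le_iff_le_add]
  refine csSup_le ⟨_, Set.mem_image_of_mem _ (mem_closedBall_self hB)⟩ ?_
  rintro _ ⟨z, hz, rfl⟩
  rw [mem_closedBall_zero_iff] at hz
  have h1 := le_conj hφ b hz
  have h2 : ⟪z, a - b⟫ ≤ B * ‖a - b‖ :=
    (real_inner_le_norm _ _).trans (mul_le_mul_of_nonneg_right hz (norm_nonneg _))
  rw [inner_sub_right] at h2
  simp only
  linarith

theorem continuous_conj {B : ℝ} (hB : 0 ≤ B) (hφ : Continuous φ) : Continuous (conj B φ) := by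
  have : LipschitzWith B.toNNReal (conj B φ) := LipschitzWith.of_le_add_mul _ fun a b => by
    have := conj_sub_le hB hφ a b
    rw [dist_eq_norm, Real.coe_toNNReal B hB]
    linarith
  exact this.continuous

theorem conj_eq {B : ℝ} (hφ : Continuous φ) {x y : Space d} (hx : ‖x‖ ≤ B)
    (hsub : ∀ w, φ x + ⟪w - x, y⟫ ≤ φ w) : conj B φ y = ⟪x, y⟫ - φ x := by
  refine le_antisymm (csSup_le ⟨_, Set.mem_image_of_mem _
    (by simpa using hx : x ∈ closedBall (0 : Space d) B)⟩ ?_) (le_conj hφ y hx)
  rintro _ ⟨z, -, rfl⟩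
  have := hsub z
  rw [inner_sub_left] at this
  simp only
  linarith

/-- The second difference. -/
def secDiff (φ : Space d → ℝ) (v x : Space d) : ℝ := φ (x + v) + φ (x - v) - 2 * φ x

theorem secDiff_nonneg (h : IsPotential K T R φ) (v x : Space d) : 0 ≤ secDiff φ v x :=
  sub_nonneg.2 (h.mid x v)

/-- Second differences of a Lipschitz convex function are of second order on average. -/
theorem integral_secDiff_le [NeZero d] (h : IsPotential K T R φ) (hK : IsCompact K) {b : ℝ}
    (hKb : ∀ x ∈ K, ‖x‖ ≤ b) {v : Space d} (hv : ‖v‖ ≤ 1) :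
    ∫ x in K, secDiff φ v x
      ≤ R * (volume (closedBall (0 : Space d) (b + 2))).toReal * ‖v‖ ^ 2 := by
  have hR := h.nonneg_R
  have hφ := h.continuous
  set w : Space d → ℝ := fun x => max 0 (b + 1 - ‖x‖) with hwdef
  set g : Space d → ℝ := fun x => φ (x + v) - φ x with hgdef
  have hwc : Continuous w := by fun_prop
  have hgc : Continuous g := by fun_prop
  have hw0 : ∀ x, b + 1 ≤ ‖x‖ → w x = 0 := fun x hx => by simp [hwdef, hx]
  have hball : IsCompact (closedBall (0 : Space d) (b + 2)) := isCompact_closedBall _ _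
  have hws : HasCompactSupport w := HasCompactSupport.intro hball fun x hx => by
    rw [mem_closedBall_zero_iff, not_le] at hx
    exact hw0 x (by linarith)
  have hw's : HasCompactSupport fun x => w (x + v) := HasCompactSupport.intro hball fun x hx => by
    rw [mem_closedBall_zero_iff, not_le] at hx
    exact hw0 _ (by linarith [
      show ‖x‖ ≤ ‖x + v‖ + ‖v‖ by simpa using norm_sub_le (x + v) v])
  have i1 : Integrable fun x => w x * g x := (hwc.mul hgc).integrable_of_hasCompactSupport hws.mul_right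
  have i2 : Integrable fun x => w (x + v) * g x :=
    ((hwc.comp (continuous_add_const v)).mul hgc).integrable_of_hasCompactSupport hw's.mul_right
  have i3 : Integrable fun x => w x * g (x - v) :=
    (hwc.mul (hgc.comp (continuous_id.sub continuous_const))).integrable_of_hasCompactSupport
      hws.mul_right
  have i4 : Integrable fun x => w x * secDiff φ v x := by
    refine (hwc.mul ?_).integrable_of_hasCompactSupport hws.mul_right
    unfold secDiff; fun_prop
  calc ∫ x in K, secDiff φ v x ≤ ∫ x in K, w x * secDiff φ v x := by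
        refine setIntegral_mono_on (ContinuousOn.integrableOn_compact hK ?_) i4.integrableOn
          hK.measurableSet fun x hx => ?_
        · unfold secDiff; fun_prop
        refine le_mul_of_one_le_left (secDiff_nonneg h v x) (le_max_of_le_right ?_)
        linarith [hKb x hx]
    _ ≤ ∫ x, w x * secDiff φ v x := setIntegral_le_integral i4
        (Eventually.of_forall fun x => mul_nonneg (le_max_left _ _) (secDiff_nonneg h v x))
    _ = ∫ x, (w x - w (x + v)) * g x := by
        have e : ∀ x, w x * secDiff φ v x = w x * g x - w x * g (x - v) := fun x => by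
          simp only [hgdef, secDiff, sub_add_cancel]; ring
        simp only [e, sub_mul]
        rw [integral_sub i1 i3, integral_sub i1 i2]
        congr 1
        rw [← integral_add_right_eq_self (fun x => w x * g (x - v)) v]
        simp
    _ ≤ ∫ x in closedBall (0 : Space d) (b + 2), ‖v‖ * (R * ‖v‖) := by
        rw [← integral_indicator measurableSet_closedBall]
        refine integral_mono ((i1.sub i2).congr (Eventually.of_forall fun x => by simp [sub_mul]))
          ((integrable_indicator_iff measurableSet_closedBall).2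
            (integrableOn_const hball.measure_lt_top.ne)) fun x => ?_
        by_cases hx : x ∈ closedBall (0 : Space d) (b + 2)
        · rw [Set.indicator_of_mem hx]
          refine (le_abs_self _).trans ?_
          rw [abs_mul]
          refine mul_le_mul ?_ ?_ (abs_nonneg _) (norm_nonneg _)
          · refine (abs_max_sub_max_le_max _ _ _ _).trans ?_
            rw [sub_self, abs_zero, max_eq_right (abs_nonneg _)]
            rw [show b + 1 - ‖x‖ - (b + 1 - ‖x + v‖) = ‖x + v‖ - ‖x‖ by ring]
            simpa using abs_norm_sub_norm_le (x + v) x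
          · simp only [hgdef, abs_le]
            have h1 := h.lip (x + v) x
            have h2 := h.lip x (x + v)
            simp only [add_sub_cancel_left, sub_add_cancel_left, norm_neg] at h1 h2
            constructor <;> linarith
        · rw [Set.indicator_of_notMem hx]
          rw [mem_closedBall_zero_iff, not_le] at hx
          rw [hw0 x (by linarith), hw0 (x + v) (by
            linarith [show ‖x‖ ≤ ‖x + v‖ + ‖v‖ by simpa using norm_sub_le (x + v) v]), sub_self,
            zero_mul]
    _ = _ := by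
        rw [setIntegral_const, measureReal_def, smul_eq_mul]; ring

/-- The pointwise inequality. -/
theorem sq_norm_sub_le {B t : ℝ} (ht : 0 < t) (hφ : Continuous φ) (hR : ∀ z, ‖T z‖ ≤ R)
    (hR' : ∀ z, ‖S z‖ ≤ R) {x : Space d} (hxB : ‖x‖ + t ≤ B)
    (hsub : ∀ w, φ x + ⟪w - x, T x⟫ ≤ φ w) :
    t * ‖S x - T x‖ ^ 2 ≤ 2 * R * ((d : ℝ) * (conj B φ (S x) + φ x - ⟪x, S x⟫)
      + ∑ i, secDiff φ (t • EuclideanSpace.single i 1) x) := by
  set G := conj B φ (S x) + φ x - ⟪x, S x⟫
  have hcoord : ∀ i, t * |(S x - T x) i| ≤ G + secDiff φ (t • EuclideanSpace.single i 1) x := by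
    intro i
    set v : Space d := t • EuclideanSpace.single i 1 with hv
    have hvn : ‖v‖ = t := by simp [hv, norm_smul, abs_of_pos ht]
    have hp := le_conj (B := B) hφ (S x) (z := x + v) ((norm_add_le _ _).trans (by linarith))
    have hm := le_conj (B := B) hφ (S x) (z := x - v) ((norm_sub_le _ _).trans (by linarith))
    have s1 := hsub (x + v)
    have s2 := hsub (x - v)
    rw [add_sub_cancel_left] at s1
    rw [sub_sub_cancel_left, inner_neg_left] at s2
    rw [inner_add_left] at hp
    rw [inner_sub_left] at hm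
    have e : ∀ y : Space d, ⟪v, y⟫ = t * y i := fun y => by
      simp [hv, inner_smul_left, EuclideanSpace.inner_single_left]
    rw [e] at hp hm s1 s2
    rw [← abs_of_pos ht, ← abs_mul, abs_le]
    simp only [secDiff, G, PiLp.sub_apply]
    constructor <;> linarith
  have hb : ∀ i, |(S x - T x) i| ≤ 2 * R := fun i => by
    rw [← Real.norm_eq_abs]
    exact (PiLp.norm_apply_le _ i).trans ((norm_sub_le _ _).trans (by linarith [hR x, hR' x]))
  have hR0 : 0 ≤ R := le_trans (norm_nonneg _) (hR x)
  calc t * ‖S x - T x‖ ^ 2 = ∑ i, |(S x - T x) i| * (t * |(S x - T x) i|) := by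
        rw [EuclideanSpace.real_norm_sq_eq, mul_sum]
        exact sum_congr rfl fun i _ => by rw [← sq_abs]; ring
    _ ≤ ∑ i, 2 * R * (G + secDiff φ (t • EuclideanSpace.single i 1) x) :=
        sum_le_sum fun i _ => mul_le_mul (hb i) (hcoord i) (by positivity) (by positivity)
    _ = _ := by simp [sum_add_distrib, ← mul_sum]

/-- The squared distance of two bounded optimal maps is controlled by any coupling. -/
theorem integral_sq_le [NeZero d] (hK : IsCompact K) (hne : (interior K).Nonempty)
    {μ ν : Measure (Space d)} (hTm : Measurable T) (hSm : Measurable S)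
    (hT : ∀ x, ‖T x‖ ≤ R) (hS : ∀ x, ‖S x‖ ≤ R) (h₁ : IsPotential K T R φ₁)
    (h₂ : IsPotential K S R φ₂) (hμ : (uniform K).map T = μ) (hν : (uniform K).map S = ν)
    {π : Measure (Space d × Space d)} (hπ₁ : π.fst = μ) (hπ₂ : π.snd = ν)
    (hπi : Integrable (fun p => ‖p.1 - p.2‖) π) {b : ℝ} (hb0 : 0 ≤ b)
    (hKb : ∀ x ∈ K, ‖x‖ ≤ b) {t : ℝ} (ht : 0 < t) (ht1 : t ≤ 1) :
    t * ∫ x in K, ‖S x - T x‖ ^ 2 ≤ 2 * R * ((d : ℝ) *
      ((volume K).toReal * (2 * (b + 1) * ∫ p, ‖p.1 - p.2‖ ∂π))
      + (d : ℝ) * (R * (volume (closedBall (0 : Space d) (b + 2))).toReal * t ^ 2)) := by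
  set B := b + 1 with hB
  have hB0 : 0 ≤ B := by linarith
  have hfin : IsFiniteMeasure (volume.restrict K) :=
    ⟨by rw [Measure.restrict_apply_univ]; exact hK.measure_lt_top⟩
  have hprob := isProbabilityMeasure_uniform hK hne
  have hc₁ := h₁.continuous
  have hc₂ := h₂.continuous
  have hR : 0 ≤ R := h₁.nonneg_R
  set ψ₁ := conj B φ₁ with hψ₁
  set ψ₂ := conj B φ₂ with hψ₂
  set v : Space d → ℝ := fun y => ψ₁ y - ψ₂ y with hv
  have hψ₁c := continuous_conj hB0 hc₁
  have hψ₂c := continuous_conj hB0 hc₂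
  have hvc : Continuous v := hψ₁c.sub hψ₂c
  obtain ⟨M, hM⟩ := (isCompact_closedBall (0 : Space d) R).exists_bound_of_continuousOn
    hvc.continuousOn
  obtain ⟨M₁, hM₁⟩ := (isCompact_closedBall (0 : Space d) R).exists_bound_of_continuousOn
    hψ₁c.continuousOn
  have hint : ∀ {F : Space d → Space d} {u : Space d → ℝ} {N : ℝ}, Measurable F → Continuous u →
      (∀ x, ‖F x‖ ≤ R) → (∀ y ∈ closedBall (0 : Space d) R, ‖u y‖ ≤ N) →
      IntegrableOn (fun x => u (F x)) K := fun hF hu hFb hN =>
    Integrable.of_bound (hu.measurable.comp hF).aestronglyMeasurable _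
      (Eventually.of_forall fun x => hN _ (mem_closedBall_zero_iff.2 (hFb x)))
  set G : Space d → ℝ := fun x => ψ₁ (S x) + φ₁ x - ⟪x, S x⟫ with hG
  have hGi : IntegrableOn G K :=
    ((hint hSm hψ₁c hS hM₁).add (hc₁.continuousOn.integrableOn_compact hK)).sub
      (integrableOn_inner hK hSm hS)
  have hsd : ∀ i : Fin d,
      IntegrableOn (fun x => secDiff φ₁ (t • EuclideanSpace.single i 1) x) K := fun i => by
    refine ContinuousOn.integrableOn_compact hK ?_
    unfold secDiff; fun_prop
  have hmem : ∀ᵐ x ∂volume.restrict K, x ∈ K := ae_restrict_mem hK.measurableSet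
  have hpt : ∀ᵐ x ∂volume.restrict K, t * ‖S x - T x‖ ^ 2 ≤ 2 * R * ((d : ℝ) * G x
      + ∑ i, secDiff φ₁ (t • EuclideanSpace.single i 1) x) := by
    filter_upwards [h₁.subgrad, hmem] with x hx hxK
    exact sq_norm_sub_le ht hc₁ hT hS (by linarith [hKb x hxK]) hx
  have hdiff : IntegrableOn (fun x => ‖S x - T x‖ ^ 2) K :=
    Integrable.of_bound ((hSm.sub hTm).norm.pow_const 2).aestronglyMeasurable ((2 * R) ^ 2)
      (Eventually.of_forall fun x => by
        rw [Real.norm_eq_abs, abs_of_nonneg (sq_nonneg _)]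
        exact pow_le_pow_left₀ (norm_nonneg _)
          ((norm_sub_le _ _).trans (by linarith [hT x, hS x])) 2)
  rw [← integral_const_mul]
  refine (integral_mono_ae (hdiff.const_mul t)
    (((hGi.const_mul _).add (integrable_finsetSum _ fun i _ => hsd i)).const_mul _) hpt).trans ?_
  rw [integral_const_mul, integral_add' (hGi.const_mul _) (integrable_finsetSum _ fun i _ => hsd i),
    integral_finsetSum _ fun i _ => hsd i, integral_const_mul]
  refine mul_le_mul_of_nonneg_left (add_le_add (mul_le_mul_of_nonneg_left ?_ (Nat.cast_nonneg _)) ?_)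
    (by linarith)
  · have hGle : ∀ᵐ x ∂volume.restrict K, G x ≤ v (S x) - v (T x) := by
      filter_upwards [h₁.subgrad, h₂.subgrad, hmem] with x hx₁ hx₂ hxK
      have hxB : ‖x‖ ≤ B := by linarith [hKb x hxK]
      have e₁ := conj_eq hc₁ hxB hx₁
      have e₂ := conj_eq hc₂ hxB hx₂
      have l₂ := le_conj hc₂ (T x) hxB
      simp only [hG, hv, hψ₁, hψ₂]
      linarith
    refine (integral_mono_ae hGi ((hint hSm hvc hS hM).sub (hint hTm hvc hT hM)) hGle).trans ?_
    rw [integral_sub' (hint hSm hvc hS hM) (hint hTm hvc hT hM)]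
    have hvol : 0 < (volume K).toReal :=
      ENNReal.toReal_pos (volume_pos_of_interior hne) hK.measure_lt_top.ne
    have e : ∀ {F : Space d → Space d} {η : Measure (Space d)}, Measurable F →
        (uniform K).map F = η → ∫ x in K, v (F x) = (volume K).toReal * ∫ y, v y ∂η := by
      intro F η hF hη
      rw [← hη, integral_map hF.aemeasurable hvc.aestronglyMeasurable, integral_uniform,
        ← mul_assoc, mul_inv_cancel₀ hvol.ne', one_mul]
    rw [e hSm hν, e hTm hμ, ← mul_sub]
    refine mul_le_mul_of_nonneg_left ?_ hvol.le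
    have hiS : Integrable v ν := by
      rw [← hν]
      exact (integrable_map_measure hvc.aestronglyMeasurable hSm.aemeasurable).2
        (Integrable.of_bound (hvc.measurable.comp hSm).aestronglyMeasurable _
          (Eventually.of_forall fun x => hM _ (mem_closedBall_zero_iff.2 (hS x))))
    have hiT : Integrable v μ := by
      rw [← hμ]
      exact (integrable_map_measure hvc.aestronglyMeasurable hTm.aemeasurable).2
        (Integrable.of_bound (hvc.measurable.comp hTm).aestronglyMeasurable _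
          (Eventually.of_forall fun x => hM _ (mem_closedBall_zero_iff.2 (hT x))))
    have p1 : Integrable (fun p : Space d × Space d => v p.1) π := by
      rw [← hπ₁] at hiT
      exact (integrable_map_measure hvc.aestronglyMeasurable measurable_fst.aemeasurable).1 hiT
    have p2 : Integrable (fun p : Space d × Space d => v p.2) π := by
      rw [← hπ₂] at hiS
      exact (integrable_map_measure hvc.aestronglyMeasurable measurable_snd.aemeasurable).1 hiS
    rw [← hπ₁, ← hπ₂, Measure.fst, Measure.snd,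
      integral_map measurable_snd.aemeasurable hvc.aestronglyMeasurable,
      integral_map measurable_fst.aemeasurable hvc.aestronglyMeasurable,
      ← integral_sub p2 p1, ← integral_const_mul]
    refine integral_mono (p2.sub p1) (hπi.const_mul _) fun p => ?_
    have a1 := conj_sub_le hB0 hc₁ p.2 p.1
    have a2 := conj_sub_le hB0 hc₂ p.1 p.2
    rw [norm_sub_rev p.2 p.1] at a1
    simp only [hv, hψ₁, hψ₂]
    linarith
  · refine (sum_le_sum fun i _ => integral_secDiff_le h₁ hK hKb
      (v := t • EuclideanSpace.single i 1) (by simp [norm_smul, abs_of_pos ht, ht1])).trans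
      (le_of_eq ?_)
    simp [norm_smul, abs_of_pos ht]

theorem le_const_mul_sqrt {I W M M₀ : ℝ} (hW : 0 ≤ W) (hM : 0 ≤ M) (hM₀ : 0 ≤ M₀)
    (h : ∀ t, 0 < t → t ≤ 1 → W ≤ t ^ 2 → I ≤ M * t) (h₀ : I ≤ M₀) :
    I ≤ (M + M₀) * √W := by
  rcases le_or_gt 1 W with hW1 | hW1
  · calc I ≤ (M + M₀) * 1 := by linarith
      _ ≤ _ := mul_le_mul_of_nonneg_left (Real.one_le_sqrt.2 hW1) (by linarith)
  rcases eq_or_lt_of_le hW with rfl | hW0
  · rw [Real.sqrt_zero, mul_zero]
    by_contra hI
    rw [not_le] at hI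
    have ht : (0 : ℝ) < min 1 (I / (2 * (M + 1))) := lt_min one_pos (by positivity)
    have h1 := h _ ht (min_le_left _ _) (sq_nonneg _)
    have h2 : M * min 1 (I / (2 * (M + 1))) ≤ (M + 1) * (I / (2 * (M + 1))) :=
      mul_le_mul (by linarith) (min_le_right _ _) ht.le (by linarith)
    have h3 : (M + 1) * (I / (2 * (M + 1))) = I / 2 := by field_simp
    linarith
  · refine (h _ (Real.sqrt_pos.2 hW0) (Real.sqrt_le_one.2 hW1.le) (Real.sq_sqrt hW).ge).trans ?_
    exact mul_le_mul_of_nonneg_right (by linarith) (Real.sqrt_nonneg _)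

/-- The stability estimate with exponent one quarter in the distance of order one. -/
theorem stability [NeZero d] (hK : IsCompact K) (hKc : Convex ℝ K) (hne : (interior K).Nonempty)
    {Y : Set (Space d)} (hY : IsCompact Y) :
    ∃ C : ℝ≥0, ∀ μ ν : Measure (Space d), IsProbabilityMeasure μ → IsProbabilityMeasure ν →
      μ Yᶜ = 0 → ν Yᶜ = 0 → ∀ T S : Space d → Space d,
        IsOptimalMap (uniform K) μ T → IsOptimalMap (uniform K) ν S →
          eLpNorm (fun x => T x - S x) 2 (uniform K) ≤ C * W1 μ ν ^ (1 / 4 : ℝ) := by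
  obtain ⟨R, hR0, hYR⟩ : ∃ R : ℝ, 0 ≤ R ∧ Y ⊆ closedBall 0 R := by
    obtain ⟨R, hR⟩ := hY.isBounded.subset_closedBall 0
    exact ⟨max R 0, le_max_right _ _, hR.trans (closedBall_subset_closedBall (le_max_left _ _))⟩
  obtain ⟨b, hb0, hKb⟩ : ∃ b : ℝ, 0 ≤ b ∧ ∀ x ∈ K, ‖x‖ ≤ b := by
    obtain ⟨b, hb⟩ := hK.isBounded.exists_norm_le
    exact ⟨max b 0, le_max_right _ _, fun x hx => (hb x hx).trans (le_max_left _ _)⟩
  set L := (volume K).toReal with hLdef
  have hL : 0 < L := ENNReal.toReal_pos (volume_pos_of_interior hne) hK.measure_lt_top.ne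
  set M := 2 * R * ((d : ℝ) * (L * (2 * (b + 1)))
    + (d : ℝ) * (R * (volume (closedBall (0 : Space d) (b + 2))).toReal)) with hMdef
  set M₀ := (2 * R) ^ 2 * L with hM₀def
  have hM : 0 ≤ M := by rw [hMdef]; positivity
  have hM₀ : 0 ≤ M₀ := by rw [hM₀def]; positivity
  set C : ℝ := √((M + M₀) / L) + 1 with hCdef
  have hC : 0 < C := by rw [hCdef]; positivity
  refine ⟨C.toNNReal, fun μ ν hμp hνp hμY hνY T S hT hS => ?_⟩
  have hμR : μ (closedBall 0 R)ᶜ = 0 := measure_mono_null (Set.compl_subset_compl.2 hYR) hμY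
  have hνR : ν (closedBall 0 R)ᶜ = 0 := measure_mono_null (Set.compl_subset_compl.2 hYR) hνY
  obtain ⟨T₀, hTm, hTb, hTbest, hTae, hTmap⟩ := hT.exists_best hK hne hR0 hμR
  obtain ⟨S₀, hSm, hSb, hSbest, hSae, hSmap⟩ := hS.exists_best hK hne hR0 hνR
  obtain ⟨φ₁, hφ₁⟩ := exists_potential hK hKc hTm hTb hTbest
  obtain ⟨φ₂, hφ₂⟩ := exists_potential hK hKc hSm hSb hSbest
  have hprob := isProbabilityMeasure_uniform hK hne
  set N := eLpNorm (fun x => T x - S x) 2 (uniform K) with hN
  set I := ∫ x in K, ‖S₀ x - T₀ x‖ ^ 2 with hI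
  have hfin : IsFiniteMeasure (volume.restrict K) :=
    ⟨by rw [Measure.restrict_apply_univ]; exact hK.measure_lt_top⟩
  have hdb : ∀ x, ‖‖S₀ x - T₀ x‖ ^ 2‖ ≤ (2 * R) ^ 2 := fun x => by
    rw [Real.norm_eq_abs, abs_of_nonneg (sq_nonneg _)]
    exact pow_le_pow_left₀ (norm_nonneg _)
      ((norm_sub_le _ _).trans (by linarith [hTb x, hSb x])) 2
  have hI0 : 0 ≤ I := integral_nonneg fun x => sq_nonneg _
  have hIM₀ : I ≤ M₀ := by
    refine (le_abs_self _).trans ?_
    rw [← Real.norm_eq_abs]
    refine (norm_integral_le_of_norm_le_const (Eventually.of_forall hdb)).trans (le_of_eq ?_)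
    rw [measureReal_restrict_apply_univ, measureReal_def]
  have hNeq : N = ENNReal.ofReal √(I / L) := by
    rw [hN, eLpNorm_congr_ae (f := fun x => T x - S x) (g := fun x => T₀ x - S₀ x)
        (by filter_upwards [hTae, hSae] with x h1 h2; rw [h1, h2]),
      eLpNorm_eq_lintegral_rpow_enorm_toReal two_ne_zero ENNReal.ofNat_ne_top, Real.sqrt_eq_rpow,
      ← ENNReal.ofReal_rpow_of_nonneg (div_nonneg hI0 hL.le) (by norm_num)]
    simp only [ENNReal.toReal_ofNat]
    congr 1
    rw [div_eq_inv_mul, hI, hLdef, ← integral_uniform,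
      ofReal_integral_eq_lintegral_ofReal (f := fun x => ‖S₀ x - T₀ x‖ ^ 2)
        (Integrable.of_bound ((hSm.sub hTm).norm.pow_const 2).aestronglyMeasurable _
          (Eventually.of_forall hdb)) (Eventually.of_forall fun x => sq_nonneg _)]
    refine lintegral_congr fun x => ?_
    rw [← ofReal_norm, norm_sub_rev, ENNReal.ofReal_rpow_of_nonneg (norm_nonneg _) zero_le_two,
      Real.rpow_two]
  have key : ∀ π : Measure (Space d × Space d), π.fst = μ ∧ π.snd = ν →
      (N / ENNReal.ofReal C) ^ (4 : ℝ) ≤ ∫⁻ p, ‖p.1 - p.2‖ₑ ∂π := by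
    rintro π ⟨hπ₁, hπ₂⟩
    by_cases htop : ∫⁻ p, ‖p.1 - p.2‖ₑ ∂π = ⊤
    · rw [htop]; exact le_top
    have hπi : Integrable (fun p : Space d × Space d => ‖p.1 - p.2‖) π :=
      ⟨(measurable_fst.sub measurable_snd).norm.aestronglyMeasurable, by
        unfold HasFiniteIntegral; simpa using lt_top_iff_ne_top.2 htop⟩
    set W := ∫ p, ‖p.1 - p.2‖ ∂π with hW
    have hW0 : 0 ≤ W := integral_nonneg fun p => norm_nonneg _
    have hlin : ∫⁻ p, ‖p.1 - p.2‖ₑ ∂π = ENNReal.ofReal W := by
      rw [hW, ofReal_integral_eq_lintegral_ofReal hπi (Eventually.of_forall fun p => norm_nonneg _)]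
      simp only [ofReal_norm]
    have hIW : I ≤ (M + M₀) * √W := by
      refine le_const_mul_sqrt hW0 hM hM₀ (fun t ht ht1 hWt => ?_) hIM₀
      have h := integral_sq_le hK hne hTm hSm hTb hSb hφ₁ hφ₂ hTmap hSmap hπ₁ hπ₂ hπi hb0 hKb ht ht1
      refine le_of_mul_le_mul_left (h.trans ?_) ht
      rw [hMdef, ← hLdef]
      have h5 := mul_le_mul_of_nonneg_left hWt
        (show 0 ≤ 2 * R * ((d : ℝ) * (L * (2 * (b + 1)))) by positivity)
      calc 2 * R * ((d : ℝ) * (L * (2 * (b + 1) * W))
            + (d : ℝ) * (R * (volume (closedBall (0 : Space d) (b + 2))).toReal * t ^ 2))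
          = 2 * R * ((d : ℝ) * (L * (2 * (b + 1)))) * W + 2 * R * ((d : ℝ)
            * (R * (volume (closedBall (0 : Space d) (b + 2))).toReal * t ^ 2)) := by ring
        _ ≤ _ := by linarith
    rw [hlin, hNeq, ← ENNReal.ofReal_div_of_pos hC,
      ENNReal.ofReal_rpow_of_nonneg (by positivity) (by norm_num)]
    refine ENNReal.ofReal_le_ofReal ?_
    rw [show (4 : ℝ) = ((4 : ℕ) : ℝ) by norm_num, Real.rpow_natCast, div_pow,
      div_le_iff₀ (by positivity)]
    have hc2 : (M + M₀) / L ≤ C ^ 2 := by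
      rw [← Real.sq_sqrt (show 0 ≤ (M + M₀) / L by positivity)]
      exact pow_le_pow_left₀ (Real.sqrt_nonneg _) (by rw [hCdef]; linarith) 2
    have hIL : I / L ≤ C ^ 2 * √W := by
      refine le_trans (div_le_div_of_nonneg_right hIW hL.le) ?_
      rw [mul_div_right_comm]
      exact mul_le_mul_of_nonneg_right hc2 (Real.sqrt_nonneg _)
    calc √(I / L) ^ 4 = (I / L) ^ 2 := by
          rw [show (4 : ℕ) = 2 * 2 from rfl, pow_mul, Real.sq_sqrt (by positivity)]
      _ ≤ (C ^ 2 * √W) ^ 2 := pow_le_pow_left₀ (by positivity) hIL 2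
      _ = W * C ^ 4 := by rw [mul_pow, Real.sq_sqrt hW0]; ring
  have hle : (N / ENNReal.ofReal C) ^ (4 : ℝ) ≤ W1 μ ν := le_iInf₂ key
  have h2 := ENNReal.rpow_le_rpow hle (show (0 : ℝ) ≤ 1 / 4 by norm_num)
  rw [← ENNReal.rpow_mul, show (4 : ℝ) * (1 / 4) = 1 by norm_num, ENNReal.rpow_one,
    ENNReal.div_le_iff' (by simpa using hC) ENNReal.ofReal_ne_top] at h2
  exact h2

/-- The distance of order one is at most the distance of order two. -/
theorem W1_le_W2 {μ ν : Measure (Space d)} (hμ : IsProbabilityMeasure μ) :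
    W1 μ ν ≤ W2 μ ν := by
  have key : ∀ π : Measure (Space d × Space d), π.fst = μ ∧ π.snd = ν →
      W1 μ ν ^ (2 : ℝ) ≤ ∫⁻ p, ‖p.1 - p.2‖ₑ ^ 2 ∂π := by
    rintro π ⟨hπ₁, hπ₂⟩
    have : IsProbabilityMeasure π := ⟨by rw [← Measure.fst_univ, hπ₁, measure_univ]⟩
    have hm : AEStronglyMeasurable (fun p : Space d × Space d => p.1 - p.2) π :=
      (measurable_fst.sub measurable_snd).aestronglyMeasurable
    have h := eLpNorm_le_eLpNorm_of_exponent_le (p := 1) (q := 2) one_le_two hm
    rw [eLpNorm_one_eq_lintegral_enorm,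
      eLpNorm_eq_lintegral_rpow_enorm_toReal two_ne_zero ENNReal.ofNat_ne_top] at h
    simp only [ENNReal.toReal_ofNat, ENNReal.rpow_two] at h
    have h1 : W1 μ ν ≤ ∫⁻ p, ‖p.1 - p.2‖ₑ ∂π := iInf₂_le π ⟨hπ₁, hπ₂⟩
    refine (ENNReal.rpow_le_rpow (h1.trans h) zero_le_two).trans (le_of_eq ?_)
    rw [← ENNReal.rpow_mul]; norm_num
  have h := ENNReal.rpow_le_rpow (le_iInf₂ key) (show (0 : ℝ) ≤ 1 / 2 by norm_num)
  rw [← ENNReal.rpow_mul, show (2 : ℝ) * (1 / 2) = 1 by norm_num, ENNReal.rpow_one] at h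
  exact h

end Vale.Agent.P074
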