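import Vale.Agent.P074.Approx
import Mathlib.Analysis.SpecialFunctions.Pow.Continuity

/-!
The stability estimate with exponent one third.
-/

open MeasureTheory Finset Metric Filter Topology
open scoped ENNReal NNReal RealInnerProductSpace

namespace Vale.Agent.P074

variable {d : ℕ}

theorem eLpNorm_le_sqrt {K : Set (Space d)} (hK : IsCompact K) (hne : (interior K).Nonempty)
    {F : Space d → Space d} (hF : Measurable F) {B : ℝ} (hB : ∀ x, ‖F x‖ ≤ B) {M : ℝ}
    (hM : ∫ x in K, ‖F x‖ ^ 2 ≤ M) :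
    eLpNorm F 2 (uniform K) ≤ ENNReal.ofReal √(M / (volume K).toReal) := by
  have hL : 0 < (volume K).toReal :=
    ENNReal.toReal_pos (volume_pos_of_interior hne) hK.measure_lt_top.ne
  have hi : Integrable (fun x => ‖F x‖ ^ 2) (uniform K) :=
    haveI := isProbabilityMeasure_uniform hK hne
    Integrable.of_bound (hF.norm.pow_const 2).aestronglyMeasurable (B ^ 2)
      (Eventually.of_forall fun x => by
        rw [Real.norm_eq_abs, abs_of_nonneg (sq_nonneg _)]
        exact pow_le_pow_left₀ (norm_nonneg _) (hB x) 2)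
  rw [eLpNorm_eq_lintegral_rpow_enorm_toReal two_ne_zero ENNReal.ofNat_ne_top,
    Real.sqrt_eq_rpow, ← ENNReal.ofReal_rpow_of_nonneg
      (div_nonneg ((integral_nonneg fun x => sq_nonneg _).trans hM) hL.le) (by norm_num)]
  simp only [ENNReal.toReal_ofNat]
  refine ENNReal.rpow_le_rpow ?_ (by norm_num)
  refine le_trans (le_of_eq ?_) (ENNReal.ofReal_le_ofReal (div_le_div_of_nonneg_right hM hL.le))
  rw [div_eq_inv_mul, ← integral_uniform,
    ofReal_integral_eq_lintegral_ofReal hi (Eventually.of_forall fun x => sq_nonneg _)]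
  refine lintegral_congr fun x => ?_
  rw [← ofReal_norm, ENNReal.ofReal_rpow_of_nonneg (norm_nonneg _) zero_le_two, Real.rpow_two]

/-- Entropic approximants of two maps, controlled by a coupling. -/
theorem exists_approx [NeZero d] {K : Set (Space d)} (hK : IsCompact K) (hKc : Convex ℝ K)
    (hne : (interior K).Nonempty) {R r : ℝ} (hr : 0 < r) (hKr : ∀ x ∈ K, ‖x‖ ≤ r) :
    ∃ C C' : ℝ, 0 ≤ C ∧ 0 ≤ C' ∧ ∀ (π : Measure (Space d × Space d)), IsProbabilityMeasure π →
      (∀ᵐ p ∂π, ‖p.1‖ ≤ R ∧ ‖p.2‖ ≤ R) → ∀ η ∈ Set.Ioc (0 : ℝ) 1,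
      ∃ T' S' : Space d → Space d, Measurable T' ∧ Measurable S' ∧
        (∀ x, ‖T' x‖ ≤ R) ∧ (∀ x, ‖S' x‖ ≤ R) ∧
        IsOptimalMap (uniform K) ((uniform K).map T') T' ∧
        IsOptimalMap (uniform K) ((uniform K).map S') S' ∧
        W1 ((uniform K).map T') π.fst ≤ ENNReal.ofReal (C' * η) ∧
        W1 ((uniform K).map S') π.snd ≤ ENNReal.ofReal (C' * η) ∧
        eLpNorm (fun x => T' x - S' x) 2 (uniform K) ≤ ENNReal.ofReal
          √(C * (∫ p, ‖p.1 - p.2‖ ^ 2 ∂π + (8 * R + 12) * η) ^ (1 / 3 : ℝ)) := by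
  obtain ⟨C₂, hC₂, hcbrt⟩ := integral_sq_le_cbrt hK hKc hne R
  set V := (volume K).toReal with hV
  have hV0 : 0 < V := ENNReal.toReal_pos (volume_pos_of_interior hne) hK.measure_lt_top.ne
  set C' := 3 / 2 + 2 * d * (|R| * (volume (closedBall (0 : Space d) (r + 2))).toReal) / V with hC'
  refine ⟨C₂ * (6 * r ^ 2 * V) ^ (1 / 3 : ℝ) / V, C', by positivity, by positivity,
    fun π hπp hsupp η hη => ?_⟩
  obtain ⟨n, A, c, hA, hA0, hsum, hcR, hclose⟩ := exists_partition π hη.1 hsupp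
  have hne' : Nonempty (Fin n) := by
    refine not_isEmpty_iff.1 fun h => ?_
    have := congrArg (fun m : Measure (Space d × Space d) => m Set.univ) hsum
    simp [Measure.sum_apply _ MeasurableSet.univ] at this
  obtain ⟨i₀⟩ := id hne'
  have hR : 0 ≤ R := (norm_nonneg _).trans (hcR i₀).1
  rw [abs_of_nonneg hR] at hC'
  set m : Fin n → ℝ := fun i => V * (π (A i)).toReal with hm
  have hm0 : ∀ i, 0 < m i := fun i =>
    mul_pos hV0 (ENNReal.toReal_pos (hA0 i) (measure_ne_top π _))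
  have h1 : ∑ i, (π (A i)).toReal = 1 := by
    rw [← ENNReal.toReal_sum fun i _ => measure_ne_top π _]
    have := congrArg (fun m : Measure (Space d × Space d) => m Set.univ) hsum
    rw [Measure.sum_apply _ MeasurableSet.univ, tsum_fintype] at this
    simp only [Measure.restrict_apply_univ, measure_univ] at this
    rw [this, ENNReal.toReal_one]
  obtain ⟨b₀, b₁, hb₀, hb₁, c₀, hc₀⟩ := potential_bound hK hKc
    (pos_iff_ne_zero.2 (volume_pos_of_interior hne)) hr hKr hm0
    (by rw [hm, ← mul_sum, h1, mul_one])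
    (fun i => (η ^ 2)⁻¹ • (c i).1) (fun i => (η ^ 2)⁻¹ • (c i).2)
  have hε : 0 < η ^ 2 := pow_pos hη.1 2
  set T' := softMap (η ^ 2) (fun i => (c i).1) b₀ with hT'
  set S' := softMap (η ^ 2) (fun i => (c i).2) b₁ with hS'
  have hTb : ∀ x, ‖T' x‖ ≤ R := norm_softMap_le fun i => (hcR i).1
  have hSb : ∀ x, ‖S' x‖ ≤ R := norm_softMap_le fun i => (hcR i).2
  have hPT := isPotential_softPot (b := b₀) hε (fun i => (hcR i).1) K
  have hPS := isPotential_softPot (b := b₁) hε (fun i => (hcR i).2) K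
  refine ⟨T', S', measurable_softMap, measurable_softMap, hTb, hSb,
    isOptimalMap_of_subgrad hK hne measurable_softMap hTb hPT.continuous (softPot_subgrad hε),
    isOptimalMap_of_subgrad hK hne measurable_softMap hSb hPS.continuous (softPot_subgrad hε),
    ?_, ?_, ?_⟩
  · rw [hC', Measure.fst]
    exact W1_softMap_le hK hne hKr hη.1 hη.2 π measurable_fst hA hA0 hsum (fun i => (hcR i).1)
      (fun i p hp => (hclose i p hp).1) hb₀
  · rw [hC', Measure.snd]
    exact W1_softMap_le hK hne hKr hη.1 hη.2 π measurable_snd hA hA0 hsum (fun i => (hcR i).2)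
      (fun i p hp => (hclose i p hp).2) hb₁
  set D := ∫ p, ‖p.1 - p.2‖ ^ 2 ∂π with hD
  have hsqi : Integrable (fun p : Space d × Space d => ‖p.1 - p.2‖ ^ 2) π :=
    Integrable.of_bound ((measurable_fst.sub measurable_snd).norm.pow_const 2).aestronglyMeasurable
      ((2 * R) ^ 2) (hsupp.mono fun p hp => by
        rw [Real.norm_eq_abs, abs_of_nonneg (sq_nonneg _)]
        exact pow_le_pow_left₀ (norm_nonneg _) ((norm_sub_le _ _).trans (by linarith [hp.1, hp.2])) 2)
  have hcost : ∑ i, m i * ‖(c i).2 - (c i).1‖ ^ 2 ≤ V * (D + (8 * R + 12) * η) := by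
    set q : Space d × Space d → ℝ := fun p => ‖p.1 - p.2‖ ^ 2 + (8 * R + 12) * η with hq
    have hqi : Integrable q π := hsqi.add (integrable_const _)
    have e : D + (8 * R + 12) * η = ∑ i, ∫ p in A i, q p ∂π := by
      rw [← integral_finsetSum_measure fun i _ => hqi.integrableOn, ← Measure.sum_fintype, hsum,
        hq, integral_add hsqi (integrable_const _), integral_const]
      simp [hD]
    rw [e, mul_sum]
    refine sum_le_sum fun i _ => ?_
    rw [hm, mul_assoc]
    refine mul_le_mul_of_nonneg_left ?_ hV0.le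
    refine le_trans (le_of_eq ?_) (setIntegral_mono_on (f := fun _ => ‖(c i).2 - (c i).1‖ ^ 2)
      integrableOn_const hqi.integrableOn (hA i) fun p hp => ?_)
    · rw [setIntegral_const, smul_eq_mul]; rfl
    have hp' := hclose i p hp
    have h2 : ‖(c i).2 - (c i).1‖ ≤ ‖p.1 - p.2‖ + 2 * η := by
      have : (c i).2 - (c i).1 = (p.1 - (c i).1) - (p.2 - (c i).2) - (p.1 - p.2) := by abel
      rw [this]
      linarith [norm_sub_le ((p.1 - (c i).1) - (p.2 - (c i).2)) (p.1 - p.2),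
        norm_sub_le (p.1 - (c i).1) (p.2 - (c i).2)]
    have h3 : ‖p.1 - p.2‖ ≤ 2 * R + 2 := by
      have : p.1 - p.2 = (p.1 - (c i).1) - (p.2 - (c i).2) + ((c i).1 - (c i).2) := by abel
      rw [this]
      linarith [norm_add_le ((p.1 - (c i).1) - (p.2 - (c i).2)) ((c i).1 - (c i).2),
        norm_sub_le (p.1 - (c i).1) (p.2 - (c i).2), norm_sub_le (c i).1 (c i).2, hcR i, hη.2]
    have := pow_le_pow_left₀ (norm_nonneg _) h2 2
    simp only [hq]
    nlinarith [mul_le_mul_of_nonneg_left h3 hη.1.le, mul_le_mul_of_nonneg_left hη.2 hη.1.le]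
  set U := 6 * r ^ 2 * V * (D + (8 * R + 12) * η) with hU
  have hD0 : 0 ≤ D := integral_nonneg fun p => sq_nonneg _
  have hW0 : 0 < D + (8 * R + 12) * η := by
    have := mul_pos (show (0 : ℝ) < 8 * R + 12 by linarith) hη.1
    linarith
  have hU0 : 0 < U := by positivity
  have hpot : ∫ x in K, (softPot (η ^ 2) (fun i => (c i).2) b₁ x
      - softPot (η ^ 2) (fun i => (c i).1) b₀ x - η ^ 2 * c₀) ^ 2 ≤ U := by
    simp only [softPot, ← mul_sub, mul_pow]
    rw [integral_const_mul]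
    refine (mul_le_mul_of_nonneg_left hc₀ (by positivity)).trans ?_
    simp only [← smul_sub, norm_smul, mul_pow, norm_inv, Real.norm_of_nonneg hε.le,
      mul_left_comm (m _) (((η ^ 2)⁻¹) ^ 2), ← mul_sum]
    have e : ((η ^ 2)⁻¹) ^ 2 * (η ^ 2) ^ 2 = 1 := by
      rw [← mul_pow, inv_mul_cancel₀ hε.ne', one_pow]
    calc (η ^ 2) ^ 2 * (6 * r ^ 2 * (((η ^ 2)⁻¹) ^ 2 * ∑ i, m i * ‖(c i).2 - (c i).1‖ ^ 2))
        = 6 * r ^ 2 * (((η ^ 2)⁻¹) ^ 2 * (η ^ 2) ^ 2) * ∑ i, m i * ‖(c i).2 - (c i).1‖ ^ 2 := by ring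
      _ = 6 * r ^ 2 * ∑ i, m i * ‖(c i).2 - (c i).1‖ ^ 2 := by rw [e, mul_one]
      _ ≤ U := by
          rw [hU, mul_assoc (6 * r ^ 2)]
          exact mul_le_mul_of_nonneg_left hcost (by positivity)
  have hI := hcbrt S' T' _ _ (-(η ^ 2 * c₀)) U measurable_softMap measurable_softMap hSb hTb hPS hPT
    hU0 (le_trans (le_of_eq (integral_congr_ae (Eventually.of_forall fun x => by ring))) hpot)
  refine (eLpNorm_le_sqrt hK hne (measurable_softMap.sub measurable_softMap)
    (fun x => (norm_sub_le _ _).trans (add_le_add (hTb x) (hSb x))) hI).trans (le_of_eq ?_)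
  rw [hU, Real.mul_rpow (by positivity) hW0.le, ← hV]
  congr 2
  ring

/-- The stability estimate with exponent one third. -/
theorem stability_third [NeZero d] {K : Set (Space d)} (hK : IsCompact K) (hKc : Convex ℝ K)
    (hne : (interior K).Nonempty) {Y : Set (Space d)} (hY : IsCompact Y) :
    ∃ C : ℝ≥0, ∀ μ ν : Measure (Space d), IsProbabilityMeasure μ → IsProbabilityMeasure ν →
      μ Yᶜ = 0 → ν Yᶜ = 0 → ∀ T S : Space d → Space d,
        IsOptimalMap (uniform K) μ T → IsOptimalMap (uniform K) ν S →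
          eLpNorm (fun x => T x - S x) 2 (uniform K) ≤ C * W2 μ ν ^ (1 / 3 : ℝ) := by
  obtain ⟨R, hR0, hYR⟩ : ∃ R : ℝ, 0 ≤ R ∧ Y ⊆ closedBall 0 R := by
    obtain ⟨R, hR⟩ := hY.isBounded.subset_closedBall 0
    exact ⟨max R 0, le_max_right _ _, hR.trans (closedBall_subset_closedBall (le_max_left _ _))⟩
  obtain ⟨r, hr, hKr⟩ := hK.isBounded.exists_pos_norm_le
  obtain ⟨C, C', hC, hC', happ⟩ := exists_approx (R := R) hK hKc hne hr hKr
  obtain ⟨C₁, hC₁⟩ := stability hK hKc hne (isCompact_closedBall (0 : Space d) R)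
  set C₃ : ℝ := √C + 1 with hC₃
  have hC₃0 : 0 < C₃ := by rw [hC₃]; positivity
  refine ⟨C₃.toNNReal, fun μ ν hμp hνp hμY hνY T S hT hS => ?_⟩
  have hμR : μ (closedBall 0 R)ᶜ = 0 := measure_mono_null (Set.compl_subset_compl.2 hYR) hμY
  have hνR : ν (closedBall 0 R)ᶜ = 0 := measure_mono_null (Set.compl_subset_compl.2 hYR) hνY
  set N := eLpNorm (fun x => T x - S x) 2 (uniform K) with hN
  have hprob := isProbabilityMeasure_uniform hK hne
  have key : ∀ π : Measure (Space d × Space d), π.fst = μ ∧ π.snd = ν →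
      (N / ENNReal.ofReal C₃) ^ (6 : ℝ) ≤ ∫⁻ p, ‖p.1 - p.2‖ₑ ^ 2 ∂π := by
    rintro π ⟨hπ₁, hπ₂⟩
    have hπp : IsProbabilityMeasure π := ⟨by rw [← Measure.fst_univ, hπ₁, measure_univ]⟩
    have hsupp : ∀ᵐ p ∂π, ‖p.1‖ ≤ R ∧ ‖p.2‖ ≤ R := by
      have h1 : π (Prod.fst ⁻¹' (closedBall (0 : Space d) R)ᶜ) = 0 := by
        rw [← Measure.fst_apply measurableSet_closedBall.compl, hπ₁, hμR]
      have h2 : π (Prod.snd ⁻¹' (closedBall (0 : Space d) R)ᶜ) = 0 := by
        rw [← Measure.snd_apply measurableSet_closedBall.compl, hπ₂, hνR]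
      filter_upwards [measure_eq_zero_iff_ae_notMem.1 h1, measure_eq_zero_iff_ae_notMem.1 h2]
        with p a b
      simp only [Set.mem_preimage, Set.mem_compl_iff, mem_closedBall_zero_iff, not_not] at a b
      exact ⟨a, b⟩
    set D := ∫ p, ‖p.1 - p.2‖ ^ 2 ∂π with hD
    have hD0 : 0 ≤ D := integral_nonneg fun p => sq_nonneg _
    have hsqi : Integrable (fun p : Space d × Space d => ‖p.1 - p.2‖ ^ 2) π :=
      Integrable.of_bound ((measurable_fst.sub measurable_snd).norm.pow_const 2).aestronglyMeasurable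
        ((2 * R) ^ 2) (hsupp.mono fun p hp => by
          rw [Real.norm_eq_abs, abs_of_nonneg (sq_nonneg _)]
          exact pow_le_pow_left₀ (norm_nonneg _) ((norm_sub_le _ _).trans
            (by linarith [hp.1, hp.2])) 2)
    have hlin : ∫⁻ p, ‖p.1 - p.2‖ₑ ^ 2 ∂π = ENNReal.ofReal D := by
      rw [hD, ofReal_integral_eq_lintegral_ofReal hsqi (Eventually.of_forall fun p => sq_nonneg _)]
      refine lintegral_congr fun p => ?_
      rw [← ofReal_norm, ENNReal.ofReal_pow (norm_nonneg _)]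
    set f : ℝ → ℝ := fun η =>
      2 * ((C₁ : ℝ) * (C' * η) ^ (1 / 4 : ℝ)) + √(C * (D + (8 * R + 12) * η) ^ (1 / 3 : ℝ)) with hf
    have hb : ∀ η ∈ Set.Ioc (0 : ℝ) 1, N ≤ ENNReal.ofReal (f η) := by
      intro η hη
      obtain ⟨T', S', hTm', hSm', hTb', hSb', hTo, hSo, hWT, hWS, hTS⟩ := happ π hπp hsupp η hη
      have hp : ∀ {F : Space d → Space d}, Measurable F → (∀ x, ‖F x‖ ≤ R) →
          IsProbabilityMeasure ((uniform K).map F) ∧
            (uniform K).map F (closedBall (0 : Space d) R)ᶜ = 0 := fun {F} hF hFb =>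
        ⟨Measure.isProbabilityMeasure_map hF.aemeasurable, by
          rw [Measure.map_apply hF measurableSet_closedBall.compl]
          refine measure_mono_null (fun x hx => ?_) measure_empty
          exact absurd (mem_closedBall_zero_iff.2 (hFb x)) hx⟩
      have hstep : ∀ {F G : Space d → Space d} {α : Measure (Space d)}, IsProbabilityMeasure α →
          α (closedBall (0 : Space d) R)ᶜ = 0 → IsOptimalMap (uniform K) α G → Measurable F →
          (∀ x, ‖F x‖ ≤ R) → IsOptimalMap (uniform K) ((uniform K).map F) F →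
          W1 ((uniform K).map F) α ≤ ENNReal.ofReal (C' * η) →
          eLpNorm (fun x => F x - G x) 2 (uniform K)
            ≤ ENNReal.ofReal ((C₁ : ℝ) * (C' * η) ^ (1 / 4 : ℝ)) := by
        intro F G α hα hαR hG hFm hFb hFo hW
        refine (hC₁ _ α (hp hFm hFb).1 hα (hp hFm hFb).2 hαR F G hFo hG).trans ?_
        rw [ENNReal.ofReal_mul C₁.coe_nonneg, ENNReal.ofReal_coe_nnreal,
          ← ENNReal.ofReal_rpow_of_nonneg (mul_nonneg hC' hη.1.le) (by norm_num)]
        exact mul_le_mul' le_rfl (ENNReal.rpow_le_rpow hW (by norm_num))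
      have e1 := hstep hμp hμR hT hTm' hTb' hTo (hπ₁ ▸ hWT)
      have e2 := hstep hνp hνR hS hSm' hSb' hSo (hπ₂ ▸ hWS)
      have hmT : AEStronglyMeasurable (fun x => T x - T' x) (uniform K) :=
        (hT.1.sub hTm').aestronglyMeasurable
      have e1' : eLpNorm (fun x => T x - T' x) 2 (uniform K)
          ≤ ENNReal.ofReal ((C₁ : ℝ) * (C' * η) ^ (1 / 4 : ℝ)) := by
        refine le_trans (le_of_eq ?_) e1
        rw [show (fun x => T x - T' x) = -(fun x => T' x - T x) from
          funext fun x => (neg_sub _ _).symm, eLpNorm_neg]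
      have htri : N ≤ eLpNorm (fun x => T x - T' x) 2 (uniform K)
          + (eLpNorm (fun x => T' x - S' x) 2 (uniform K)
            + eLpNorm (fun x => S' x - S x) 2 (uniform K)) := by
        rw [hN, show (fun x => T x - S x)
          = (fun x => T x - T' x) + ((fun x => T' x - S' x) + fun x => S' x - S x) from
            funext fun x => by simp only [Pi.add_apply]; abel]
        have hmM : AEStronglyMeasurable (fun x => T' x - S' x) (uniform K) :=
          (hTm'.sub hSm').aestronglyMeasurable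
        have hmS : AEStronglyMeasurable (fun x => S' x - S x) (uniform K) :=
          (hSm'.sub hS.1).aestronglyMeasurable
        exact (eLpNorm_add_le hmT (hmM.add hmS) one_le_two).trans
          (add_le_add le_rfl (eLpNorm_add_le hmM hmS one_le_two))
      refine htri.trans ((add_le_add e1' (add_le_add hTS e2)).trans (le_of_eq ?_))
      have h0 : 0 ≤ (C₁ : ℝ) * (C' * η) ^ (1 / 4 : ℝ) :=
        mul_nonneg C₁.coe_nonneg (Real.rpow_nonneg (mul_nonneg hC' hη.1.le) _)
      rw [hf, ← ENNReal.ofReal_add (Real.sqrt_nonneg _) h0, ← ENNReal.ofReal_add h0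
        (add_nonneg (Real.sqrt_nonneg _) h0)]
      congr 1
      simp only [hD]
      ring
    have hlim : Tendsto (fun η => ENNReal.ofReal (f η)) (𝓝[>] 0)
        (𝓝 (ENNReal.ofReal √(C * D ^ (1 / 3 : ℝ)))) := by
      refine (ENNReal.continuous_ofReal.tendsto _).comp (Tendsto.mono_left ?_ nhdsWithin_le_nhds)
      refine Continuous.tendsto' ?_ 0 _ ?_
      · rw [hf]
        exact (continuous_const.mul (continuous_const.mul ((Real.continuous_rpow_const
          (by norm_num : (0 : ℝ) ≤ 1 / 4)).comp (continuous_const.mul continuous_id)))).add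
          (Real.continuous_sqrt.comp (continuous_const.mul ((Real.continuous_rpow_const
            (by norm_num : (0 : ℝ) ≤ 1 / 3)).comp
              (continuous_const.add (continuous_const.mul continuous_id)))))
      · simp [hf]
    have hN' : N ≤ ENNReal.ofReal √(C * D ^ (1 / 3 : ℝ)) := ge_of_tendsto hlim
      (by filter_upwards [Ioc_mem_nhdsGT one_pos] with η hη using hb η hη)
    have h2 : √(C * D ^ (1 / 3 : ℝ)) ≤ C₃ * D ^ (1 / 6 : ℝ) := by
      rw [Real.sqrt_mul hC, Real.sqrt_eq_rpow (D ^ _), ← Real.rpow_mul hD0,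
        show (1 / 3 : ℝ) * (1 / 2) = 1 / 6 by norm_num]
      exact mul_le_mul_of_nonneg_right (by rw [hC₃]; linarith) (Real.rpow_nonneg hD0 _)
    rw [hlin]
    have h3 : N / ENNReal.ofReal C₃ ≤ ENNReal.ofReal D ^ (1 / 6 : ℝ) := by
      refine ENNReal.div_le_of_le_mul' (hN'.trans ?_)
      rw [ENNReal.ofReal_rpow_of_nonneg hD0 (by norm_num), ← ENNReal.ofReal_mul hC₃0.le]
      exact ENNReal.ofReal_le_ofReal h2
    refine (ENNReal.rpow_le_rpow h3 (by norm_num)).trans (le_of_eq ?_)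
    rw [← ENNReal.rpow_mul, show (1 / 6 : ℝ) * 6 = 1 by norm_num, ENNReal.rpow_one]
  have h4 : (N / ENNReal.ofReal C₃) ^ (6 : ℝ)
      ≤ ⨅ (π : Measure (Space d × Space d)) (_ : π.fst = μ ∧ π.snd = ν),
        ∫⁻ p, ‖p.1 - p.2‖ₑ ^ 2 ∂π := le_iInf₂ key
  have h5 := ENNReal.rpow_le_rpow h4 (show (0 : ℝ) ≤ 1 / 6 by norm_num)
  rw [← ENNReal.rpow_mul, show (6 : ℝ) * (1 / 6) = 1 by norm_num, ENNReal.rpow_one,
    ENNReal.div_le_iff' (by simpa using hC₃0) ENNReal.ofReal_ne_top] at h5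
  refine h5.trans (le_of_eq ?_)
  rw [W2, ← ENNReal.rpow_mul, show (1 / 2 : ℝ) * (1 / 3) = 1 / 6 by norm_num]
  rfl

/-- The distance of order two is at most the diameter. -/
theorem W2_le_of_ball' {R : ℝ} {μ ν : Measure (Space d)} [IsProbabilityMeasure μ]
    [IsProbabilityMeasure ν] (hμ : μ (Metric.closedBall 0 R)ᶜ = 0)
    (hν : ν (Metric.closedBall 0 R)ᶜ = 0) : W2 μ ν ≤ ENNReal.ofReal (2 * R) := by
  have h : ∫⁻ p, ‖p.1 - p.2‖ₑ ^ 2 ∂(μ.prod ν) ≤ ENNReal.ofReal (2 * R) ^ 2 := by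
    refine (lintegral_mono_ae (g := fun _ => ENNReal.ofReal (2 * R) ^ 2) ?_).trans
      (le_of_eq (by simp))
    filter_upwards [Measure.quasiMeasurePreserving_fst.ae (measure_eq_zero_iff_ae_notMem.1 hμ),
      Measure.quasiMeasurePreserving_snd.ae (measure_eq_zero_iff_ae_notMem.1 hν)] with p h1 h2
    simp only [Set.mem_compl_iff, not_not, mem_closedBall_zero_iff] at h1 h2
    gcongr
    rw [← ofReal_norm]
    exact ENNReal.ofReal_le_ofReal ((norm_sub_le _ _).trans (by linarith))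
  refine le_trans (ENNReal.rpow_le_rpow (iInf₂_le_of_le (μ.prod ν) ⟨?_, ?_⟩ h) (by norm_num)) ?_
  · simp [Measure.fst, Measure.map_fst_prod]
  · simp [Measure.snd, Measure.map_snd_prod]
  · rw [← ENNReal.rpow_two, ← ENNReal.rpow_mul]
    norm_num

/-- Every exponent up to one third is admissible. -/
theorem admissible_le_third [NeZero d] {α : ℝ} (hα : 0 < α) (hα3 : α ≤ 1 / 3) :
    Admissible d α := by
  intro K hK hKc hne Y hY
  obtain ⟨C, hC⟩ := stability_third hK hKc hne hY
  obtain ⟨R, hR⟩ := hY.isBounded.subset_closedBall 0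
  refine ⟨C * (2 * R).toNNReal ^ (1 / 3 - α), fun μ ν hμ hν hμY hνY T S hT hS => ?_⟩
  have hμR := measure_mono_null (Set.compl_subset_compl.2 hR) hμY
  have hνR := measure_mono_null (Set.compl_subset_compl.2 hR) hνY
  refine (hC μ ν hμ hν hμY hνY T S hT hS).trans ?_
  rw [ENNReal.coe_mul, mul_assoc]
  refine mul_le_mul' le_rfl ?_
  calc W2 μ ν ^ (1 / 3 : ℝ) = W2 μ ν ^ (1 / 3 - α) * W2 μ ν ^ α := by
        rw [← ENNReal.rpow_add_of_nonneg _ _ (by linarith) hα.le, sub_add_cancel]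
    _ ≤ _ := by
        refine mul_le_mul' ?_ le_rfl
        rw [ENNReal.coe_rpow_of_nonneg _ (by linarith : (0 : ℝ) ≤ 1 / 3 - α)]
        exact ENNReal.rpow_le_rpow (W2_le_of_ball' hμR hνR) (by linarith)

end Vale.Agent.P074
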