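import Vale.Agent.P074.Defs
import Vale.Agent.P074.DefsW1
import Mathlib.MeasureTheory.Integral.Lebesgue.Add
import Mathlib.MeasureTheory.Measure.Dirac
import Mathlib.MeasureTheory.Measure.Prod

/-!
An optimality criterion, and maps with three values.
-/

open MeasureTheory Finset
open scoped ENNReal NNReal RealInnerProductSpace

namespace Vale.Agent.P074

variable {d : ℕ}

/-- A map that is pointwise optimal for a potential on a finite set is an optimal map. -/
theorem isOptimalMap_of_potential {ρ : Measure (Space d)} [IsProbabilityMeasure ρ]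
    {T : Space d → Space d} (hT : Measurable T) (S : Finset (Space d)) (hTS : ∀ x, T x ∈ S)
    (ψ : Space d → ℝ) (hψ : Measurable ψ)
    (hpt : ∀ᵐ x ∂ρ, ∀ y ∈ S, ⟪x, y⟫ - ψ y ≤ ⟪x, T x⟫ - ψ (T x)) :
    IsOptimalMap ρ (ρ.map T) T := by
  refine ⟨hT, rfl, fun T' hT' hmap => ?_⟩
  set g : Space d → ℝ := fun y => ‖y‖ ^ 2 - 2 * ψ y with hg
  set B := ∑ y ∈ S, |g y| with hB
  set G : Space d → ℝ≥0∞ := fun y => ENNReal.ofReal (g y + B) with hGdef
  have hgm : Measurable g := (measurable_norm.pow_const 2).sub (hψ.const_mul 2)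
  have hG : Measurable G := ENNReal.measurable_ofReal.comp (hgm.add_const B)
  have hg0 : ∀ y ∈ S, 0 ≤ g y + B ∧ g y + B ≤ 2 * B := fun y hy => by
    have := single_le_sum (f := fun y => |g y|) (fun z _ => abs_nonneg (g z)) hy
    rw [← hB] at this
    have := abs_le.1 this
    constructor <;> linarith
  have hT'S : ∀ᵐ x ∂ρ, T' x ∈ S := by
    have h1 : ρ.map T (S : Set (Space d))ᶜ = 0 := by
      rw [Measure.map_apply hT S.measurableSet.compl]
      refine measure_mono_null (fun x hx => ?_) measure_empty
      exact absurd (Finset.mem_coe.2 (hTS x)) hx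
    rw [← hmap, Measure.map_apply hT' S.measurableSet.compl] at h1
    exact h1
  have key : ∀ᵐ x ∂ρ, ‖x - T x‖ₑ ^ 2 + G (T' x) ≤ ‖x - T' x‖ₑ ^ 2 + G (T x) := by
    filter_upwards [hpt, hT'S] with x h1 h2
    have h3 := h1 (T' x) h2
    have e : ∀ z : Space d, ‖z‖ₑ ^ 2 = ENNReal.ofReal (‖z‖ ^ 2) := fun z => by
      rw [← ofReal_norm_eq_enorm, ENNReal.ofReal_pow (norm_nonneg _)]
    rw [e, e, hGdef]
    simp only
    rw [← ENNReal.ofReal_add (sq_nonneg _) (hg0 _ h2).1,
      ← ENNReal.ofReal_add (sq_nonneg _) (hg0 _ (hTS x)).1]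
    refine ENNReal.ofReal_le_ofReal ?_
    simp only [hg, norm_sub_sq_real]
    linarith
  have hsame : ∫⁻ x, G (T' x) ∂ρ = ∫⁻ x, G (T x) ∂ρ := by
    rw [← lintegral_map hG hT', ← lintegral_map hG hT, hmap]
  have hfin : ∫⁻ x, G (T x) ∂ρ ≠ ⊤ := by
    refine ne_top_of_le_ne_top (b := ENNReal.ofReal (2 * B)) ENNReal.ofReal_ne_top ?_
    refine (lintegral_mono fun x => ENNReal.ofReal_le_ofReal (hg0 _ (hTS x)).2).trans ?_
    rw [lintegral_const, measure_univ, mul_one]
  have h := lintegral_mono_ae key
  rw [lintegral_add_right (g := fun x => G (T' x)) _ (hG.comp hT'),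
    lintegral_add_right (g := fun x => G (T x)) _ (hG.comp hT), hsame] at h
  exact (ENNReal.add_le_add_iff_right hfin).1 h

open Classical in
/-- A map equal to `l` on `L`, to `r` on `R`, and to `w` elsewhere. -/
noncomputable def three (L R : Set (Space d)) (l w r : Space d) (x : Space d) : Space d :=
  if x ∈ L then l else if x ∈ R then r else w

variable {L R : Set (Space d)} {l w r : Space d}

theorem measurable_three (hL : MeasurableSet L) (hR : MeasurableSet R) :
    Measurable (three L R l w r) := by
  classical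
  exact Measurable.ite hL measurable_const (Measurable.ite hR measurable_const measurable_const)

theorem map_three (ρ : Measure (Space d)) (hL : MeasurableSet L) (hR : MeasurableSet R)
    (hd : Disjoint L R) :
    ρ.map (three L R l w r) = ρ L • Measure.dirac l + ρ (L ∪ R)ᶜ • Measure.dirac w
      + ρ R • Measure.dirac r := by
  classical
  ext A hA
  rw [Measure.map_apply (measurable_three hL hR) hA]
  simp only [Measure.add_apply, Measure.smul_apply, Measure.dirac_apply' _ hA, smul_eq_mul]
  have hsplit : ∀ s : Set (Space d), MeasurableSet s →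
      ρ s = ρ (s ∩ L) + ρ (s ∩ (L ∪ R)ᶜ) + ρ (s ∩ R) := by
    intro s hs
    rw [← measure_inter_add_sdiff s (hL.union hR), add_right_comm]
    congr 1
    rw [Set.inter_union_distrib_left, measure_union (hd.mono Set.inter_subset_right Set.inter_subset_right)
      (hs.inter hR)]
  rw [hsplit _ (measurable_three hL hR hA)]
  have e : ∀ (P : Set (Space d)) (v : Space d), (∀ x ∈ P, three L R l w r x = v) →
      ρ (three L R l w r ⁻¹' A ∩ P) = ρ P * A.indicator 1 v := by
    intro P v hP
    by_cases hv : v ∈ A
    · rw [Set.indicator_of_mem hv, Pi.one_apply, mul_one]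
      congr 1
      ext x
      exact ⟨fun h => h.2, fun h => ⟨by rw [Set.mem_preimage, hP x h]; exact hv, h⟩⟩
    · rw [Set.indicator_of_notMem hv, mul_zero]
      refine measure_mono_null (fun x hx => ?_) measure_empty
      exact absurd (hP x hx.2 ▸ hx.1) hv
  rw [e L l fun x hx => if_pos hx,
    e (L ∪ R)ᶜ w fun x hx => by simp only [Set.mem_compl_iff, Set.mem_union, not_or] at hx
                                simp [three, hx.1, hx.2],
    e R r fun x hx => by simp [three, Set.disjoint_right.1 hd hx, hx]]

/-- Moving only the middle atom. -/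
theorem W2_move_middle (a b c : ℝ≥0∞) (l v w r : Space d) :
    W2 (a • Measure.dirac l + b • Measure.dirac v + c • Measure.dirac r)
      (a • Measure.dirac l + b • Measure.dirac w + c • Measure.dirac r)
      ≤ (b * ‖v - w‖ₑ ^ 2) ^ (1 / 2 : ℝ) := by
  refine ENNReal.rpow_le_rpow ?_ (by norm_num)
  refine iInf₂_le_of_le (a • Measure.dirac (l, l) + b • Measure.dirac (v, w)
    + c • Measure.dirac (r, r)) ⟨?_, ?_⟩ (le_of_eq ?_)
  · simp only [Measure.fst, Measure.map_add _ _ measurable_fst, Measure.map_smul,
      Measure.map_dirac' measurable_fst]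
  · simp only [Measure.snd, Measure.map_add _ _ measurable_snd, Measure.map_smul,
      Measure.map_dirac' measurable_snd]
  · simp [lintegral_add_measure, lintegral_smul_measure]

/-- Moving only the middle atom, in the distance of order one. -/
theorem W1_move_middle (a b c : ℝ≥0∞) (l v w r : Space d) :
    W1 (a • Measure.dirac l + b • Measure.dirac v + c • Measure.dirac r)
      (a • Measure.dirac l + b • Measure.dirac w + c • Measure.dirac r)
      ≤ b * ‖v - w‖ₑ := by
  refine iInf₂_le_of_le (a • Measure.dirac (l, l) + b • Measure.dirac (v, w)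
    + c • Measure.dirac (r, r)) ⟨?_, ?_⟩ (le_of_eq ?_)
  · simp only [Measure.fst, Measure.map_add _ _ measurable_fst, Measure.map_smul,
      Measure.map_dirac' measurable_fst]
  · simp only [Measure.snd, Measure.map_add _ _ measurable_snd, Measure.map_smul,
      Measure.map_dirac' measurable_snd]
  · simp [lintegral_add_measure, lintegral_smul_measure]

end Vale.Agent.P074
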